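import Vale.Agent.P146.H498.Ent
import Vale.Agent.P146.H295.ConcSK

/-!
P146, lower half (helper498): **the lower row inequality for the SK system** `skS n K m b w`
(`K ≥ 2` levels, fields on the levels one and two), with the heart lemma and the entropy bound
inserted: the only quantities left are the overlaps, the deficits `gg` of the two fields and the
increment of the free energy in the exponent of the level one.
-/

set_option linter.all false

open MeasureTheory ProbabilityTheory Finset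

namespace Vale.Agent.P146.H498.Row

open Vale.Agent.P157.Lv Vale.Agent.P157.Lv.Sy Vale.Agent.P146.H425
open Vale.Agent.P146.H295
open Vale.Agent.P157.Lv.Fld (uu nh_uu mg_eq eg_mg dep_mg sum_mg_sq Ex_mg_mul)
open Vale.Agent.P146.H93 (Cd st am aSK skS Em linS_sk)
open Vale.Agent.P146.H498.Edge (nu)

section gen

variable {ι X : Type} [Fintype ι] [DecidableEq ι] [Fintype X] [DecidableEq X] [Nonempty X]
  {S : Sy ι X} {D : ι → (ι → ℝ) → X → ℝ} {N : ℕ} {φ : X → Fin N → ℝ} {zc : ℕ → Fin N → ι}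
  {s : ℕ → ℝ} {P : ℕ → Prop}

lemma Fl1.ofP (F : FldP S D φ zc s P) (h1 : P 1) (hK : 1 ≤ S.K) : Fl1 S D φ zc s :=
  ⟨F.reg, F.N0, F.norm, F.lev 1 hK h1, F.D 1 hK h1⟩

/-- Jensen: `E u_l² ≤ E R²` -/
lemma t_le_Th (F : FldP S D φ zc s P) {l : ℕ} (hl : l ≤ S.K) :
    S.Ex (fun z x => uu S φ l z x ^ 2) ≤ Th S φ l := by
  have hS := F.hreg
  have ep : ∀ x, EG fun z => S.pr l z x := fun x => hS.eg_pr hl x
  -- the function of the configuration
  have n1 : Nh (fun (z : ι → ℝ) (x : X) => ∑ x', S.pr l z x' * Rov φ x x' ^ 2) := fun x =>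
    EG.sum _ fun x' _ => (ep x').mul (EG.const (Rov φ x x' ^ 2))
  have h1 : S.Ex (fun z x => uu S φ l z x ^ 2) ≤
      S.Ex (fun z x => ∑ x', S.pr l z x' * Rov φ x x' ^ 2) := by
    refine hS.Ex_mono (Nh.pow (nh_uu hS hl) 2) n1 fun z x => ?_
    rw [F.uu_eq hl]
    have h2 := lvp_sq (fun x' => S.pr l z x') (fun x' => Rov φ x' x)
      (fun x' => hS.pr_nonneg hl z x') (hS.sum_pr hl z)
    refine h2.trans (le_of_eq ?_)
    refine Finset.sum_congr rfl fun x' _ => ?_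
    have e : Rov φ x' x = Rov φ x x' := by
      unfold Rov
      congr 1
      exact Finset.sum_congr rfl fun i _ => mul_comm _ _
    rw [e]
  refine h1.trans (le_of_eq ?_)
  rw [← hS.Ex_T hl n1, Th, Sy.pairEx]
  congr 1
  funext z _
  rw [hS.T_sum hl Finset.univ (f := fun x' => fun (z : ι → ℝ) (x : X) =>
    S.pr l z x' * Rov φ x x' ^ 2) (fun x' _ => Nh.mul (Nh.fst (ep x'))
      (Nh.snd fun x => Rov φ x x' ^ 2))]
  have h3 : ∀ x', S.T l (fun z x => S.pr l z x' * Rov φ x x' ^ 2) z =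
      S.pr l z x' * ∑ x, S.pr l z x * Rov φ x x' ^ 2 := by
    intro x'
    rw [T_mul_left S (φ := fun z => S.pr l z x') (show Dep S.lev l (fun z => S.pr l z x') from
      S.dep_T l _), hS.T_pr hl]
  simp only [h3]
  rw [Finset.sum_comm]
  refine Finset.sum_congr rfl fun x' _ => ?_
  rw [Finset.mul_sum]
  refine Finset.sum_congr rfl fun x _ => ?_
  ring

/-- the sum of the covariances of `u_l` with the later ones -/
lemma heart_eq (F : FldP S D φ zc s P) (hinj : ∀ p ≤ S.K, P p → Function.Injective (zc p))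
    (hs : ∀ p ≤ S.K, P p → 0 < s p) {l : ℕ} (hl : l < S.K) (Pl : P l) (Pl1 : P (l + 1)) :
    S.p l * ∑ i ∈ Finset.Ico (l + 1) (S.K + 1), S.p i * Cv S (uu S φ l) (uu S φ i) =
      H295.gg S φ zc s (l + 1) (l + 1) - H295.gg S φ zc s l (l + 1) := by
  have h1 := gg_sub F hinj hs (p := l) (q := l + 1) hl hl Pl Pl1 Pl1
  have h2 := cov_A F hs (l := l) (j := l + 1) (Nat.lt_succ_self l) hl Pl1
  rw [h2] at h1
  linarith

lemma gg_nonneg (hG : GP S φ zc s P) {l : ℕ} (hl : l ≤ S.K) (Pl : P l) : 0 ≤ H295.gg S φ zc s l l := by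
  have h := hG.three hl hl hl Pl Pl Pl 1 0 0
  linarith

/-- Cauchy–Schwarz for the deficit matrix -/
lemma gg_cs (hG : GP S φ zc s P) {i j : ℕ} (hi : i ≤ S.K) (hj : j ≤ S.K) (Pi : P i) (Pj : P j) :
    |H295.gg S φ zc s i j| ≤ √(H295.gg S φ zc s i i * H295.gg S φ zc s j j) := by
  have hi0 := gg_nonneg hG hi Pi
  have hj0 := gg_nonneg hG hj Pj
  apply Real.abs_le_sqrt
  have h := fun α β : ℝ => hG.three hi hj hj Pi Pj Pj α β 0
  have h1 : ∀ α β : ℝ, 0 ≤ α ^ 2 * H295.gg S φ zc s i i + β ^ 2 * H295.gg S φ zc s j j +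
      2 * (α * β * H295.gg S φ zc s i j) := by
    intro α β
    have := h α β
    nlinarith
  rcases eq_or_lt_of_le hj0 with h0 | h0
  · have h2 : H295.gg S φ zc s i j = 0 := by
      by_contra hne
      have h3 := h1 1 (-(H295.gg S φ zc s i i + 1) / (2 * H295.gg S φ zc s i j))
      rw [← h0] at h3
      have h4 : 2 * (1 * (-(H295.gg S φ zc s i i + 1) / (2 * H295.gg S φ zc s i j)) * H295.gg S φ zc s i j) =
          -(H295.gg S φ zc s i i + 1) := by
        field_simp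
      rw [h4] at h3
      nlinarith
    rw [h2]
    nlinarith
  · have h3 := h1 (H295.gg S φ zc s j j) (-H295.gg S φ zc s i j)
    have h4 : 0 ≤ H295.gg S φ zc s j j * (H295.gg S φ zc s i i * H295.gg S φ zc s j j - H295.gg S φ zc s i j ^ 2) := by
      nlinarith
    have h5 : 0 ≤ H295.gg S φ zc s i i * H295.gg S φ zc s j j - H295.gg S φ zc s i j ^ 2 := by
      by_contra hne
      push Not at hne
      nlinarith [mul_neg_of_pos_of_neg h0 hne]
    linarith

/-- **the heart lemma** for `u_l` against the later overlaps -/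
lemma heart_le (F : FldP S D φ zc s P) (hinj : ∀ p ≤ S.K, P p → Function.Injective (zc p))
    (hs : ∀ p ≤ S.K, P p → 0 < s p) (hG : GP S φ zc s P) {l : ℕ} (hl : l < S.K) (Pl : P l)
    (Pl1 : P (l + 1)) (hp : 0 < S.p l) :
    |∑ i ∈ Finset.Ico (l + 1) (S.K + 1), S.p i * Cv S (uu S φ l) (uu S φ i)| ≤
      (H295.gg S φ zc s (l + 1) (l + 1) +
        √(H295.gg S φ zc s l l * H295.gg S φ zc s (l + 1) (l + 1))) / S.p l := by
  have h1 := heart_eq F hinj hs hl Pl Pl1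
  have h2 := gg_cs hG hl.le hl Pl Pl1
  have h3 := gg_nonneg hG hl Pl1
  rw [le_div_iff₀ hp, ← abs_of_pos hp, ← abs_mul, mul_comm, h1]
  refine (abs_sub _ _).trans ?_
  rw [abs_of_nonneg h3]
  linarith

/-- the planted variance of the field -/
lemma hP_of (hG : GP S φ zc s P) (hs : 0 < s 1) (hK : 1 ≤ S.K) (h1 : P 1) :
    S.Ex (fun z x => hz φ zc 1 z x * hz φ zc 1 z x) - S.Ex (hz φ zc 1) ^ 2 ≤ 1 / N := by
  have h := gg_nonneg hG hK h1
  unfold H295.gg at h
  rw [if_pos rfl] at h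
  unfold H295.Cv at h
  have e1 : S.Ex (fun z x => ll φ zc s 1 z x * ll φ zc s 1 z x) =
      (1 / s 1) ^ 2 * S.Ex (fun z x => hz φ zc 1 z x * hz φ zc 1 z x) := by
    rw [← Ex_const_mul]
    congr 1
    funext z x
    unfold ll
    ring
  have e2 : S.Ex (ll φ zc s 1) = 1 / s 1 * S.Ex (hz φ zc 1) := by
    have : ll φ zc s 1 = fun z x => 1 / s 1 * hz φ zc 1 z x := rfl
    rw [this, Ex_const_mul]
  rw [e1, e2] at h
  have h2 := mul_le_mul_of_nonneg_left h (sq_nonneg (s 1))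
  have h3 : s 1 ^ 2 * (1 / (N * s 1 ^ 2) - ((1 / s 1) ^ 2 *
      S.Ex (fun z x => hz φ zc 1 z x * hz φ zc 1 z x) -
      1 / s 1 * S.Ex (hz φ zc 1) * (1 / s 1 * S.Ex (hz φ zc 1)))) = 1 / N -
      (S.Ex (fun z x => hz φ zc 1 z x * hz φ zc 1 z x) - S.Ex (hz φ zc 1) ^ 2) := by
    rcases Nat.eq_zero_or_pos N with h0 | h0
    · subst h0
      simp only [Nat.cast_zero, zero_mul, div_zero]
      field_simp
      ring
    · have : (0 : ℝ) < N := by exact_mod_cast h0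
      field_simp
  rw [h3, mul_zero] at h2
  linarith

/-- **The lower row inequality, final form.** `ρ = R_1`, `t = E u_1²`,
`χ_j = 1 - ∑_{i ≥ j} p_i R_i`, `E` = any bound of the entropy of the level one. -/
theorem lrow_fin (F : FldP S D φ zc s P) (hinj : ∀ p ≤ S.K, P p → Function.Injective (zc p))
    (hs : ∀ p ≤ S.K, P p → 0 < s p) (hG : GP S φ zc s P) {zb : Pair N → ι} {cb : ℝ}
    (B : Bnd S D φ zc zb cb) (hK : 2 ≤ S.K) (P1 : P 1) (P2 : P 2) (hp : 0 < S.p 1)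
    {D0 E χ1 χ2 : ℝ} (hD : 0 < D0) (hD1 : D0 ≤ 1) (hE : ent S ≤ E)
    (hχ1 : χ1 = 1 - ∑ i ∈ Finset.Ico 1 (S.K + 1), S.p i * S.Rl φ i)
    (hχ2 : χ2 = 1 - ∑ i ∈ Finset.Ico 2 (S.K + 1), S.p i * S.Rl φ i)
    (hB : cb * √N * χ1 ≤ 2) :
    s 1 ^ 2 * χ1 ^ 2 * (2 - cb * √N * χ1) ^ 2 / (7 * (1 + S.m 1 * s 1 ^ 2)) +
      2 * (cb * √N * χ2 - 1) * S.Rl φ 1 ≤
    cb * √N * (2 * S.m 2 - S.m 1) * S.Ex (fun z x => uu S φ 1 z x ^ 2) +
      2 * (cb * √N) * ((H295.gg S φ zc s 2 2 +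
        √(H295.gg S φ zc s 1 1 * H295.gg S φ zc s 2 2)) / S.p 1) +
      (D0 + cb * √N * S.m 1 / N) * S.Rl φ 1 +
      3 * (E + Real.log 3) / (N * D0) + 16 * (E + Real.log 5) / N := by
  have hS := F.hreg
  have hK1 : 1 ≤ S.K := by omega
  have F1 : Fl1 S D φ zc s := Fl1.ofP F P1 hK1
  have hN := F.N_pos
  have hs1 := hs 1 hK1 P1
  have hP := hP_of hG hs1 hK1 P1
  have hheart := heart_le F hinj hs hG (l := 1) (by omega) P1 P2 hp
  set Bb := cb * √(N : ℝ) with hBb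
  set ρ := S.Rl φ 1 with hρ
  set G := (H295.gg S φ zc s (1 + 1) (1 + 1) + √(H295.gg S φ zc s 1 1 *
    H295.gg S φ zc s (1 + 1) (1 + 1))) / S.p 1 with hGd
  have hρ0 : 0 ≤ ρ := F.Rl_nonneg hK1
  have hB0 : 0 ≤ Bb := mul_nonneg B.c0 (Real.sqrt_nonneg _)
  have hm1 : 0 < S.m 1 := hS.pos
  have hsum1 : ∑ i ∈ Finset.Ico 1 (S.K + 1), S.p i * S.Rl φ i ≤ 1 := by
    calc ∑ i ∈ Finset.Ico 1 (S.K + 1), S.p i * S.Rl φ i
        ≤ ∑ i ∈ Finset.Ico 1 (S.K + 1), S.p i := by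
          refine Finset.sum_le_sum fun i hi => ?_
          rw [Finset.mem_Ico] at hi
          have h2 : 0 ≤ S.p i := by
            unfold Sy.p
            linarith [hS.mono i (by omega)]
          calc S.p i * S.Rl φ i ≤ S.p i * 1 :=
                mul_le_mul_of_nonneg_left (F.Rl_le_one (by omega)) h2
            _ = S.p i := mul_one _
      _ ≤ 1 := by
          rw [Row.sum_p S (show 1 ≤ S.K + 1 by omega), hS.mK]
          linarith
  have hsum0 : 0 ≤ ∑ i ∈ Finset.Ico 1 (S.K + 1), S.p i * S.Rl φ i := by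
    refine Finset.sum_nonneg fun i hi => ?_
    rw [Finset.mem_Ico] at hi
    have h2 : 0 ≤ S.p i := by
      unfold Sy.p
      linarith [hS.mono i (by omega)]
    exact mul_nonneg h2 (F.Rl_nonneg (by omega))
  have hχ0 : 0 ≤ χ1 := by linarith
  have hχle : χ1 ≤ 1 := by linarith
  -- the choice of `lam`
  set A := s 1 * χ1 * (2 + D0 - Bb * χ1) with hA
  set C := (2 * (2 + D0) + 1) * (1 + S.m 1 * s 1 ^ 2 * χ1) with hC
  have hms : 0 ≤ S.m 1 * s 1 ^ 2 := by positivity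
  have hC0 : 0 < C := by positivity
  have hA0 : 0 ≤ A := mul_nonneg (mul_nonneg hs1.le hχ0) (by linarith)
  have hrow := lrow F1 B (l := 1) le_rfl hK1 hs1 hP hD (lam := A / C) (div_nonneg hA0 hC0.le)
    (τ := 1) one_pos hχ1
  rw [brk_one F1 B hK1] at hrow
  rw [← hBb, ← hρ] at hrow
  -- the heart
  have hcov : ∑ k ∈ Finset.Ico 2 (S.K + 1), S.p k *
      S.Ex (fun z x => uu S φ 1 z x * uu S φ k z x) =
      ∑ k ∈ Finset.Ico 2 (S.K + 1), S.p k * H295.Cv S (uu S φ 1) (uu S φ k) + ρ * (1 - χ2) := by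
    rw [hχ2, sub_sub_cancel, Finset.mul_sum, ← Finset.sum_add_distrib]
    refine Finset.sum_congr rfl fun k hk => ?_
    rw [Finset.mem_Ico] at hk
    unfold H295.Cv
    rw [F.Ex_uu hK1, F.Ex_uu (by omega : k ≤ S.K)]
    ring
  rw [hcov] at hrow
  have hheart2 := (abs_le.1 hheart).2
  have ht : S.Ex (fun z x => uu S φ 1 z x * uu S φ 1 z x) =
      S.Ex (fun z x => uu S φ 1 z x ^ 2) := by
    congr 1
    funext z x
    ring
  rw [ht] at hrow
  set t := S.Ex (fun z x => uu S φ 1 z x ^ 2) with htd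
  set Q := ∑ k ∈ Finset.Ico 2 (S.K + 1), S.p k * H295.Cv S (uu S φ 1) (uu S φ k) with hQ
  have hQ2 : Q ≤ G := hheart2
  have h2A : 2 * (A / C) * A = 2 * (A ^ 2 / C) := by ring
  have hCC : (2 * (2 + D0) + 1) * (A / C) ^ 2 * (1 + S.m 1 * s 1 ^ 2 * χ1) = A ^ 2 / C := by
    rw [div_pow, hC]
    field_simp
  have hlhs : s 1 ^ 2 * χ1 ^ 2 * (2 - Bb * χ1) ^ 2 / (7 * (1 + S.m 1 * s 1 ^ 2)) ≤ A ^ 2 / C := by
    have e1 : C ≤ 7 * (1 + S.m 1 * s 1 ^ 2) := by
      rw [hC]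
      refine mul_le_mul (by linarith) ?_ (by positivity) (by norm_num)
      have := mul_le_mul_of_nonneg_left hχle hms
      linarith
    have e2 : s 1 ^ 2 * χ1 ^ 2 * (2 - Bb * χ1) ^ 2 ≤ A ^ 2 := by
      rw [hA, mul_pow, mul_pow]
      refine mul_le_mul_of_nonneg_left ?_ (by positivity)
      exact pow_le_pow_left₀ (by linarith) (by linarith) 2
    exact div_le_div₀ (by positivity) e2 hC0 e1
  have herr1 : 3 * ((ent S + Real.log 3) / (N * D0)) ≤ 3 * (E + Real.log 3) / (N * D0) := by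
    rw [mul_div_assoc]
    refine mul_le_mul_of_nonneg_left ?_ (by norm_num)
    exact div_le_div_of_nonneg_right (by linarith) (by positivity)
  have herr2 : (2 / (2 + D0) + 1 / 1) * ((ent S + Real.log 5) / (N / 8)) ≤
      16 * (E + Real.log 5) / N := by
    have h0 : 0 ≤ ent S + Real.log 5 := by
      have h1 := exc_two F1 B
      have h2 : 0 ≤ S.Ex (fun z _ => max (nu N (gg zb z) - 2) 0 ^ 2) := by
        have hl := nuz_lip (ι := ι) zb
        have hmeas : Measurable fun z : ι → ℝ => nu N (gg zb z) := hl.eg.meas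
        have eX2 : EG (fun z : ι → ℝ => max (nu N (gg zb z) - 2) 0 ^ 2) := by
          have e1 : EG (fun z : ι → ℝ => nu N (gg zb z) - 2) := hl.eg.sub (EG.const 2)
          refine EG.pow (e1.mono (by fun_prop) fun y => ?_) 2
          rw [abs_of_nonneg (le_max_right _ _)]
          exact max_le (le_abs_self _) (abs_nonneg _)
        have h7 := hS.Ex_mono (X := X) (f := fun _ _ => (0 : ℝ))
          (g := fun z _ => max (nu N (gg zb z) - 2) 0 ^ 2) (Nh.fst (EG.const 0)) (Nh.fst eX2)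
          fun z _ => sq_nonneg _
        rwa [hS.Ex_const] at h7
      have h3 := h2.trans h1
      have h4 : (0 : ℝ) < N / 8 := by positivity
      rwa [le_div_iff₀ h4, zero_mul] at h3
    have h1 : 2 / (2 + D0) + 1 / 1 ≤ (2 : ℝ) := by
      have : 2 / (2 + D0) ≤ (1 : ℝ) := by
        rw [div_le_one (by positivity)]
        linarith
      linarith
    calc (2 / (2 + D0) + 1 / 1) * ((ent S + Real.log 5) / (N / 8))
        ≤ 2 * ((ent S + Real.log 5) / (N / 8)) :=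
          mul_le_mul_of_nonneg_right h1 (by positivity)
      _ ≤ 2 * ((E + Real.log 5) / (N / 8)) := by
          refine mul_le_mul_of_nonneg_left ?_ (by norm_num)
          exact div_le_div_of_nonneg_right (by linarith) (by positivity)
      _ = 16 * (E + Real.log 5) / N := by field_simp; ring
  have hQB : 2 * Bb * Q ≤ 2 * Bb * G := mul_le_mul_of_nonneg_left hQ2 (by positivity)
  have e5 : 2 * (A / C) * (s 1 * χ1 * (2 + D0 - Bb * χ1)) = 2 * (A ^ 2 / C) := by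
    rw [← hA, h2A]
  rw [e5, hCC] at hrow
  have e6 : Bb * (2 * ρ - 2 * (Q + ρ * (1 - χ2)) - (2 * S.m 2 - S.m 1) * t - S.m 1 * ρ / N) =
      2 * Bb * χ2 * ρ - 2 * Bb * Q - Bb * (2 * S.m 2 - S.m 1) * t - Bb * S.m 1 / N * ρ := by
    ring
  rw [e6] at hrow
  have e7 : (D0 + Bb * S.m 1 / N) * ρ = D0 * ρ + Bb * S.m 1 / N * ρ := by ring
  have e8 : 2 * (Bb * χ2 - 1) * ρ = 2 * Bb * χ2 * ρ - 2 * ρ := by ring
  rw [e7, e8]
  have e9 : (1 : ℕ) + 1 = 2 := rfl
  linarith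

end gen

/-! ## the SK system -/

section sk

variable {n K : ℕ} {m b w : ℕ → ℝ}

lemma bnd_sk (hK : 0 < K) (hm : Em K m) (hb : 0 ≤ b 1) :
    Bnd (skS n K m b w) (fun e _ x => aSK n K b w x e) (spn n) (zs hK)
      (fun e => (Sum.inl e, ⟨0, hK⟩)) (b 1) where
  inj := fun e e' h => by simpa using h
  lev := fun e => rfl
  D := fun e z x => rfl
  spin := fun x i => H325.sp_mul_self x i
  ne := fun i e h => by
    have := congrArg Prod.fst h
    simp [zs] at this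
  injc := zs_inj hK 1
  K1 := hK
  c0 := hb

/-- the entropy of the level one of the SK system -/
noncomputable def eSK (n K : ℕ) (m b w : ℕ → ℝ) (M : ℝ) : ℝ :=
  m 1 * M / (M - m 1) * ((skS n K (Function.update m 1 M) b w).fe - (skS n K m b w).fe)

lemma ent_sk (hK : 0 < K) (hm : Em K m) (b w : ℕ → ℝ) {M : ℝ} (hM : m 1 < M) :
    ent (skS n K m b w) ≤ eSK n K m b w M := by
  have h := ent_le (S := skS n K m b w) (linS_sk hm b w).reg hK (M := M) hM
  have h1 : 0 < M - m 1 := by linarith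
  unfold eSK
  rw [div_mul_eq_mul_div, le_div_iff₀ h1, mul_comm]
  exact h

/-- **The lower row inequality for the SK system.** -/
theorem lrow_sk (hn : 0 < n) (hK : 2 ≤ K) (hm : Em K m) (hb : 0 ≤ b 1) (hw1 : 0 < w 1)
    (hw2 : 0 < w 2) (hp : m 1 < m 2) {D0 M χ1 χ2 : ℝ} (hD : 0 < D0) (hD1 : D0 ≤ 1)
    (hM : m 1 < M)
    (hχ1 : χ1 = 1 - ∑ i ∈ Finset.Ico 1 (K + 1), (m (i + 1) - m i) *
      (skS n K m b w).Rl (spn n) i)
    (hχ2 : χ2 = 1 - ∑ i ∈ Finset.Ico 2 (K + 1), (m (i + 1) - m i) *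
      (skS n K m b w).Rl (spn n) i)
    (hB : b 1 * √n * χ1 ≤ 2) {g1 g2 : ℝ}
    (hg1 : H295.gg (skS n K m b w) (spn n) (zs (by omega : 0 < K)) w 1 1 ≤ g1)
    (hg2 : H295.gg (skS n K m b w) (spn n) (zs (by omega : 0 < K)) w 2 2 ≤ g2) :
    w 1 ^ 2 * χ1 ^ 2 * (2 - b 1 * √n * χ1) ^ 2 / (7 * (1 + m 1 * w 1 ^ 2)) +
      2 * (b 1 * √n * χ2 - 1) * (skS n K m b w).Rl (spn n) 1 ≤
    b 1 * √n * (2 * m 2 - m 1) * Th (skS n K m b w) (spn n) 1 +
      2 * (b 1 * √n) * ((g2 + √(g1 * g2)) / (m 2 - m 1)) +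
      (D0 + b 1 * √n * m 1 / n) * (skS n K m b w).Rl (spn n) 1 +
      3 * (eSK n K m b w M + Real.log 3) / (n * D0) + 16 * (eSK n K m b w M + Real.log 5) / n := by
  have hK0 : 0 < K := by omega
  set P : ℕ → Prop := fun l => 1 ≤ l ∧ l ≤ 2 with hPd
  have hP1 : ∀ p, P p → 1 ≤ p := fun p h => h.1
  have hw' : ∀ p ≤ K, P p → 0 < w p := by
    rintro p _ ⟨h1, h2⟩
    rcases (by omega : p = 1 ∨ p = 2) with rfl | rfl
    · exact hw1
    · exact hw2
  have F := fldP_sk (P := P) hn hK0 hm b w hP1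
  have hG := gp_sk (P := P) hn hK0 hm b w hP1 hw'
  have P1 : P 1 := ⟨le_rfl, by norm_num⟩
  have P2 : P 2 := ⟨by norm_num, le_rfl⟩
  have hpp : (skS n K m b w).p 1 = m 2 - m 1 := rfl
  have h := lrow_fin F (fun p _ _ => zs_inj hK0 p) hw' hG (bnd_sk (w := w) hK0 hm hb) hK P1 P2
    (by rw [hpp]; linarith) hD hD1 (ent_sk (n := n) hK0 hm b w hM) hχ1 hχ2 hB
  have hB0 : 0 ≤ b 1 * √(n : ℝ) := mul_nonneg hb (Real.sqrt_nonneg _)
  have h21 : 0 ≤ 2 * m 2 - m 1 := by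
    have : 0 < m 1 := hm.pos
    linarith
  have ht := mul_le_mul_of_nonneg_left (t_le_Th F (l := 1) (show 1 ≤ K by omega))
    (mul_nonneg hB0 h21)
  have g10 := gg_nonneg hG (show 1 ≤ K by omega) P1
  have g20 := gg_nonneg hG (show 2 ≤ K by omega) P2
  have hgg : (H295.gg (skS n K m b w) (spn n) (zs hK0) w 2 2 +
      √(H295.gg (skS n K m b w) (spn n) (zs hK0) w 1 1 *
        H295.gg (skS n K m b w) (spn n) (zs hK0) w 2 2)) / (m 2 - m 1) ≤
      (g2 + √(g1 * g2)) / (m 2 - m 1) := by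
    refine div_le_div_of_nonneg_right ?_ (by linarith)
    refine add_le_add hg2 (Real.sqrt_le_sqrt ?_)
    exact mul_le_mul hg1 hg2 g20 (g10.trans hg1)
  have hgg2 := mul_le_mul_of_nonneg_left hgg (show 0 ≤ 2 * (b 1 * √(n : ℝ)) by positivity)
  rw [hpp] at h
  have e1 : (skS n K m b w).m = m := rfl
  rw [e1] at h
  linarith

end sk

end Vale.Agent.P146.H498.Row
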