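import Vale.Agent.P146.H498.MRow3

/-!
P146, lower half (helper498): **the lower row inequality at any level `l < K` of the SK system with
the couplings of all the levels `≤ l`**, heart lemma and entropy bound inserted.
-/

set_option linter.all false

open MeasureTheory ProbabilityTheory Finset

namespace Vale.Agent.P146.H498.MRow

open Vale.Agent.P157.Lv Vale.Agent.P157.Lv.Sy Vale.Agent.P146.H425
open Vale.Agent.P146.H295
open Vale.Agent.P157.Lv.Fld (uu nh_uu mg_eq eg_mg dep_mg sum_mg_sq Ex_mg_mul)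
open Vale.Agent.P146.H93 (Cd st am aSK skS Em linS_sk)
open Vale.Agent.P146.H498.Edge (nu)
open Vale.Agent.P146.H498.Row (Fl1 hP_of heart_le tau gg_nonneg t_le_Th)

section gen

variable {ι X : Type} [Fintype ι] [DecidableEq ι] [Fintype X] [DecidableEq X] [Nonempty X]
  {S : Sy ι X} {D : ι → (ι → ℝ) → X → ℝ} {N : ℕ} {φ : X → Fin N → ℝ} {zc : ℕ → Fin N → ι}
  {s : ℕ → ℝ} {P : ℕ → Prop} {zb : ℕ → Pair N → ι} {cb : ℕ → ℝ} {l : ℕ} {Bt : ℝ}

/-- **The lower row inequality at the level `l`, final form.** -/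
theorem lrowL_fin (F : FldP S D φ zc s P) (hinj : ∀ p ≤ S.K, P p → Function.Injective (zc p))
    (hs : ∀ p ≤ S.K, P p → 0 < s p) (hG : GP S φ zc s P)
    (B : Bns S D φ zc zb cb l Bt) (hl : l < S.K) (P1 : P 1) (Pl : P l) (Pl1 : P (l + 1))
    (hp : 0 < S.p l) {D0 E χ1 χl χn : ℝ} (hD : 0 < D0) (hD1 : D0 ≤ 1) (hE : entL S l ≤ E)
    (hχ1 : χ1 = 1 - ∑ i ∈ Finset.Ico 1 (S.K + 1), S.p i * S.Rl φ i)
    (hχl : χl = 1 - ∑ i ∈ Finset.Ico l (S.K + 1), S.p i * S.Rl φ i)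
    (hχn : χn = 1 - ∑ i ∈ Finset.Ico (l + 1) (S.K + 1), S.p i * S.Rl φ i) :
    max (s 1 * χ1 * (2 - Bt * √N * χl) - Bt * √N * ∑ k ∈ Finset.Ico 1 l,
        S.p k * √(S.Ex (fun z x => uu S φ k z x ^ 2) / N)) 0 ^ 2 / (7 * (1 + S.m 1 * s 1 ^ 2)) +
      2 * (Bt * √N * χn - 1) * S.Rl φ l ≤
    Bt * √N * (2 * S.m (l + 1) - S.m l) * S.Ex (fun z x => uu S φ l z x ^ 2) +
      Bt * √N * ∑ k ∈ Finset.Ico 1 l, S.p k * (shr cb Bt k * tau S φ k l) +
      2 * (Bt * √N) * ((H295.gg S φ zc s (l + 1) (l + 1) +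
        √(H295.gg S φ zc s l l * H295.gg S φ zc s (l + 1) (l + 1))) / S.p l) +
      (D0 + Bt * √N * S.m l / N) * S.Rl φ l +
      3 * (E + Real.log 3) / (N * D0) + 16 * (E + Real.log 5) / N := by
  have hS := F.hreg
  have hl1 := B.l1
  have hK1 : 1 ≤ S.K := by omega
  have F1 : Fl1 S D φ zc s := Fl1.ofP F P1 hK1
  have hN := F.N_pos
  have hs1 := hs 1 hK1 P1
  have hP := hP_of hG hs1 hK1 P1
  have hheart := heart_le F hinj hs hG (l := l) hl Pl Pl1 hp
  set Bb := Bt * √(N : ℝ) with hBb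
  set ρ := S.Rl φ l with hρ
  set Gt := (H295.gg S φ zc s (l + 1) (l + 1) + √(H295.gg S φ zc s l l *
    H295.gg S φ zc s (l + 1) (l + 1))) / S.p l with hGd
  have hρ0 : 0 ≤ ρ := F.Rl_nonneg hl.le
  have hB0 : 0 ≤ Bb := mul_nonneg B.pos.le (Real.sqrt_nonneg _)
  have hm1 : 0 < S.m 1 := hS.pos
  have hsum1 : ∑ i ∈ Finset.Ico 1 (S.K + 1), S.p i * S.Rl φ i ≤ 1 := by
    calc ∑ i ∈ Finset.Ico 1 (S.K + 1), S.p i * S.Rl φ i
        ≤ ∑ i ∈ Finset.Ico 1 (S.K + 1), S.p i := by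
          refine Finset.sum_le_sum fun i hi => ?_
          rw [Finset.mem_Ico] at hi
          have h2 : 0 ≤ S.p i := by
            unfold Sy.p
            linarith [hS.mono i (by omega)]
          calc S.p i * S.Rl φ i ≤ S.p i * 1 :=
                mul_le_mul_of_nonneg_left (F.Rl_le_one (by omega)) h2
            _ = S.p i := mul_one _
      _ ≤ 1 := by
          rw [Row.sum_p S (show 1 ≤ S.K + 1 by omega), hS.mK]
          linarith
  have hsum0 : 0 ≤ ∑ i ∈ Finset.Ico 1 (S.K + 1), S.p i * S.Rl φ i := by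
    refine Finset.sum_nonneg fun i hi => ?_
    rw [Finset.mem_Ico] at hi
    have h2 : 0 ≤ S.p i := by
      unfold Sy.p
      linarith [hS.mono i (by omega)]
    exact mul_nonneg h2 (F.Rl_nonneg (by omega))
  have hχ0 : 0 ≤ χ1 := by linarith
  have hχle : χ1 ≤ 1 := by linarith
  -- the choice of `lam`
  set δ := ∑ k ∈ Finset.Ico 1 l, S.p k * √(S.Ex (fun z x => uu S φ k z x ^ 2) / N) with hδ
  set A := s 1 * χ1 * (2 + D0 - Bb * χl) - Bb * δ with hA
  set A0 := s 1 * χ1 * (2 - Bb * χl) - Bb * δ with hA0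
  have hAA : A0 ≤ A := by
    have h1 : 0 ≤ s 1 * χ1 * D0 := mul_nonneg (mul_nonneg hs1.le hχ0) hD.le
    have h2 : A = A0 + s 1 * χ1 * D0 := by rw [hA, hA0]; ring
    linarith
  set C := (2 * (2 + D0) + 1) * (1 + S.m 1 * s 1 ^ 2 * χ1) with hC
  have hms : 0 ≤ S.m 1 * s 1 ^ 2 := by positivity
  have hC0 : 0 < C := by positivity
  have hmax0 : 0 ≤ max A 0 := le_max_right _ _
  have hrow := lrowL F1 B hl.le hs1 hP hD (lam := max A 0 / C) (div_nonneg hmax0 hC0.le)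
    (τ := 1) one_pos hχ1 hχl
  rw [← hBb, ← hρ, ← hδ, ← hA] at hrow
  -- the heart
  have hcov : ∑ k ∈ Finset.Ico (l + 1) (S.K + 1), S.p k *
      S.Ex (fun z x => uu S φ l z x * uu S φ k z x) =
      ∑ k ∈ Finset.Ico (l + 1) (S.K + 1), S.p k * H295.Cv S (uu S φ l) (uu S φ k) +
        ρ * (1 - χn) := by
    rw [hχn, sub_sub_cancel, Finset.mul_sum, ← Finset.sum_add_distrib]
    refine Finset.sum_congr rfl fun k hk => ?_
    rw [Finset.mem_Ico] at hk
    unfold H295.Cv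
    rw [F.Ex_uu hl.le, F.Ex_uu (by omega : k ≤ S.K)]
    ring
  unfold brkT at hrow
  rw [hcov] at hrow
  have hheart2 := (abs_le.1 hheart).2
  have ht : S.Ex (fun z x => uu S φ l z x * uu S φ l z x) =
      S.Ex (fun z x => uu S φ l z x ^ 2) := by
    congr 1
    funext z x
    ring
  rw [ht, ← hρ] at hrow
  set t := S.Ex (fun z x => uu S φ l z x ^ 2) with htd
  set Q := ∑ k ∈ Finset.Ico (l + 1) (S.K + 1), S.p k * H295.Cv S (uu S φ l) (uu S φ k) with hQ
  set U := ∑ k ∈ Finset.Ico 1 l, S.p k * (shr cb Bt k * tau S φ k l) with hU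
  have hQ2 : Q ≤ Gt := hheart2
  have h2A : 2 * (max A 0 / C) * A = 2 * (max A 0 ^ 2 / C) := by
    have h1 : max A 0 * A = max A 0 ^ 2 := by
      rcases le_total A 0 with h | h
      · rw [max_eq_right h]; ring
      · rw [max_eq_left h]; ring
    calc 2 * (max A 0 / C) * A = 2 * ((max A 0 * A) / C) := by ring
      _ = _ := by rw [h1]
  have hCC : (2 * (2 + D0) + 1) * (max A 0 / C) ^ 2 * (1 + S.m 1 * s 1 ^ 2 * χ1) =
      max A 0 ^ 2 / C := by
    rw [div_pow, hC]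
    field_simp
  have hlhs : max A0 0 ^ 2 / (7 * (1 + S.m 1 * s 1 ^ 2)) ≤ max A 0 ^ 2 / C := by
    have e1 : C ≤ 7 * (1 + S.m 1 * s 1 ^ 2) := by
      rw [hC]
      refine mul_le_mul (by linarith) ?_ (by positivity) (by norm_num)
      have := mul_le_mul_of_nonneg_left hχle hms
      linarith
    have e2 : max A0 0 ^ 2 ≤ max A 0 ^ 2 :=
      pow_le_pow_left₀ (le_max_right _ _) (max_le_max hAA le_rfl) 2
    exact div_le_div₀ (by positivity) e2 hC0 e1
  have herr1 : 3 * ((entL S l + Real.log 3) / (N * D0)) ≤ 3 * (E + Real.log 3) / (N * D0) := by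
    rw [mul_div_assoc]
    refine mul_le_mul_of_nonneg_left ?_ (by norm_num)
    exact div_le_div_of_nonneg_right (by linarith) (by positivity)
  have herr2 : (2 / (2 + D0) + 1 / 1) * ((entL S l + Real.log 5) / (N / 8)) ≤
      16 * (E + Real.log 5) / N := by
    have h0 : 0 ≤ entL S l + Real.log 5 := by
      have h1 := exc_two F1 B hl.le
      have h2 : 0 ≤ S.Ex (fun z _ => max (nu N (GG zb cb l Bt z) - 2) 0 ^ 2) := by
        have eX2 := eg_excG2 zb cb l Bt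
        have h7 := hS.Ex_mono (X := X) (f := fun _ _ => (0 : ℝ))
          (g := fun z _ => max (nu N (GG zb cb l Bt z) - 2) 0 ^ 2) (Nh.fst (EG.const 0))
          (Nh.fst eX2) fun z _ => sq_nonneg _
        rwa [hS.Ex_const] at h7
      have h3 := h2.trans h1
      have h4 : (0 : ℝ) < N / 8 := by positivity
      rwa [le_div_iff₀ h4, zero_mul] at h3
    have h1 : 2 / (2 + D0) + 1 / 1 ≤ (2 : ℝ) := by
      have : 2 / (2 + D0) ≤ (1 : ℝ) := by
        rw [div_le_one (by positivity)]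
        linarith
      linarith
    calc (2 / (2 + D0) + 1 / 1) * ((entL S l + Real.log 5) / (N / 8))
        ≤ 2 * ((entL S l + Real.log 5) / (N / 8)) :=
          mul_le_mul_of_nonneg_right h1 (by positivity)
      _ ≤ 2 * ((E + Real.log 5) / (N / 8)) := by
          refine mul_le_mul_of_nonneg_left ?_ (by norm_num)
          exact div_le_div_of_nonneg_right (by linarith) (by positivity)
      _ = 16 * (E + Real.log 5) / N := by field_simp; ring
  have hQB : 2 * Bb * Q ≤ 2 * Bb * Gt := mul_le_mul_of_nonneg_left hQ2 (by positivity)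
  rw [h2A, hCC] at hrow
  have e6 : Bb * (2 * ρ - 2 * (Q + ρ * (1 - χn)) - (2 * S.m (l + 1) - S.m l) * t - U -
      S.m l * ρ / N) =
      2 * Bb * χn * ρ - 2 * Bb * Q - Bb * (2 * S.m (l + 1) - S.m l) * t - Bb * U -
        Bb * S.m l / N * ρ := by
    ring
  rw [e6] at hrow
  have e7 : (D0 + Bb * S.m l / N) * ρ = D0 * ρ + Bb * S.m l / N * ρ := by ring
  have e8 : 2 * (Bb * χn - 1) * ρ = 2 * Bb * χn * ρ - 2 * ρ := by ring
  rw [e7, e8]
  linarith

end gen

/-! ## the SK system -/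

section sk

variable {n K : ℕ} {m b w : ℕ → ℝ} {l : ℕ}

/-- the bonds of the level `j` -/
def zbs (hK : 0 < K) (j : ℕ) (e : Pair n) : Cd n K :=
  (Sum.inl e, ⟨(j - 1) % K, Nat.mod_lt _ hK⟩)

lemma bns_sk (hK : 0 < K) (hm : Em K m) (hl1 : 1 ≤ l) (hl : l ≤ K) (hb : 0 ≤ b 1) {Bt : ℝ}
    (hBt : 0 < Bt) (hB : ∑ j ∈ Finset.Icc 1 l, b j ^ 2 = Bt ^ 2) :
    Bns (skS n K m b w) (fun e _ x => aSK n K b w x e) (spn n) (zs hK) (zbs hK) b l Bt where
  bn := fun j hj1 hjl => by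
    have e1 : (j - 1) % K = j - 1 := Nat.mod_eq_of_lt (by omega)
    refine ⟨fun e e' h => ?_, fun e => ?_, fun e z x => ?_, fun x i => H325.sp_mul_self x i,
      fun i e h => ?_, zs_inj hK 1, hj1⟩
    · have := congrArg Prod.fst h
      simpa [zbs] using this
    · show ((j - 1) % K) + 1 = j
      omega
    · show b ((j - 1) % K + 1) * H325.SkS e x = b j * _
      have e2 : (j - 1) % K + 1 = j := by omega
      rw [e2]
      rfl
    · have := congrArg Prod.fst h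
      simp [zs, zbs] at this
  pos := hBt
  sq := hB
  l1 := hl1
  c0 := hb

/-- the entropy bound of the levels `≤ l` of the SK system -/
noncomputable def eSKL (n K : ℕ) (m b w : ℕ → ℝ) (M : ℕ → ℝ) (l : ℕ) : ℝ :=
  ∑ i ∈ Finset.range l, m (i + 1) * M i / (M i - m (i + 1)) *
    ((skS n K (Function.update m (i + 1) (M i)) b w).fe - (skS n K m b w).fe)

lemma entL_sk (hm : Em K m) (b w : ℕ → ℝ) (hl : l ≤ K) {M : ℕ → ℝ}
    (hM : ∀ i < l, m (i + 1) < M i) :
    entL (skS n K m b w) l ≤ eSKL n K m b w M l :=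
  entL_le (S := skS n K m b w) (linS_sk hm b w).reg hl hM

/-- **The lower row inequality at the level `l` of the SK system.** -/
theorem lrowL_sk (hn : 0 < n) (hm : Em K m) (hl1 : 1 ≤ l) (hl : l < K) (hb : 0 ≤ b 1)
    (hw1 : 0 < w 1) (hwl : 0 < w l) (hwl1 : 0 < w (l + 1)) (hp : m l < m (l + 1)) {Bt : ℝ}
    (hBt : 0 < Bt) (hB : ∑ j ∈ Finset.Icc 1 l, b j ^ 2 = Bt ^ 2)
    {D0 χ1 χl χn : ℝ} {M : ℕ → ℝ} (hD : 0 < D0) (hD1 : D0 ≤ 1) (hM : ∀ i < l, m (i + 1) < M i)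
    (hχ1 : χ1 = 1 - ∑ i ∈ Finset.Ico 1 (K + 1), (m (i + 1) - m i) *
      (skS n K m b w).Rl (spn n) i)
    (hχl : χl = 1 - ∑ i ∈ Finset.Ico l (K + 1), (m (i + 1) - m i) *
      (skS n K m b w).Rl (spn n) i)
    (hχn : χn = 1 - ∑ i ∈ Finset.Ico (l + 1) (K + 1), (m (i + 1) - m i) *
      (skS n K m b w).Rl (spn n) i) {g1 g2 : ℝ}
    (hg1 : H295.gg (skS n K m b w) (spn n) (zs (by omega : 0 < K)) w l l ≤ g1)
    (hg2 : H295.gg (skS n K m b w) (spn n) (zs (by omega : 0 < K)) w (l + 1) (l + 1) ≤ g2) :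
    max (w 1 * χ1 * (2 - Bt * √n * χl) - Bt * √n * ∑ k ∈ Finset.Ico 1 l, (m (k + 1) - m k) *
        √((skS n K m b w).Ex (fun z x => uu (skS n K m b w) (spn n) k z x ^ 2) / n)) 0 ^ 2 /
        (7 * (1 + m 1 * w 1 ^ 2)) +
      2 * (Bt * √n * χn - 1) * (skS n K m b w).Rl (spn n) l ≤
    Bt * √n * (2 * m (l + 1) - m l) *
        (skS n K m b w).Ex (fun z x => uu (skS n K m b w) (spn n) l z x ^ 2) +
      Bt * √n * ∑ k ∈ Finset.Ico 1 l, (m (k + 1) - m k) *
        (shr b Bt k * tau (skS n K m b w) (spn n) k l) +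
      2 * (Bt * √n) * ((g2 + √(g1 * g2)) / (m (l + 1) - m l)) +
      (D0 + Bt * √n * m l / n) * (skS n K m b w).Rl (spn n) l +
      3 * (eSKL n K m b w M l + Real.log 3) / (n * D0) +
      16 * (eSKL n K m b w M l + Real.log 5) / n := by
  have hK0 : 0 < K := by omega
  set P : ℕ → Prop := fun p => p = 1 ∨ p = l ∨ p = l + 1 with hPd
  have hP1 : ∀ p, P p → 1 ≤ p := by
    rintro p (h | h | h) <;> omega
  have hw' : ∀ p ≤ K, P p → 0 < w p := by
    rintro p _ (rfl | rfl | rfl)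
    · exact hw1
    · exact hwl
    · exact hwl1
  have F := fldP_sk (P := P) hn hK0 hm b w hP1
  have hG := gp_sk (P := P) hn hK0 hm b w hP1 hw'
  have P1 : P 1 := Or.inl rfl
  have Pl : P l := Or.inr (Or.inl rfl)
  have Pl1 : P (l + 1) := Or.inr (Or.inr rfl)
  have hpp : (skS n K m b w).p l = m (l + 1) - m l := rfl
  have h := lrowL_fin F (fun p _ _ => zs_inj hK0 p) hw' hG
    (bns_sk (w := w) hK0 hm hl1 hl.le hb hBt hB) hl P1 Pl Pl1
    (by rw [hpp]; linarith) hD hD1 (entL_sk (n := n) hm b w hl.le hM) hχ1 hχl hχn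
  have hB0 : 0 ≤ Bt * √(n : ℝ) := mul_nonneg hBt.le (Real.sqrt_nonneg _)
  have g10 := gg_nonneg hG (show l ≤ K by omega) Pl
  have g20 := gg_nonneg hG (show l + 1 ≤ K by omega) Pl1
  have hgg : (H295.gg (skS n K m b w) (spn n) (zs hK0) w (l + 1) (l + 1) +
      √(H295.gg (skS n K m b w) (spn n) (zs hK0) w l l *
        H295.gg (skS n K m b w) (spn n) (zs hK0) w (l + 1) (l + 1))) / (m (l + 1) - m l) ≤
      (g2 + √(g1 * g2)) / (m (l + 1) - m l) := by
    refine div_le_div_of_nonneg_right ?_ (by linarith)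
    refine add_le_add hg2 (Real.sqrt_le_sqrt ?_)
    exact mul_le_mul hg1 hg2 g20 (g10.trans hg1)
  have hgg2 := mul_le_mul_of_nonneg_left hgg (show 0 ≤ 2 * (Bt * √(n : ℝ)) by positivity)
  rw [hpp] at h
  have e1 : (skS n K m b w).m = m := rfl
  have e2 : ∀ k, (skS n K m b w).p k = m (k + 1) - m k := fun k => rfl
  simp only [e1, e2] at h
  linarith

end sk

end Vale.Agent.P146.H498.MRow
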