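import Vale.Agent.P146.H498.LSideV

/-!
P146, lower half (helper498): **the L-side in unit letters** for an arbitrary law with a bundle and
visible couplings below it.
-/

set_option linter.all false

open MeasureTheory ProbabilityTheory Finset

namespace Vale.Agent.P146.H498.MRow

open Vale.Agent.P157.Lv Vale.Agent.P157.Lv.Sy Vale.Agent.P146.H425
open Vale.Agent.P146.H295
open Vale.Agent.P146.H93 (Cd st am aSK skS Em linS_sk)

/-- the relative error of the L-side in unit letters -/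
noncomputable def eLN (n : ℕ) (β u Nl η gam θ σ dl δ E0 : ℝ) : ℝ :=
  β * (4 * (5 * θ ^ 2 / Nl + 20 * gam / η ^ 2) + 4 * gam / η + dl * θ ^ 2 +
    2 * σ * √(5 * θ ^ 2 / Nl + 20 * gam / η ^ 2)) + δ * θ + 2 * β * θ / (n * u) +
    3 * E0 * u / δ + 6 / (δ * (n * u ^ 5)) + 16 * E0 * u ^ 3 + 32 / (n * u ^ 3)

lemma log3_le : Real.log 3 ≤ 2 := by
  have := Real.log_le_sub_one_of_pos (show (0 : ℝ) < 3 by norm_num)
  linarith

lemma log5_le : Real.log 5 ≤ 2 := by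
  have h1 : Real.log 5 ≤ 2 := by
    rw [Real.log_le_iff_le_exp (by norm_num)]
    have h2 : (2.7182818283 : ℝ) < Real.exp 1 := Real.exp_one_gt_d9
    have h3 : Real.exp 2 = Real.exp 1 * Real.exp 1 := by
      rw [← Real.exp_add]
      norm_num
    rw [h3]
    nlinarith
  exact h1

/-- the errors in unit letters -/
lemma errV_le {n : ℕ} {m : ℕ → ℝ} {g p0 c q : ℕ} {β u η gam θ σ dl δ E0 Bt : ℝ} (hn : 0 < n)
    (hu : 0 < u) (hβ : 0 < β) (hB0 : 0 ≤ Bt * √n) (hBβ : Bt * √n ≤ β) (hη : 0 < η)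
    (hgam : 0 ≤ gam) (hθ : 0 ≤ θ) (hσ : 0 ≤ σ) (hδ : 0 < δ) (hE0 : 0 ≤ E0)
    (hNl : (0 : ℝ) < (c : ℝ) - p0) (hm1 : 0 ≤ m 1) (hmg1 : m 1 ≤ m g) (hmgq : m g ≤ m q) (hmgc : m g ≤ m c)
    (hmq : m q ≤ 2 * u) (hdl : m c - m g ≤ dl * u) :
    errV n m g p0 c q Bt (η * u) (gam * u ^ 4) ((θ * u) ^ 2) ((σ * u) ^ 2) (δ * u ^ 2)
      (E0 * (n * u ^ 6)) ≤ u ^ 3 * eLN n β u ((c : ℝ) - p0) η gam θ σ dl δ E0 := by
  have hn0 : (0 : ℝ) < n := by exact_mod_cast hn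
  set V2 := 5 * θ ^ 2 / ((c : ℝ) - p0) + 20 * gam / η ^ 2 with hV2
  have hV20 : 0 ≤ V2 := by positivity
  have eV : 5 * (θ * u) ^ 2 / ((c : ℝ) - p0) + 20 * (gam * u ^ 4) / (η * u) ^ 2 = u ^ 2 * V2 := by
    rw [hV2]
    field_simp
  have esV : √(u ^ 2 * V2) = u * √V2 := by
    rw [Real.sqrt_mul (sq_nonneg u), Real.sqrt_sq hu.le]
  have es1 : √((θ * u) ^ 2) = θ * u := Real.sqrt_sq (by positivity)
  have es2 : √((σ * u) ^ 2) = σ * u := Real.sqrt_sq (by positivity)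
  unfold errV
  rw [eV, esV, es1, es2]
  set Bb := Bt * √(n : ℝ) with hBb
  have hmq0 : 0 ≤ m q := by linarith
  -- the first block
  have a1 : 2 * m q * (u ^ 2 * V2) ≤ u ^ 3 * (4 * V2) := by
    have h1 : 2 * m q * (u ^ 2 * V2) ≤ 2 * (2 * u) * (u ^ 2 * V2) :=
      mul_le_mul_of_nonneg_right (by linarith) (by positivity)
    calc _ ≤ _ := h1
      _ = _ := by ring
  have a2 : 4 * (gam * u ^ 4) / (η * u) = u ^ 3 * (4 * gam / η) := by
    field_simp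
  have a3 : (m c - m g) * (θ * u) ^ 2 ≤ u ^ 3 * (dl * θ ^ 2) := by
    have h1 := mul_le_mul_of_nonneg_right hdl (sq_nonneg (θ * u))
    calc _ ≤ _ := h1
      _ = _ := by ring
  have a4 : (m g - m 1) * (σ * u * (u * √V2)) ≤ u ^ 3 * (2 * σ * √V2) := by
    have h1 : (m g - m 1) * (σ * u * (u * √V2)) ≤ (2 * u) * (σ * u * (u * √V2)) :=
      mul_le_mul_of_nonneg_right (by linarith) (by positivity)
    calc _ ≤ _ := h1
      _ = _ := by ring
  have a5 : Bb * (2 * m q * (u ^ 2 * V2) + 4 * (gam * u ^ 4) / (η * u) +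
      (m c - m g) * (θ * u) ^ 2 + (m g - m 1) * (σ * u * (u * √V2))) ≤
      β * (u ^ 3 * (4 * V2 + 4 * gam / η + dl * θ ^ 2 + 2 * σ * √V2)) := by
    have hdl0 : 0 ≤ dl := by
      by_contra h
      push Not at h
      have : dl * u < 0 := mul_neg_of_neg_of_pos h hu
      linarith
    have h1 : 2 * m q * (u ^ 2 * V2) + 4 * (gam * u ^ 4) / (η * u) +
      (m c - m g) * (θ * u) ^ 2 + (m g - m 1) * (σ * u * (u * √V2)) ≤
      u ^ 3 * (4 * V2 + 4 * gam / η + dl * θ ^ 2 + 2 * σ * √V2) := by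
      rw [a2]
      have e : u ^ 3 * (4 * V2 + 4 * gam / η + dl * θ ^ 2 + 2 * σ * √V2) =
        u ^ 3 * (4 * V2) + u ^ 3 * (4 * gam / η) + u ^ 3 * (dl * θ ^ 2) +
          u ^ 3 * (2 * σ * √V2) := by ring
      rw [e]
      linarith
    refine (mul_le_mul_of_nonneg_left h1 hB0).trans ?_
    exact mul_le_mul_of_nonneg_right hBβ (by positivity)
  have a6 : (δ * u ^ 2 + Bb * m q / n) * (θ * u) ≤
      u ^ 3 * (δ * θ + 2 * β * θ / (n * u)) := by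
    have h1 : Bb * m q ≤ β * (2 * u) := mul_le_mul hBβ hmq hmq0 hβ.le
    have h2 : Bb * m q / n ≤ β * (2 * u) / n := div_le_div_of_nonneg_right h1 hn0.le
    have h3 := mul_le_mul_of_nonneg_right (add_le_add_right h2 (δ * u ^ 2))
      (show 0 ≤ θ * u by positivity)
    refine h3.trans (le_of_eq ?_)
    field_simp
  have a7 : 3 * (E0 * (n * u ^ 6) + Real.log 3) / (n * (δ * u ^ 2)) ≤
      u ^ 3 * (3 * E0 * u / δ + 6 / (δ * (n * u ^ 5))) := by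
    have h1 : 3 * (E0 * (n * u ^ 6) + Real.log 3) / (n * (δ * u ^ 2)) ≤
        3 * (E0 * (n * u ^ 6) + 2) / (n * (δ * u ^ 2)) :=
      div_le_div_of_nonneg_right (by linarith [log3_le]) (by positivity)
    refine h1.trans (le_of_eq ?_)
    field_simp
    ring
  have a8 : 16 * (E0 * (n * u ^ 6) + Real.log 5) / n ≤
      u ^ 3 * (16 * E0 * u ^ 3 + 32 / (n * u ^ 3)) := by
    have h1 : 16 * (E0 * (n * u ^ 6) + Real.log 5) / n ≤ 16 * (E0 * (n * u ^ 6) + 2) / n :=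
      div_le_div_of_nonneg_right (by linarith [log5_le]) hn0.le
    refine h1.trans (le_of_eq ?_)
    field_simp
    ring
  unfold eLN
  rw [← hV2]
  have e9 : u ^ 3 * (β * (4 * V2 + 4 * gam / η + dl * θ ^ 2 + 2 * σ * √V2) + δ * θ +
      2 * β * θ / (n * u) + 3 * E0 * u / δ + 6 / (δ * (n * u ^ 5)) + 16 * E0 * u ^ 3 +
      32 / (n * u ^ 3)) =
      β * (u ^ 3 * (4 * V2 + 4 * gam / η + dl * θ ^ 2 + 2 * σ * √V2)) +
      u ^ 3 * (δ * θ + 2 * β * θ / (n * u)) +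
      u ^ 3 * (3 * E0 * u / δ + 6 / (δ * (n * u ^ 5))) +
      u ^ 3 * (16 * E0 * u ^ 3 + 32 / (n * u ^ 3)) := by ring
  rw [e9]
  linarith

/-- `√(1 - x) ≥ 1 - x/2 - x²/2` -/
lemma sqrt_one_sub_ge {x : ℝ} (h0 : 0 ≤ x) (h1 : x ≤ 1) : 1 - x / 2 - x ^ 2 / 2 ≤ √(1 - x) := by
  rcases le_total (1 - x / 2 - x ^ 2 / 2) 0 with h | h
  · exact h.trans (Real.sqrt_nonneg _)
  · refine Real.le_sqrt_of_sq_le ?_
    have e : (1 - x / 2 - x ^ 2 / 2) ^ 2 = 1 - x - x ^ 2 * (3 - 2 * x - x ^ 2) / 4 := by ring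
    rw [e]
    have : 0 ≤ x ^ 2 * (3 - 2 * x - x ^ 2) / 4 := by
      have h2 : 0 ≤ 3 - 2 * x - x ^ 2 := by nlinarith
      positivity
    linarith

/-- the root: the effect of the field of the level one -/
lemma zeta_unit {n : ℕ} {β u κ1 θ Bb mc m1 w1 χ1 χq T : ℝ} (hn : 0 < n) (hu : 0 < u)
    (hβ : 1 ≤ β) (hB0 : 0 ≤ Bb) (hBβ : Bb ≤ β) (hmc0 : 0 ≤ mc) (hmc : mc ≤ 2 * u)
    (hm1 : 0 ≤ m1) (hw1 : 0 < w1) (hw1e : w1 ^ 2 = κ1 * u ^ 3) (hmw : m1 * w1 ^ 2 ≤ 1)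
    (hθ : 0 ≤ θ) (hχ1 : |β * χ1 - 1| ≤ 1 / 8) (hχq : |β * χq - 1| ≤ 1 / 8)
    (hroot : 64 * β ^ 4 * θ ^ 2 * u ≤ κ1 * n) :
    0 ≤ w1 * χ1 * (2 - Bb * χq) - Bb * (mc * √((θ * u) ^ 2 / n)) ∧
    κ1 * u ^ 3 / (56 * β ^ 2) ≤ (w1 * χ1 * (2 - Bb * χq) - Bb * (mc * √((θ * u) ^ 2 / n))) ^ 2 /
      (7 * (1 + m1 * w1 ^ 2)) := by
  have hn0 : (0 : ℝ) < n := by exact_mod_cast hn
  have hβ0 : 0 < β := by linarith
  have h1 := (abs_le.1 hχ1).1
  have h2 := (abs_le.1 hχq)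
  have hχq0 : 0 ≤ χq := by
    by_contra h
    push Not at h
    have := mul_neg_of_pos_of_neg hβ0 h
    linarith [h2.1]
  have hBχ : Bb * χq ≤ 9 / 8 := by
    have := mul_le_mul_of_nonneg_right hBβ hχq0
    linarith [h2.2]
  have hχ1' : 7 / (8 * β) ≤ χ1 := by
    rw [div_le_iff₀ (by positivity)]
    linarith
  have hχ10 : 0 ≤ χ1 := le_trans (by positivity) hχ1'
  -- the main term
  have h3 : w1 * (3 / (4 * β)) ≤ w1 * χ1 * (2 - Bb * χq) := by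
    have h4 : 3 / (4 * β) ≤ χ1 * (2 - Bb * χq) := by
      have h5 : 7 / (8 * β) * (7 / 8) ≤ χ1 * (2 - Bb * χq) :=
        mul_le_mul hχ1' (by linarith) (by norm_num) hχ10
      refine le_trans ?_ h5
      have e : 7 / (8 * β) * (7 / 8) = (49 / 64) / β := by
        field_simp
        norm_num
      have e2 : 3 / (4 * β) = (3 / 4) / β := by field_simp
      rw [e, e2]
      exact div_le_div_of_nonneg_right (by norm_num) hβ0.le
    have := mul_le_mul_of_nonneg_left h4 hw1.le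
    linarith
  -- the error
  have h6 : Bb * (mc * √((θ * u) ^ 2 / n)) ≤ w1 * (1 / (4 * β)) := by
    have e1 : √((θ * u) ^ 2 / n) = θ * u / √n := by
      rw [Real.sqrt_div (sq_nonneg _), Real.sqrt_sq (by positivity)]
    have hs : 0 < √(n : ℝ) := Real.sqrt_pos.2 hn0
    rw [e1]
    have h7 : Bb * (mc * (θ * u / √n)) ≤ β * (2 * u * (θ * u / √n)) :=
      mul_le_mul hBβ (mul_le_mul_of_nonneg_right hmc (by positivity)) (by positivity) hβ0.le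
    refine h7.trans ?_
    have h8 : (β * (2 * u * (θ * u / √n))) ^ 2 ≤ (w1 * (1 / (4 * β))) ^ 2 := by
      have e2 : (β * (2 * u * (θ * u / √n))) ^ 2 = 4 * β ^ 2 * θ ^ 2 * u ^ 4 / n := by
        have : (√(n : ℝ)) ^ 2 = n := Real.sq_sqrt hn0.le
        rw [mul_pow, mul_pow, div_pow, this]
        ring
      have e3 : (w1 * (1 / (4 * β))) ^ 2 = κ1 * u ^ 3 / (16 * β ^ 2) := by
        rw [mul_pow, hw1e]
        field_simp
        norm_num
      rw [e2, e3, div_le_div_iff₀ hn0 (by positivity)]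
      have h9 := mul_le_mul_of_nonneg_left hroot (show 0 ≤ u ^ 3 by positivity)
      nlinarith
    exact (abs_le_of_sq_le_sq' h8 (by positivity)).2
  have h10 : w1 * (1 / (2 * β)) ≤ w1 * χ1 * (2 - Bb * χq) - Bb * (mc * √((θ * u) ^ 2 / n)) := by
    have e : w1 * (3 / (4 * β)) = w1 * (1 / (2 * β)) + w1 * (1 / (4 * β)) := by
      field_simp
      norm_num
    linarith
  have h11 : 0 ≤ w1 * (1 / (2 * β)) := by positivity
  refine ⟨h11.trans h10, ?_⟩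
  have h12 : (w1 * (1 / (2 * β))) ^ 2 ≤
      (w1 * χ1 * (2 - Bb * χq) - Bb * (mc * √((θ * u) ^ 2 / n))) ^ 2 :=
    pow_le_pow_left₀ h11 h10 2
  have h13 : κ1 * u ^ 3 / (56 * β ^ 2) = (w1 * (1 / (2 * β))) ^ 2 / 14 := by
    rw [mul_pow, hw1e]
    field_simp
    ring
  rw [h13]
  exact div_le_div₀ (sq_nonneg _) h12 (by positivity) (by linarith)

/-- from the coupling constant to the share -/
lemma share_unit {β u T χq al Bb R : ℝ} (hu : 0 < u) (hβ : 1 ≤ β) (hT : 0 ≤ T)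
    (hTu : T * u ^ 2 ≤ 1) (hBb : Bb = β * √(1 - T * u ^ 2)) (hal : al = 2 * (β * χq - 1) / u ^ 2)
    (hχq : |β * χq - 1| ≤ 1 / 8) (h : 2 * (Bb * χq - 1) ≤ u ^ 2 * R) :
    al - T ≤ R + T ^ 2 * u ^ 2 + |al| * u ^ 2 * T := by
  have hβ0 : 0 < β := by linarith
  have hχ := abs_le.1 hχq
  have hχq0 : 0 ≤ β * χq := by linarith [hχ.1]
  have h1 := sqrt_one_sub_ge (x := T * u ^ 2) (by positivity) hTu
  have h2 : β * χq * (1 - T * u ^ 2 / 2 - (T * u ^ 2) ^ 2 / 2) ≤ Bb * χq := by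
    rw [hBb]
    have := mul_le_mul_of_nonneg_left h1 hχq0
    calc _ ≤ _ := this
      _ = _ := by ring
  have e1 : β * χq = 1 + al * u ^ 2 / 2 := by
    rw [hal]
    field_simp
    ring
  have hTu0 : 0 ≤ T * u ^ 2 := by positivity
  have hTu2 : (T * u ^ 2) ^ 2 ≤ T * u ^ 2 := by nlinarith
  have h3 : al * u ^ 2 - T * u ^ 2 - (T * u ^ 2) ^ 2 - |al| * u ^ 2 * (T * u ^ 2) ≤
      u ^ 2 * R := by
    have h4 : 2 * (β * χq * (1 - T * u ^ 2 / 2 - (T * u ^ 2) ^ 2 / 2) - 1) ≤ u ^ 2 * R := by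
      linarith
    rw [e1] at h4
    have e2 : 2 * ((1 + al * u ^ 2 / 2) * (1 - T * u ^ 2 / 2 - (T * u ^ 2) ^ 2 / 2) - 1) =
        al * u ^ 2 - T * u ^ 2 - (T * u ^ 2) ^ 2 -
          al * u ^ 2 * ((T * u ^ 2 + (T * u ^ 2) ^ 2) / 2) := by ring
    rw [e2] at h4
    have h5 : al * u ^ 2 * ((T * u ^ 2 + (T * u ^ 2) ^ 2) / 2) ≤ |al| * u ^ 2 * (T * u ^ 2) := by
      have h6 : al * u ^ 2 ≤ |al| * u ^ 2 :=
        mul_le_mul_of_nonneg_right (le_abs_self al) (by positivity)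
      exact mul_le_mul h6 (by linarith) (by positivity) (by positivity)
    linarith
  have h7 : u ^ 2 * (al - T) ≤ u ^ 2 * (R + T ^ 2 * u ^ 2 + |al| * u ^ 2 * T) := by
    calc u ^ 2 * (al - T) = (al * u ^ 2 - T * u ^ 2 - (T * u ^ 2) ^ 2 -
          |al| * u ^ 2 * (T * u ^ 2)) + ((T * u ^ 2) ^ 2 + |al| * u ^ 2 * (T * u ^ 2)) := by ring
      _ ≤ u ^ 2 * R + ((T * u ^ 2) ^ 2 + |al| * u ^ 2 * (T * u ^ 2)) := by linarith
      _ = _ := by ring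
  exact le_of_mul_le_mul_left h7 (by positivity)

variable {n K : ℕ} {m b w : ℕ → ℝ}

/-- **The L-side in unit letters**, any law: bundle `p0 .. c`, response read at the level `q`, last
level `q - 1` below it, visible couplings on the levels `≤ p0`, share `1 - T u²`. -/
theorem lside_unit (hn : 0 < n) (hK : 0 < K) (hm : Em K m) (hb : 0 ≤ b 1) {g p0 c q : ℕ}
    (hg1 : 1 ≤ g) (hgp : g ≤ p0) (hpc : p0 < c) (hcq : c < q) (hq : q ≤ K) (hw1 : 0 < w 1)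
    (hw : ∀ p, p0 ≤ p → p ≤ c + 1 → 0 < w p) (hbz : ∀ j, p0 < j → j ≤ c → b j = 0)
    {β u T η gam θ σ dl δ E0 κ1 ε' χ1 χq al : ℝ} {M : ℕ → ℝ}
    (hu : 0 < u) (hβ : 1 ≤ β) (hT : 0 ≤ T) (hTu : T * u ^ 2 < 1)
    (hB : ∑ j ∈ Finset.Icc 1 p0, b j ^ 2 = β ^ 2 / n * (1 - T * u ^ 2)) (hη : 0 < η)
    (hp : ∀ l, p0 ≤ l → l ≤ c → η * u ≤ m (l + 1) - m l)
    (hγ : ∀ l, p0 ≤ l → l ≤ c + 1 →
      gg (skS n K m b w) (spn n) (zs hK) w l l ≤ gam * u ^ 4)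
    (hθ : 0 ≤ θ) (hσ : 0 ≤ σ)
    (hϑ : Th (skS n K m b w) (spn n) c ≤ (θ * u) ^ 2)
    (hϑg : Th (skS n K m b w) (spn n) (g - 1) ≤ (σ * u) ^ 2)
    (hδ : 0 < δ) (hδ1 : δ * u ^ 2 ≤ 1) (hM : ∀ i < c, m (i + 1) < M i) (hE0 : 0 ≤ E0)
    (hE : ∀ l, p0 ≤ l → l < c → eSKL n K m b w M l ≤ E0 * (n * u ^ 6))
    (hmq : m q ≤ 2 * u) (hdl : m c - m g ≤ dl * u)
    (hw1e : w 1 ^ 2 = κ1 * u ^ 3) (hmw : m 1 * w 1 ^ 2 ≤ 1)
    (hχ1 : χ1 = 1 - ∑ i ∈ Finset.Ico 1 (K + 1), (m (i + 1) - m i) *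
      (skS n K m b w).Rl (spn n) i)
    (hχq : χq = 1 - ∑ i ∈ Finset.Ico q (K + 1), (m (i + 1) - m i) *
      (skS n K m b w).Rl (spn n) i)
    (hχ1' : |β * χ1 - 1| ≤ 1 / 8) (hχq' : |β * χq - 1| ≤ 1 / 8)
    (hal : al = 2 * (β * χq - 1) / u ^ 2) (hroot : 64 * β ^ 4 * θ ^ 2 * u ≤ κ1 * n)
    (hε1 : ε' ≤ 1)
    (hsmall : 112 * β ^ 2 * eLN n β u ((c : ℝ) - p0) η gam θ σ dl δ E0 ≤ κ1 * ε') :
    al - T ≤ (1 + ε') * β * ((2 * m q - m p0) / u) *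
        (√(Th (skS n K m b w) (spn n) (q - 1)) / u) +
      2 * (1 + ε') * β * σ + T ^ 2 * u ^ 2 + |al| * u ^ 2 * T := by
  have hn0 : (0 : ℝ) < n := by exact_mod_cast hn
  have hβ0 : 0 < β := by linarith
  have hsn : 0 < √(n : ℝ) := Real.sqrt_pos.2 hn0
  have hS := (linS_sk hm b w (n := n)).reg
  -- the total coupling
  obtain ⟨Bt, hBtd⟩ : ∃ x, x = β / √(n : ℝ) * √(1 - T * u ^ 2) := ⟨_, rfl⟩
  have hTu' : 0 < 1 - T * u ^ 2 := by linarith
  have hBt : 0 < Bt := by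
    rw [hBtd]
    have := Real.sqrt_pos.2 hTu'
    positivity
  have hBt2 : Bt ^ 2 = β ^ 2 / n * (1 - T * u ^ 2) := by
    rw [hBtd, mul_pow, div_pow, Real.sq_sqrt hn0.le, Real.sq_sqrt hTu'.le]
  have hBb : Bt * √(n : ℝ) = β * √(1 - T * u ^ 2) := by
    rw [hBtd]
    field_simp
  have hs1 : √(1 - T * u ^ 2) ≤ 1 := by
    have : 0 ≤ T * u ^ 2 := by positivity
    calc √(1 - T * u ^ 2) ≤ √1 := Real.sqrt_le_sqrt (by linarith)
      _ = 1 := Real.sqrt_one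
  have hBβ : Bt * √(n : ℝ) ≤ β := by
    rw [hBb]
    calc β * √(1 - T * u ^ 2) ≤ β * 1 := mul_le_mul_of_nonneg_left hs1 hβ0.le
      _ = β := mul_one β
  have hB0 : 0 ≤ Bt * √(n : ℝ) := by positivity
  -- the exponents
  have em : (skS n K m b w).m = m := rfl
  have hm0 : 0 < m 1 := hm.pos
  have hm1g : m 1 ≤ m g := hS.m_mono hg1 (show g ≤ K + 1 by omega)
  have hmgq : m g ≤ m q := hS.m_mono (show g ≤ q by omega) (show q ≤ K + 1 by omega)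
  have hm1c : m 1 ≤ m c := hS.m_mono (show 1 ≤ c by omega) (show c ≤ K + 1 by omega)
  have hmcq : m c ≤ m q := hS.m_mono hcq.le (show q ≤ K + 1 by omega)
  have hmpq : m p0 ≤ m q := hS.m_mono (show p0 ≤ q by omega) (show q ≤ K + 1 by omega)
  have hNl : (0 : ℝ) < (c : ℝ) - p0 := by
    have : (p0 : ℝ) < c := by exact_mod_cast hpc
    linarith
  -- the number `gam`
  have hgam : 0 ≤ gam := by
    have hP1 : ∀ p, (p = p0) → 1 ≤ p := fun p h => by omega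
    have hw' : ∀ p ≤ K, (p = p0) → 0 < w p := fun p _ h => h ▸ hw p0 le_rfl (by omega)
    have hG := gp_sk (P := fun p => p = p0) hn hK hm b w hP1 hw'
    have h1 := (Vale.Agent.P146.H498.Row.gg_nonneg hG (show p0 ≤ K by omega) rfl).trans
      (hγ p0 le_rfl (by omega))
    by_contra h
    push Not at h
    have : gam * u ^ 4 < 0 := mul_neg_of_neg_of_pos h (by positivity)
    linarith
  have hκ1 : 0 < κ1 := by
    have h1 : 0 < κ1 * u ^ 3 := hw1e ▸ (by positivity)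
    exact (pos_iff_pos_of_mul_pos h1).2 (by positivity)
  obtain ⟨hζ, hζ1⟩ := zeta_unit (T := T) hn hu hβ hB0 hBβ (hm0.le.trans hm1c) (hmcq.trans hmq)
    hm0.le hw1 hw1e hmw hθ hχ1' hχq' hroot
  have hmgc : m g ≤ m c := hS.m_mono (show g ≤ c by omega) (show c ≤ K + 1 by omega)
  have he := errV_le (m := m) (g := g) (p0 := p0) (c := c) (q := q) (Bt := Bt) hn hu hβ0 hB0 hBβ
    hη hgam hθ hσ hδ hE0 hNl hm0.le hm1g hmgq hmgc hmq hdl
  set eN := eLN n β u ((c : ℝ) - p0) η gam θ σ dl δ E0 with heN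
  have heN0 : 0 ≤ eN := by
    have hdl0 : 0 ≤ dl := by
      by_contra h
      push Not at h
      have : dl * u < 0 := mul_neg_of_neg_of_pos h hu
      linarith
    rw [heN]
    unfold eLN
    positivity
  have hζ0 : 0 < κ1 * u ^ 3 / (56 * β ^ 2) := by positivity
  have hε0 : 0 ≤ ε' := by
    have h1 : 0 ≤ κ1 * ε' := le_trans (by positivity) hsmall
    by_contra h
    push Not at h
    have := mul_neg_of_pos_of_neg hκ1 h
    linarith
  have hrel : 2 * (u ^ 3 * eN) / (κ1 * u ^ 3 / (56 * β ^ 2)) ≤ ε' := by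
    rw [div_le_iff₀ hζ0]
    have h1 := mul_le_mul_of_nonneg_left hsmall (show 0 ≤ u ^ 3 / (56 * β ^ 2) by positivity)
    have e1 : u ^ 3 / (56 * β ^ 2) * (112 * β ^ 2 * eN) = 2 * (u ^ 3 * eN) := by
      field_simp
      ring
    rw [e1] at h1
    refine h1.trans (le_of_eq ?_)
    ring
  have heζ : 2 * (u ^ 3 * eN) ≤ κ1 * u ^ 3 / (56 * β ^ 2) := by
    have h1 := hrel.trans hε1
    rwa [div_le_one hζ0] at h1
  obtain ⟨h1, h2, h3⟩ := lsideV_num hn hK hm hb hg1 hgp hpc hcq hq hw1 hw hbz hBt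
    (hB.trans hBt2.symm) (π := η * u) (by positivity) hp hγ hϑ hϑg (D0 := δ * u ^ 2)
    (by positivity) hδ1 hM hE hχ1 hχq hζ0 hζ hζ1 (by positivity) he heζ
  have hρ : (skS n K m b w).Rl (spn n) (q - 1) ≤ √(Th (skS n K m b w) (spn n) (q - 1)) :=
    Real.le_sqrt_of_sq_le h2
  set rr := √(Th (skS n K m b w) (spn n) (q - 1)) with hrr
  have hrr0 : 0 ≤ rr := Real.sqrt_nonneg _
  have es2 : √((σ * u) ^ 2) = σ * u := Real.sqrt_sq (by positivity)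
  rw [es2] at h1
  have h4 : 2 * (Bt * √(n : ℝ) * χq - 1) ≤ u ^ 2 * ((1 + ε') * β * ((2 * m q - m p0) / u) *
      (rr / u) + 2 * (1 + ε') * β * σ) := by
    refine h1.trans ?_
    have c1 : (2 * m q - m p0) * (skS n K m b w).Rl (spn n) (q - 1) ≤
        (2 * m q - m p0) * rr := mul_le_mul_of_nonneg_left hρ (by linarith)
    have c2 : (m g - m 1) * (σ * u) ≤ 2 * u * (σ * u) :=
      mul_le_mul_of_nonneg_right (by linarith) (by positivity)
    have c0 : 0 ≤ (2 * m q - m p0) * rr + 2 * u * (σ * u) := by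
      have : 0 ≤ (2 * m q - m p0) * rr := mul_nonneg (by linarith) hrr0
      positivity
    have c3 : Bt * √(n : ℝ) * ((2 * m q - m p0) * (skS n K m b w).Rl (spn n) (q - 1) +
        (m g - m 1) * (σ * u)) ≤ β * ((2 * m q - m p0) * rr + 2 * u * (σ * u)) :=
      (mul_le_mul_of_nonneg_left (add_le_add c1 c2) hB0).trans
        (mul_le_mul_of_nonneg_right hBβ c0)
    have c4 : (1 + 2 * (u ^ 3 * eN) / (κ1 * u ^ 3 / (56 * β ^ 2))) ≤ 1 + ε' := by linarith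
    have c5 : 0 ≤ β * ((2 * m q - m p0) * rr + 2 * u * (σ * u)) := mul_nonneg hβ0.le c0
    have c6 : 0 ≤ 1 + 2 * (u ^ 3 * eN) / (κ1 * u ^ 3 / (56 * β ^ 2)) := by positivity
    calc _ ≤ (1 + 2 * (u ^ 3 * eN) / (κ1 * u ^ 3 / (56 * β ^ 2))) *
          (β * ((2 * m q - m p0) * rr + 2 * u * (σ * u))) := mul_le_mul_of_nonneg_left c3 c6
      _ ≤ (1 + ε') * (β * ((2 * m q - m p0) * rr + 2 * u * (σ * u))) :=
          mul_le_mul_of_nonneg_right c4 c5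
      _ = _ := by field_simp
  have h5 := share_unit hu hβ hT hTu.le hBb hal hχq' h4
  linarith

end Vale.Agent.P146.H498.MRow
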