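import Vale.Agent.P146.R3.H49.Lam
import Vale.Agent.P146.H260.Mgf
import Vale.Agent.P146.H332.Fe
import Vale.Agent.P146.H332.M0
import Vale.Agent.P146.H946.Odd

/-!
P146, lower half (helper498): the edge of the symmetric matrix `W0 n g` with zero diagonal and the
entries `g_ij / √n`. Exponential moments of the largest eigenvalue by the Sudakov-Fernique
comparison (helper49) and the logarithmic Sobolev inequality (helper425):
`E exp (t λ) ≤ exp (2 t + t² / n)` for the maximum `λ` of the quadratic form over every finite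
family of unit vectors.
-/

set_option linter.all false

open MeasureTheory ProbabilityTheory Finset Matrix Filter Topology

namespace Vale.Agent.P146.H498.Edge

open Vale.Agent.P157.Lv Vale.Agent.P146.H425 Vale.Agent.P146.H325 Vale.Agent.P146.H332
open Vale.Agent.P146.H260.V13 (VK mgf_up)
open Vale.Agent.P146.R3.H49.Lam (free_le2 ca inc_le mean_le En)

variable {n : ℕ}

/-- the symmetric matrix with zero diagonal and the entries `g_ij / √n` -/
noncomputable def W0 (n : ℕ) (g : Pair n → ℝ) : Matrix (Fin n) (Fin n) ℝ := Matrix.of fun i j =>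
  if h : i < j then g ⟨(i, j), h⟩ / √n else if h : j < i then g ⟨(j, i), h⟩ / √n else 0

lemma W0_symm (g : Pair n → ℝ) (i j : Fin n) : W0 n g i j = W0 n g j i := by
  simp only [W0, Matrix.of_apply]
  rcases lt_trichotomy i j with h | h | h
  · rw [dif_pos h, dif_neg (not_lt.2 h.le), dif_pos h]
  · subst h; rfl
  · rw [dif_neg (not_lt.2 h.le), dif_pos h, dif_pos h]

lemma W0_diag (g : Pair n → ℝ) (i : Fin n) : W0 n g i i = 0 := by
  simp [W0]

lemma W0_lt (g : Pair n → ℝ) (e : Pair n) : W0 n g e.1.1 e.1.2 = g e / √n := by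
  simp only [W0, Matrix.of_apply]
  rw [dif_pos e.2]

lemma W0_transpose (g : Pair n → ℝ) : (W0 n g)ᵀ = W0 n g := by
  ext i j
  exact W0_symm g j i

/-- the bilinear form -/
lemma W0_bil (g : Pair n → ℝ) (u v : Fin n → ℝ) :
    u ⬝ᵥ (W0 n g *ᵥ v) = ∑ e : Pair n, g e / √n * (u e.1.1 * v e.1.2 + u e.1.2 * v e.1.1) := by
  have h1 : u ⬝ᵥ (W0 n g *ᵥ v) = ∑ i, ∑ j, u i * (W0 n g i j * v j) := by
    simp only [dotProduct, mulVec, mul_sum]
  have h2 : ∑ i, ∑ j, u i * (W0 n g i j * v j) = ∑ i, ∑ j, u j * (W0 n g i j * v i) := by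
    rw [sum_comm]
    refine sum_congr rfl fun i _ => sum_congr rfl fun j _ => ?_
    rw [W0_symm g j i]
  have h3 := sum_pairs (fun i j => W0 n g i j * ((u i * v j + u j * v i) / 2))
    (fun p q => by rw [W0_symm g p q]; ring) (fun p => by rw [W0_diag, zero_mul])
  have h4 : ∑ i, ∑ j, W0 n g i j * ((u i * v j + u j * v i) / 2) =
      (∑ i, ∑ j, u i * (W0 n g i j * v j) + ∑ i, ∑ j, u j * (W0 n g i j * v i)) / 2 := by
    rw [← sum_add_distrib, sum_div]
    refine sum_congr rfl fun i _ => ?_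
    rw [← sum_add_distrib, sum_div]
    refine sum_congr rfl fun j _ => ?_
    ring
  rw [h4, ← h2] at h3
  rw [h1]
  have h5 : (∑ i, ∑ j, u i * (W0 n g i j * v j) + ∑ i, ∑ j, u i * (W0 n g i j * v j)) / 2 =
      ∑ i, ∑ j, u i * (W0 n g i j * v j) := by ring
  rw [h5] at h3
  rw [h3, mul_sum]
  refine sum_congr rfl fun e _ => ?_
  rw [W0_lt]
  ring

/-- coefficients of the quadratic form -/
noncomputable def cz (v : Fin n → ℝ) (e : Pair n) : ℝ := 2 / √n * (v e.1.1 * v e.1.2)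

lemma quad0_eq (v : Fin n → ℝ) (g : Pair n → ℝ) :
    v ⬝ᵥ (W0 n g *ᵥ v) = ∑ e, cz v e * g e := by
  rw [W0_bil]
  refine sum_congr rfl fun e _ => ?_
  unfold cz
  ring

/-- a sum over pairs and the full sum -/
lemma sum_pair_le (G : Fin n → Fin n → ℝ) (hG : ∀ p q, G p q = G q p) (h0 : ∀ p q, 0 ≤ G p q) :
    2 * ∑ e : Pair n, G e.1.1 e.1.2 ≤ ∑ p, ∑ q, G p q := by
  have h1 := sum_pairs (fun p q => if p = q then 0 else G p q)
    (fun p q => by simp only [eq_comm (a := p) (b := q), hG p q]) (fun p => by simp)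
  have h2 : ∑ e : Pair n, (if e.1.1 = e.1.2 then 0 else G e.1.1 e.1.2) =
      ∑ e : Pair n, G e.1.1 e.1.2 := by
    refine sum_congr rfl fun e _ => ?_
    rw [if_neg e.2.ne]
  rw [h2] at h1
  rw [← h1]
  refine sum_le_sum fun p _ => sum_le_sum fun q _ => ?_
  split_ifs
  · exact h0 p q
  · exact le_rfl

lemma inc0_le (hn : 0 < n) (v u : Fin n → ℝ) :
    ∑ e, (cz v e - cz u e) ^ 2 ≤ ∑ e, (ca n v e - ca n u e) ^ 2 := by
  have hn' : (0 : ℝ) < n := by exact_mod_cast hn
  have h1 := sum_pair_le (fun p q => (2 / (n : ℝ)) * (v p * v q - u p * u q) ^ 2)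
    (fun p q => by ring) (fun p q => by positivity)
  have h2 : ∑ e, (cz v e - cz u e) ^ 2 =
      2 * ∑ e : Pair n, (2 / (n : ℝ)) * (v e.1.1 * v e.1.2 - u e.1.1 * u e.1.2) ^ 2 := by
    rw [mul_sum]
    refine sum_congr rfl fun e _ => ?_
    unfold cz
    rw [← mul_sub, mul_pow, div_pow, Real.sq_sqrt hn'.le]
    ring
  have h3 : ∑ e, (ca n v e - ca n u e) ^ 2 =
      ∑ p, ∑ q, (2 / (n : ℝ)) * (v p * v q - u p * u q) ^ 2 := by
    rw [Fintype.sum_prod_type]
    refine sum_congr rfl fun p _ => sum_congr rfl fun q _ => ?_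
    unfold ca
    rw [← mul_sub, mul_pow, Real.sq_sqrt (by positivity)]
  rw [h2, h3]
  exact h1

lemma cz_sq_le (hn : 0 < n) {v : Fin n → ℝ} (hv : v ⬝ᵥ v = 1) : ∑ e, cz v e ^ 2 ≤ 2 / (n : ℝ) := by
  have hn' : (0 : ℝ) < n := by exact_mod_cast hn
  have h1 := sum_pair_le (fun p q => (2 / (n : ℝ)) * (v p * v q) ^ 2)
    (fun p q => by ring) (fun p q => by positivity)
  have h2 : ∑ e, cz v e ^ 2 = 2 * ∑ e : Pair n, (2 / (n : ℝ)) * (v e.1.1 * v e.1.2) ^ 2 := by
    rw [mul_sum]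
    refine sum_congr rfl fun e _ => ?_
    unfold cz
    rw [mul_pow, div_pow, Real.sq_sqrt hn'.le]
    ring
  have h3 : ∑ p, ∑ q, (2 / (n : ℝ)) * (v p * v q) ^ 2 = 2 / (n : ℝ) := by
    have h4 : ∑ p, ∑ q, (2 / (n : ℝ)) * (v p * v q) ^ 2 =
        (2 / (n : ℝ)) * ((∑ p, v p * v p) * ∑ q, v q * v q) := by
      rw [sum_mul_sum, mul_sum]
      refine sum_congr rfl fun p _ => ?_
      rw [mul_sum]
      exact sum_congr rfl fun q _ => by ring
    have h5 : ∑ i, v i * v i = 1 := hv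
    rw [h4, h5]
    ring
  rw [h3] at h1
  rw [h2]
  exact h1

section fam

variable {S : Type} [Fintype S] [Nonempty S]

/-- the coefficients of the family -/
noncomputable def Sc (V : S → Fin n → ℝ) (e : Pair n) (x : S) : ℝ := cz (V x) e

lemma lz_mean (hn : 0 < n) {r : ℝ} (hr : 0 < r) (V : S → Fin n → ℝ)
    (hV : ∀ x, V x ⬝ᵥ V x = 1) :
    ∫ g, lz r (Sc V) g ∂(gI (Pair n)) ≤ Real.log (Fintype.card S) + 2 * r := by
  have h1 := free_le2 (fun x e => r * Sc V e x) (fun x e => r * ca n (V x) e) (by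
    intro s t
    have h2 := inc0_le hn (V s) (V t)
    have e1 : ∑ e, (r * Sc V e s - r * Sc V e t) ^ 2 = r ^ 2 * ∑ e, (cz (V s) e - cz (V t) e) ^ 2 := by
      rw [mul_sum]
      exact sum_congr rfl fun e _ => by unfold Sc; ring
    have e2 : ∑ e, (r * ca n (V s) e - r * ca n (V t) e) ^ 2 =
        r ^ 2 * ∑ e, (ca n (V s) e - ca n (V t) e) ^ 2 := by
      rw [mul_sum]
      exact sum_congr rfl fun e _ => by ring
    rw [e1, e2]
    exact mul_le_mul_of_nonneg_left h2 (sq_nonneg r))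
  have h3 := mean_le hn r hr V hV
  have e1 : ∀ g, lz r (Sc V) g = Real.log (∑ x, Real.exp (∑ e, r * Sc V e x * g e)) := by
    intro g
    unfold lz Zp ez
    congr 1
    refine sum_congr rfl fun x _ => ?_
    congr 1
    rw [mul_sum]
    exact sum_congr rfl fun e _ => by ring
  simp only [e1]
  exact h1.trans h3

lemma lz_grad (hn : 0 < n) (r : ℝ) (V : S → Fin n → ℝ) (hV : ∀ x, V x ⬝ᵥ V x = 1)
    (u : Pair n → ℝ) :
    ∑ e, (r * H325.av r (Sc V) (Sc V e) u) ^ 2 ≤ r ^ 2 * (2 / (n : ℝ)) := by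
  have h1 : ∀ e, (r * H325.av r (Sc V) (Sc V e) u) ^ 2 ≤
      r ^ 2 * H325.av r (Sc V) (fun x => Sc V e x ^ 2) u := by
    intro e
    rw [mul_pow]
    exact mul_le_mul_of_nonneg_left (av_sq_le r (Sc V) (Sc V e) u) (sq_nonneg r)
  refine (sum_le_sum fun e _ => h1 e).trans ?_
  rw [← mul_sum]
  refine mul_le_mul_of_nonneg_left ?_ (sq_nonneg r)
  have h2 : ∑ e, H325.av r (Sc V) (fun x => Sc V e x ^ 2) u =
      H325.av r (Sc V) (fun x => ∑ e, Sc V e x ^ 2) u := by
    unfold H325.av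
    rw [← sum_div]
    congr 1
    rw [sum_comm]
    exact sum_congr rfl fun x _ => by rw [mul_sum]
  rw [h2]
  exact (le_abs_self _).trans (H325.abs_av_le r (Sc V) (fun x => by
    rw [abs_of_nonneg (sum_nonneg fun e _ => sq_nonneg _)]
    exact cz_sq_le hn (hV x)) u)

/-- exponential moments of the soft maximum -/
lemma lz_exp (hn : 0 < n) {r x : ℝ} (hr : 0 < r) (hx : 0 < x) (V : S → Fin n → ℝ)
    (hV : ∀ x, V x ⬝ᵥ V x = 1) :
    ∫ g, Real.exp (x * lz r (Sc V) g) ∂(gI (Pair n)) ≤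
      Real.exp (x * (Real.log (Fintype.card S) + 2 * r) + x ^ 2 * r ^ 2 / n) := by
  classical
  have hn' : (0 : ℝ) < n := by exact_mod_cast hn
  have hc := c11_lz r (Sc V)
  have h1 := mgf_up hc (cv_lz r (Sc V)) hx.le hx le_rfl
  have hA : 0 < ∫ z, Real.exp (x * lz r (Sc V) z) ∂(gI (Pair n)) :=
    integral_exp_pos ((hc.lip.lip hc.B0).exp_eg x).integrable
  have h2 : VK (lz r (Sc V)) x ≤ r ^ 2 * (2 / (n : ℝ)) := by
    have h3 := KL_le_grad hc hx
    have h4 : (∫ z, Real.exp (x * lz r (Sc V) z) *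
        ∑ e, (r * H325.av r (Sc V) (Sc V e) z) ^ 2 ∂(gI (Pair n))) ≤
        (∫ z, Real.exp (x * lz r (Sc V) z) ∂(gI (Pair n))) * (r ^ 2 * (2 / n)) := by
      rw [← integral_mul_const]
      refine integral_mono_of_nonneg (Eventually.of_forall fun z => by positivity) ?_
        (Eventually.of_forall fun z => ?_)
      · exact ((hc.lip.lip hc.B0).exp_eg x).integrable.mul_const _
      · exact mul_le_mul_of_nonneg_left (lz_grad hn r V hV z) (Real.exp_pos _).le
    have h5 : (∫ z, Real.exp (x * lz r (Sc V) z) *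
        ∑ e, (r * H325.av r (Sc V) (Sc V e) z) ^ 2 ∂(gI (Pair n))) /
        (∫ z, Real.exp (x * lz r (Sc V) z) ∂(gI (Pair n))) ≤ r ^ 2 * (2 / (n : ℝ)) := by
      rw [div_le_iff₀ hA, mul_comm]
      exact h4
    have h6 := h3.trans (mul_le_mul_of_nonneg_left h5 (by positivity))
    unfold VK
    have hx2 : 0 < x ^ 2 := by positivity
    rw [show 2 * (KL (lz r (Sc V)) x / x ^ 2) = (2 * KL (lz r (Sc V)) x) / x ^ 2 by ring,
      div_le_iff₀ hx2]
    nlinarith
  have h7 : ∫ z, Real.exp (x * lz r (Sc V) z) ∂(gI (Pair n)) =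
      Real.exp (x * ∫ z', lz r (Sc V) z' ∂(gI (Pair n))) *
        ∫ z, Real.exp (x * (lz r (Sc V) z - ∫ z', lz r (Sc V) z' ∂(gI (Pair n)))) ∂(gI (Pair n)) := by
    rw [← integral_const_mul]
    refine integral_congr_ae (Eventually.of_forall fun z => ?_)
    simp only
    rw [← Real.exp_add]
    congr 1
    ring
  rw [h7]
  refine (mul_le_mul_of_nonneg_left h1 (Real.exp_pos _).le).trans ?_
  rw [← Real.exp_add]
  refine Real.exp_le_exp.2 ?_
  have h8 := mul_le_mul_of_nonneg_left (lz_mean hn hr V hV) hx.le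
  have h9 := mul_le_mul_of_nonneg_left h2 (show 0 ≤ x ^ 2 / 2 by positivity)
  have h10 : x ^ 2 / 2 * (r ^ 2 * (2 / n)) = x ^ 2 * r ^ 2 / n := by ring
  rw [h10] at h9
  linarith

end fam

/-! ## the norm of the quadratic form -/

/-- the norm of the quadratic form of `W0 n g` -/
noncomputable def nu (n : ℕ) (g : Pair n → ℝ) : ℝ :=
  sSup {y | ∃ v : Fin n → ℝ, v ⬝ᵥ v = 1 ∧ y = |v ⬝ᵥ (W0 n g *ᵥ v)|}

lemma abs_coord_le {v : Fin n → ℝ} (hv : v ⬝ᵥ v = 1) (i : Fin n) : |v i| ≤ 1 := by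
  have h1 : v i * v i ≤ 1 := by
    rw [← hv]
    exact single_le_sum (f := fun i => v i * v i) (fun i _ => mul_self_nonneg _) (mem_univ i)
  exact abs_le_one_iff_mul_self_le_one.2 h1

lemma abs_quad_le (v : Fin n → ℝ) (hv : v ⬝ᵥ v = 1) (g : Pair n → ℝ) :
    |v ⬝ᵥ (W0 n g *ᵥ v)| ≤ ∑ e, 2 / √n * |g e| := by
  rw [quad0_eq]
  refine (abs_sum_le_sum_abs _ _).trans (sum_le_sum fun e _ => ?_)
  unfold cz
  rw [abs_mul]
  refine mul_le_mul_of_nonneg_right ?_ (abs_nonneg _)
  rw [abs_mul, abs_of_nonneg (by positivity : 0 ≤ 2 / √(n : ℝ)), abs_mul]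
  have h1 := mul_le_mul (abs_coord_le hv e.1.1) (abs_coord_le hv e.1.2) (abs_nonneg _) zero_le_one
  calc 2 / √(n : ℝ) * (|v e.1.1| * |v e.1.2|) ≤ 2 / √(n : ℝ) * (1 * 1) :=
        mul_le_mul_of_nonneg_left h1 (by positivity)
    _ = 2 / √(n : ℝ) := by ring

lemma nu_bdd (g : Pair n → ℝ) :
    BddAbove {y | ∃ v : Fin n → ℝ, v ⬝ᵥ v = 1 ∧ y = |v ⬝ᵥ (W0 n g *ᵥ v)|} := by
  refine ⟨∑ e, 2 / √n * |g e|, ?_⟩
  rintro y ⟨v, hv, rfl⟩
  exact abs_quad_le v hv g

lemma nu_nonneg (g : Pair n → ℝ) : 0 ≤ nu n g := by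
  refine Real.sSup_nonneg ?_
  rintro y ⟨v, hv, rfl⟩
  exact abs_nonneg _

lemma le_nu_one (g : Pair n → ℝ) {v : Fin n → ℝ} (hv : v ⬝ᵥ v = 1) :
    |v ⬝ᵥ (W0 n g *ᵥ v)| ≤ nu n g := le_csSup (nu_bdd g) ⟨v, hv, rfl⟩

/-- the quadratic form is bounded by `nu` -/
lemma le_nu (g : Pair n → ℝ) (v : Fin n → ℝ) :
    |v ⬝ᵥ (W0 n g *ᵥ v)| ≤ nu n g * (v ⬝ᵥ v) := by
  have hp0 : 0 ≤ v ⬝ᵥ v := sum_nonneg fun i _ => mul_self_nonneg (v i)
  rcases hp0.eq_or_lt with h | hp
  · have hv : v = 0 := dotProduct_self_eq_zero.1 h.symm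
    subst hv
    simp
  have hsq : √(v ⬝ᵥ v) * √(v ⬝ᵥ v) = v ⬝ᵥ v := Real.mul_self_sqrt hp.le
  have hs0 : 0 < √(v ⬝ᵥ v) := Real.sqrt_pos.2 hp
  have hu1 : ((1 / √(v ⬝ᵥ v)) • v) ⬝ᵥ ((1 / √(v ⬝ᵥ v)) • v) = 1 := by
    rw [smul_dotProduct, dotProduct_smul, smul_eq_mul, smul_eq_mul]
    field_simp
    rw [sq, hsq]
  have h2 := le_nu_one g hu1
  have e1 : ((1 / √(v ⬝ᵥ v)) • v) ⬝ᵥ (W0 n g *ᵥ ((1 / √(v ⬝ᵥ v)) • v)) =
      (v ⬝ᵥ (W0 n g *ᵥ v)) / (v ⬝ᵥ v) := by
    rw [mulVec_smul, smul_dotProduct, dotProduct_smul, smul_eq_mul, smul_eq_mul]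
    rw [← mul_assoc, div_mul_div_comm, hsq]
    ring
  rw [e1, abs_div, abs_of_pos hp, div_le_iff₀ hp] at h2
  exact h2

lemma nu_le {g : Pair n → ℝ} {c : ℝ} (hc : 0 ≤ c)
    (h : ∀ v : Fin n → ℝ, v ⬝ᵥ v = 1 → |v ⬝ᵥ (W0 n g *ᵥ v)| ≤ c) : nu n g ≤ c := by
  refine Real.sSup_le ?_ hc
  rintro y ⟨v, hv, rfl⟩
  exact h v hv

lemma nu_sub_le (g g' : Pair n → ℝ) : nu n g ≤ nu n g' + ∑ e, 2 / √n * |(g - g') e| := by
  refine nu_le (add_nonneg (nu_nonneg _) (sum_nonneg fun e _ => by positivity)) fun v hv => ?_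
  have h1 := abs_quad_le v hv (g - g')
  have h2 := le_nu_one g' hv
  have h3 : v ⬝ᵥ (W0 n g *ᵥ v) = v ⬝ᵥ (W0 n g' *ᵥ v) + v ⬝ᵥ (W0 n (g - g') *ᵥ v) := by
    rw [quad0_eq, quad0_eq, quad0_eq, ← sum_add_distrib]
    exact sum_congr rfl fun e _ => by rw [Pi.sub_apply]; ring
  rw [h3]
  exact (abs_add_le _ _).trans (by linarith)

lemma nu_lip : Lip (nu n) := by
  refine ⟨∑ _e : Pair n, 2 / √(n : ℝ), sum_nonneg fun e _ => by positivity, fun y y' => ?_⟩
  have hb : ∀ z : Pair n → ℝ, ∑ e, 2 / √(n : ℝ) * |z e| ≤ (∑ _e : Pair n, 2 / √(n : ℝ)) * ‖z‖ := by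
    intro z
    rw [sum_mul]
    refine sum_le_sum fun e _ => mul_le_mul_of_nonneg_left ?_ (by positivity)
    rw [← Real.norm_eq_abs]
    exact norm_le_pi_norm z e
  have h1 := nu_sub_le y y'
  have h2 := nu_sub_le y' y
  have h3 := hb (y - y')
  have h4 := hb (y' - y)
  rw [norm_sub_rev y' y] at h4
  rw [abs_le]
  constructor <;> linarith

lemma nu_meas : Measurable (nu n) := nu_lip.eg.meas

/-- the members of the family are bounded by the soft maximum -/
lemma quad_le_lz {S : Type} [Fintype S] [Nonempty S] {r : ℝ} (V : S → Fin n → ℝ)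
    (g : Pair n → ℝ) (x : S) : r * (V x ⬝ᵥ (W0 n g *ᵥ V x)) ≤ lz r (Sc V) g := by
  unfold lz Zp ez
  rw [Real.le_log_iff_exp_le (sum_pos (fun _ _ => Real.exp_pos _) univ_nonempty)]
  have h1 : r * (V x ⬝ᵥ (W0 n g *ᵥ V x)) = r * ∑ e, Sc V e x * g e := by
    rw [quad0_eq]
    rfl
  rw [h1]
  exact single_le_sum (f := fun x => Real.exp (r * ∑ e, Sc V e x * g e))
    (fun _ _ => (Real.exp_pos _).le) (mem_univ x)

lemma W0_neg (g : Pair n → ℝ) (v : Fin n → ℝ) :
    v ⬝ᵥ (W0 n (-g) *ᵥ v) = -(v ⬝ᵥ (W0 n g *ᵥ v)) := by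
  rw [quad0_eq, quad0_eq, ← sum_neg_distrib]
  exact sum_congr rfl fun e _ => by rw [Pi.neg_apply]; ring

/-- a finite family, both signs -/
lemma fam_le (hn : 0 < n) {D : ℝ} (hD : 0 < D) {m : ℕ} (V : Fin (m + 1) → Fin n → ℝ)
    (hV : ∀ x, V x ⬝ᵥ V x = 1) {M : (Pair n → ℝ) → ℝ} (hM : Measurable M)
    (hx : ∀ g, ∃ x, M g = |V x ⬝ᵥ (W0 n g *ᵥ V x)|) :
    ∫⁻ g, ENNReal.ofReal (Real.exp (n * D * max (M g - 2 - D) 0)) ∂(gI (Pair n)) ≤ 3 := by
  classical
  have hn' : (0 : ℝ) < n := by exact_mod_cast hn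
  set c : ℝ := n * D with hc
  have hc0 : 0 < c := by positivity
  have key : ∀ r : ℝ, 0 < r →
      ∫⁻ g, ENNReal.ofReal (Real.exp (c * max (M g - 2 - D) 0)) ∂(gI (Pair n)) ≤
      ENNReal.ofReal (1 + 2 * Real.exp (c * Real.log (Fintype.card (Fin (m + 1))) * (1 / r))) := by
    intro r hr
    have hlz := c11_lz r (Sc V)
    have hl := hlz.lip.lip hlz.B0
    have heg : EG fun g => Real.exp (c / r * lz r (Sc V) g) := hl.exp_eg (c / r)
    have hegn : EG fun g : Pair n → ℝ => Real.exp (c / r * lz r (Sc V) (-g)) := by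
      have hl2 : Lip fun g : Pair n → ℝ => lz r (Sc V) (-g) := by
        obtain ⟨L, hL, h⟩ := hl
        refine ⟨L, hL, fun y y' => ?_⟩
        have h2 := h (-y) (-y')
        rwa [← neg_sub', norm_neg] at h2
      exact hl2.exp_eg (c / r)
    have hpt : ∀ g, Real.exp (c * max (M g - 2 - D) 0) ≤
        1 + Real.exp (-(c * (2 + D))) * (Real.exp (c / r * lz r (Sc V) g) +
          Real.exp (c / r * lz r (Sc V) (-g))) := by
      intro g
      obtain ⟨x, hxg⟩ := hx g
      have hq := quad_le_lz (r := r) V g x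
      have hq2 := quad_le_lz (r := r) V (-g) x
      rw [W0_neg] at hq2
      have hcr : 0 < c / r := by positivity
      have h1 := mul_le_mul_of_nonneg_left hq hcr.le
      have h2 := mul_le_mul_of_nonneg_left hq2 hcr.le
      have e1 : c / r * (r * (V x ⬝ᵥ (W0 n g *ᵥ V x))) = c * (V x ⬝ᵥ (W0 n g *ᵥ V x)) := by
        field_simp
      have e2 : c / r * (r * -(V x ⬝ᵥ (W0 n g *ᵥ V x))) = c * -(V x ⬝ᵥ (W0 n g *ᵥ V x)) := by
        field_simp
      rw [e1] at h1
      rw [e2] at h2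
      have p1 := Real.exp_pos (c / r * lz r (Sc V) g)
      have p2 := Real.exp_pos (c / r * lz r (Sc V) (-g))
      have h3 : Real.exp (c * M g) ≤ Real.exp (c / r * lz r (Sc V) g) +
          Real.exp (c / r * lz r (Sc V) (-g)) := by
        rw [hxg]
        rcases abs_cases (V x ⬝ᵥ (W0 n g *ᵥ V x)) with ⟨h4, _⟩ | ⟨h4, _⟩
        · rw [h4]
          linarith [Real.exp_le_exp.2 h1]
        · rw [h4]
          linarith [Real.exp_le_exp.2 h2]
      rcases le_total (M g - 2 - D) 0 with h5 | h5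
      · rw [max_eq_right h5, mul_zero, Real.exp_zero]
        have : 0 ≤ Real.exp (-(c * (2 + D))) * (Real.exp (c / r * lz r (Sc V) g) +
          Real.exp (c / r * lz r (Sc V) (-g))) := by positivity
        linarith
      · rw [max_eq_left h5]
        have e3 : c * (M g - 2 - D) = -(c * (2 + D)) + c * M g := by ring
        rw [e3, Real.exp_add]
        have := mul_le_mul_of_nonneg_left h3 (Real.exp_pos (-(c * (2 + D)))).le
        linarith
    have hint2 : Integrable (fun g => Real.exp (c / r * lz r (Sc V) g) +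
        Real.exp (c / r * lz r (Sc V) (-g))) (gI (Pair n)) :=
      heg.integrable.add hegn.integrable
    have hint3 : Integrable (fun g => Real.exp (-(c * (2 + D))) *
        (Real.exp (c / r * lz r (Sc V) g) + Real.exp (c / r * lz r (Sc V) (-g))))
        (gI (Pair n)) := hint2.const_mul _
    have hint : Integrable (fun g => 1 + Real.exp (-(c * (2 + D))) *
        (Real.exp (c / r * lz r (Sc V) g) + Real.exp (c / r * lz r (Sc V) (-g))))
        (gI (Pair n)) := (integrable_const _).add hint3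
    refine (lintegral_mono fun g => ENNReal.ofReal_le_ofReal (hpt g)).trans ?_
    rw [← ofReal_integral_eq_lintegral_ofReal hint (Eventually.of_forall fun g => by positivity)]
    refine ENNReal.ofReal_le_ofReal ?_
    rw [integral_add (integrable_const _) hint3, integral_const_mul,
      integral_add heg.integrable hegn.integrable]
    have hsym : ∫ g, Real.exp (c / r * lz r (Sc V) (-g)) ∂(gI (Pair n)) =
        ∫ g, Real.exp (c / r * lz r (Sc V) g) ∂(gI (Pair n)) :=
      Vale.Agent.P146.H946.integral_neg_gI (F := fun g => Real.exp (c / r * lz r (Sc V) g)) heg.meas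
    rw [hsym]
    have hE := lz_exp hn hr (show 0 < c / r by positivity) V hV
    simp only [integral_const, probReal_univ, smul_eq_mul, mul_one, one_mul]
    have e4 : c / r * (Real.log (Fintype.card (Fin (m + 1))) + 2 * r) + (c / r) ^ 2 * r ^ 2 / n =
        c * (2 + D) + c * Real.log (Fintype.card (Fin (m + 1))) * (1 / r) := by
      have h5 : (c / r) ^ 2 * r ^ 2 / n = c * D := by
        rw [div_pow, div_mul_cancel₀ _ (by positivity), hc]
        field_simp
      rw [h5]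
      field_simp
      ring
    rw [e4, Real.exp_add] at hE
    have h6 := mul_le_mul_of_nonneg_left hE (Real.exp_pos (-(c * (2 + D)))).le
    have h7 : Real.exp (-(c * (2 + D))) * (Real.exp (c * (2 + D)) *
        Real.exp (c * Real.log (Fintype.card (Fin (m + 1))) * (1 / r))) =
        Real.exp (c * Real.log (Fintype.card (Fin (m + 1))) * (1 / r)) := by
      rw [← mul_assoc, ← Real.exp_add, neg_add_cancel, Real.exp_zero, one_mul]
    rw [h7] at h6
    linarith
  have ht : Tendsto (fun r : ℝ => ENNReal.ofReal (1 + 2 * Real.exp (c *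
      Real.log (Fintype.card (Fin (m + 1))) * (1 / r)))) atTop (𝓝 (ENNReal.ofReal (1 + 2 * Real.exp 0))) := by
    refine ENNReal.tendsto_ofReal ?_
    refine Tendsto.const_add _ (Tendsto.const_mul _ ?_)
    refine (Real.continuous_exp.tendsto _).comp ?_
    have h1 : Tendsto (fun r : ℝ => 1 / r) atTop (𝓝 0) := by
      simpa using tendsto_inv_atTop_zero (𝕜 := ℝ)
    have h2 := h1.const_mul (c * Real.log (Fintype.card (Fin (m + 1))))
    rwa [mul_zero] at h2
  have h3 := ge_of_tendsto ht (eventually_atTop.2 ⟨1, fun r hr => key r (by linarith)⟩)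
  rw [Real.exp_zero] at h3
  refine h3.trans (le_of_eq ?_)
  norm_num

/-- **The edge of `W0`**: exponential moments of the excess of the norm over `2`. -/
theorem nu_exp (hn : 0 < n) {D : ℝ} (hD : 0 < D) :
    ∫⁻ g, ENNReal.ofReal (Real.exp (n * D * max (nu n g - 2 - D) 0)) ∂(gI (Pair n)) ≤ 3 := by
  classical
  have hne : Nonempty {v : Fin n → ℝ // v ⬝ᵥ v = 1} :=
    ⟨⟨Pi.single ⟨0, hn⟩ 1, by simp⟩⟩
  set d : ℕ → {v : Fin n → ℝ // v ⬝ᵥ v = 1} := TopologicalSpace.denseSeq _ with hd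
  set q : ℕ → (Pair n → ℝ) → ℝ := fun k g => |(d k).1 ⬝ᵥ (W0 n g *ᵥ (d k).1)| with hq
  have hqm : ∀ k, Measurable (q k) := by
    intro k
    have h1 : q k = fun g => |∑ e, cz (d k).1 e * g e| := by
      funext g
      simp only [hq, quad0_eq]
    rw [h1]
    fun_prop
  have hpm : ∀ m, Measurable (partialSups q m) := by
    intro m
    induction m with
    | zero => simpa using hqm 0
    | succ m ih =>
      rw [partialSups_add_one]
      exact ih.sup (hqm _)
  have hpa : ∀ m g, partialSups q m g = partialSups (fun k => q k g) m := fun m g => by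
    rw [Pi.partialSups_apply]
  have hbdd : ∀ g, BddAbove (Set.range fun k => q k g) := by
    intro g
    refine ⟨nu n g, ?_⟩
    rintro y ⟨k, rfl⟩
    exact le_nu_one g (d k).2
  have hnu : ∀ g, nu n g = ⨆ k, q k g := by
    intro g
    refine le_antisymm ?_ (ciSup_le fun k => le_nu_one g (d k).2)
    refine nu_le ?_ fun v hv => ?_
    · exact le_ciSup_of_le (hbdd g) 0 (abs_nonneg _)
    · by_contra hcon
      rw [not_le] at hcon
      have hcont : Continuous fun w : {v : Fin n → ℝ // v ⬝ᵥ v = 1} =>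
          |w.1 ⬝ᵥ (W0 n g *ᵥ w.1)| := by
        have h1 : Continuous fun w : Fin n → ℝ => |w ⬝ᵥ (W0 n g *ᵥ w)| := by
          simp only [dotProduct, mulVec]
          fun_prop
        exact h1.comp continuous_subtype_val
      have hopen : IsOpen {w : {v : Fin n → ℝ // v ⬝ᵥ v = 1} |
          (⨆ k, q k g) < |w.1 ⬝ᵥ (W0 n g *ᵥ w.1)|} := isOpen_lt continuous_const hcont
      obtain ⟨k, hk⟩ := (TopologicalSpace.denseRange_denseSeq
        {v : Fin n → ℝ // v ⬝ᵥ v = 1}).exists_mem_open hopen ⟨⟨v, hv⟩, hcon⟩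
      exact absurd (le_ciSup (hbdd g) k) (not_le.2 hk)
  have htend : ∀ g, Tendsto (fun m => partialSups q m g) atTop (𝓝 (nu n g)) := by
    intro g
    have h1 : BddAbove (Set.range fun m => partialSups (fun k => q k g) m) := by
      rw [bddAbove_range_partialSups]
      exact hbdd g
    have h2 := tendsto_atTop_ciSup (partialSups (fun k => q k g)).monotone h1
    have h3 : ⨆ m, partialSups (fun k => q k g) m = nu n g := by
      rw [hnu g, ciSup_partialSups_eq (hbdd g)]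
    rw [h3] at h2
    refine h2.congr fun m => ?_
    rw [hpa]
  have hT := lintegral_tendsto_of_tendsto_of_monotone (μ := gI (Pair n))
    (f := fun m g => ENNReal.ofReal (Real.exp (n * D * max (partialSups q m g - 2 - D) 0)))
    (F := fun g => ENNReal.ofReal (Real.exp (n * D * max (nu n g - 2 - D) 0)))
    (fun m => by
      have h1 := hpm m
      exact (by fun_prop : Measurable fun g => ENNReal.ofReal
        (Real.exp (n * D * max (partialSups q m g - 2 - D) 0))).aemeasurable)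
    (Eventually.of_forall fun g => by
      intro a b hab
      refine ENNReal.ofReal_le_ofReal (Real.exp_le_exp.2 ?_)
      refine mul_le_mul_of_nonneg_left ?_ (by positivity)
      refine max_le_max ?_ le_rfl
      have h1 : partialSups q a g ≤ partialSups q b g := (partialSups q).monotone hab g
      linarith)
    (Eventually.of_forall fun g => by
      refine ENNReal.tendsto_ofReal ?_
      refine (Real.continuous_exp.tendsto _).comp ?_
      refine Tendsto.const_mul _ ?_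
      exact (((htend g).sub_const 2).sub_const D).max tendsto_const_nhds)
  refine le_of_tendsto' hT fun m => ?_
  refine fam_le hn hD (fun x : Fin (m + 1) => (d x).1) (fun x => (d x).2) (hpm m) fun g => ?_
  obtain ⟨j, hj, hj2⟩ := exists_partialSups_eq (fun k => q k g) m
  exact ⟨⟨j, by omega⟩, by rw [hpa, hj2]⟩

/-- the Bochner form -/
theorem nu_exp' (hn : 0 < n) {D : ℝ} (hD : 0 < D) :
    Integrable (fun g => Real.exp (n * D * max (nu n g - 2 - D) 0)) (gI (Pair n)) ∧
      ∫ g, Real.exp (n * D * max (nu n g - 2 - D) 0) ∂(gI (Pair n)) ≤ 3 := by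
  have hm : Measurable fun g => Real.exp (n * D * max (nu n g - 2 - D) 0) := by
    have := nu_meas (n := n)
    fun_prop
  have h1 := nu_exp hn hD
  have hi : Integrable (fun g => Real.exp (n * D * max (nu n g - 2 - D) 0)) (gI (Pair n)) := by
    refine ⟨hm.aestronglyMeasurable, ?_⟩
    rw [hasFiniteIntegral_iff_ofReal (Eventually.of_forall fun g => (Real.exp_pos _).le)]
    exact h1.trans_lt (by norm_num)
  refine ⟨hi, ?_⟩
  rw [← ofReal_integral_eq_lintegral_ofReal hi (Eventually.of_forall fun g =>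
    (Real.exp_pos _).le)] at h1
  have h2 : (3 : ENNReal) = ENNReal.ofReal 3 := by norm_num
  rw [h2] at h1
  exact (ENNReal.ofReal_le_ofReal_iff (by norm_num)).1 h1

end Vale.Agent.P146.H498.Edge
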