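import Vale.Agent.P146.H498.Edge
import Vale.Agent.P146.H877.Sph

/-!
P146, lower half (helper498): the edge of the coupling matrix under a tilted law. For a density
`e^ℓ` with the entropy `∫ e^ℓ ℓ`: the excess of the norm of `W0` over `2 + D` has the mean at most
`(entropy + log 3) / (n D)`, the square of the excess over `2` has the mean at most
`8 (entropy + log 5) / n`.
-/

set_option linter.all false

open MeasureTheory ProbabilityTheory Finset Matrix Filter Topology

namespace Vale.Agent.P146.H498.Edge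

open Vale.Agent.P157.Lv Vale.Agent.P146.H425 Vale.Agent.P146.H325 Vale.Agent.P146.H332

variable {n : ℕ}

/-- the exponential moment for one `t` -/
lemma exp_lin (hn : 0 < n) {t : ℝ} (ht : 0 ≤ t) :
    ∫⁻ g, ENNReal.ofReal (Real.exp (t * max (nu n g - 2) 0)) ∂(gI (Pair n)) ≤
      ENNReal.ofReal (3 * Real.exp (t ^ 2 / n)) := by
  have hn' : (0 : ℝ) < n := by exact_mod_cast hn
  rcases ht.eq_or_lt with rfl | ht
  · simp
  set D : ℝ := t / n with hD
  have hD0 : 0 < D := by positivity
  have h1 := nu_exp hn hD0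
  have e1 : (n : ℝ) * D = t := by rw [hD]; field_simp
  rw [e1] at h1
  have h2 : ∀ g, ENNReal.ofReal (Real.exp (t * max (nu n g - 2) 0)) ≤
      ENNReal.ofReal (Real.exp (t * D)) * ENNReal.ofReal (Real.exp (t * max (nu n g - 2 - D) 0)) := by
    intro g
    rw [← ENNReal.ofReal_mul (Real.exp_pos _).le, ← Real.exp_add]
    refine ENNReal.ofReal_le_ofReal (Real.exp_le_exp.2 ?_)
    rw [← mul_add]
    refine mul_le_mul_of_nonneg_left ?_ ht.le
    refine max_le ?_ ?_
    · have := le_max_left (nu n g - 2 - D) 0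
      linarith
    · have := le_max_right (nu n g - 2 - D) 0
      linarith
  refine (lintegral_mono h2).trans ?_
  have hm : Measurable fun g => ENNReal.ofReal (Real.exp (t * max (nu n g - 2 - D) 0)) := by
    have := nu_meas (n := n)
    fun_prop
  rw [lintegral_const_mul _ hm]
  refine (mul_le_mul_right h1 _).trans (le_of_eq ?_)
  have h3 : (3 : ENNReal) = ENNReal.ofReal 3 := by norm_num
  rw [h3, ← ENNReal.ofReal_mul (Real.exp_pos _).le, mul_comm]
  congr 3
  rw [hD]
  ring

/-- the Gaussian tail of the excess -/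
theorem exp_sq (hn : 0 < n) :
    ∫⁻ g, ENNReal.ofReal (Real.exp (n / 8 * max (nu n g - 2) 0 ^ 2)) ∂(gI (Pair n)) ≤ 5 := by
  have hn' : (0 : ℝ) < n := by exact_mod_cast hn
  have hm := nu_meas (n := n)
  have h1 : ∀ g, ENNReal.ofReal (Real.exp (n / 8 * max (nu n g - 2) 0 ^ 2)) =
      ∫⁻ ξ, ENNReal.ofReal (Real.exp (√n / 2 * max (nu n g - 2) 0 * ξ)) ∂(gaussianReal 0 1) := by
    intro g
    set t : ℝ := √n / 2 * max (nu n g - 2) 0 with ht
    have h2 : Integrable (fun ξ => Real.exp (t * ξ)) (gaussianReal 0 1) :=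
      integrable_exp_mul_gaussianReal t
    rw [← ofReal_integral_eq_lintegral_ofReal h2 (Eventually.of_forall fun _ => (Real.exp_pos _).le)]
    congr 1
    have h3 : ∫ ξ, Real.exp (t * ξ) ∂(gaussianReal 0 1) = Real.exp (t ^ 2 / 2) := by
      have h4 := congrFun (mgf_id_gaussianReal (μ := 0) (v := 1)) t
      simp only [mgf, id_eq] at h4
      rw [h4]
      congr 1
      simp
    rw [h3]
    congr 1
    rw [ht, mul_pow, div_pow, Real.sq_sqrt hn'.le]
    ring
  simp only [h1]
  rw [lintegral_lintegral_swap (by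
    refine Measurable.aemeasurable ?_
    simp only [Function.uncurry_def]
    fun_prop)]
  have h5 : ∀ ξ : ℝ, ∫⁻ g, ENNReal.ofReal (Real.exp (√n / 2 * max (nu n g - 2) 0 * ξ))
      ∂(gI (Pair n)) ≤ ENNReal.ofReal (3 * Real.exp (1 / 4 * ξ ^ 2)) := by
    intro ξ
    have h6 := exp_lin (n := n) hn (t := √n / 2 * |ξ|) (by positivity)
    have e1 : (√(n : ℝ) / 2 * |ξ|) ^ 2 / n = 1 / 4 * ξ ^ 2 := by
      rw [mul_pow, div_pow, Real.sq_sqrt hn'.le, sq_abs]
      field_simp
      ring
    rw [e1] at h6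
    refine (lintegral_mono fun g => ?_).trans h6
    refine ENNReal.ofReal_le_ofReal (Real.exp_le_exp.2 ?_)
    have h7 : 0 ≤ √(n : ℝ) / 2 * max (nu n g - 2) 0 := by positivity
    calc √(n : ℝ) / 2 * max (nu n g - 2) 0 * ξ ≤ √(n : ℝ) / 2 * max (nu n g - 2) 0 * |ξ| :=
          mul_le_mul_of_nonneg_left (le_abs_self ξ) h7
      _ = √(n : ℝ) / 2 * |ξ| * max (nu n g - 2) 0 := by ring
  refine (lintegral_mono h5).trans ?_
  have h8 : Integrable (fun ξ : ℝ => 3 * Real.exp (1 / 4 * ξ ^ 2)) (gaussianReal 0 1) :=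
    (Vale.Agent.P146.H877.integrable_exp_sq (by norm_num)).const_mul 3
  rw [← ofReal_integral_eq_lintegral_ofReal h8 (Eventually.of_forall fun _ => by positivity),
    integral_const_mul, Vale.Agent.P146.H877.integral_exp_sq (by norm_num)]
  have h9 : (5 : ENNReal) = ENNReal.ofReal 5 := by norm_num
  rw [h9]
  refine ENNReal.ofReal_le_ofReal ?_
  have h10 : (3 : ℝ) / 5 ≤ √(1 - 2 * (1 / 4)) := by
    rw [show (1 : ℝ) - 2 * (1 / 4) = 1 / 2 by norm_num]
    exact Real.le_sqrt_of_sq_le (by norm_num)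
  have h11 : 0 < √((1 : ℝ) - 2 * (1 / 4)) := by linarith
  rw [mul_one_div, div_le_iff₀ h11]
  linarith

section entropy

variable {Ω : Type*} [MeasurableSpace Ω] {μ : Measure Ω}

/-- the entropy inequality -/
theorem entropy_le {ℓ Y : Ω → ℝ} {c K : ℝ} (hc : 0 < c) (hK : 0 < K)
    (h1 : Integrable (fun z => Real.exp (ℓ z)) μ) (hm : ∫ z, Real.exp (ℓ z) ∂μ = 1)
    (h2 : Integrable (fun z => Real.exp (ℓ z) * ℓ z) μ)
    (hY : AEStronglyMeasurable Y μ) (hY0 : ∀ z, 0 ≤ Y z)
    (h3 : Integrable (fun z => Real.exp (c * Y z)) μ) (hle : ∫ z, Real.exp (c * Y z) ∂μ ≤ K) :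
    Integrable (fun z => Real.exp (ℓ z) * Y z) μ ∧
      ∫ z, Real.exp (ℓ z) * Y z ∂μ ≤ (∫ z, Real.exp (ℓ z) * ℓ z ∂μ + Real.log K) / c := by
  have key : ∀ z, c * (Real.exp (ℓ z) * Y z) ≤ Real.exp (ℓ z) * ℓ z +
      (Real.log K - 1) * Real.exp (ℓ z) + 1 / K * Real.exp (c * Y z) := by
    intro z
    have h4 := Real.add_one_le_exp (c * Y z - Real.log K - ℓ z)
    have h5 := mul_le_mul_of_nonneg_left h4 (Real.exp_pos (ℓ z)).le
    have h6 : Real.exp (ℓ z) * Real.exp (c * Y z - Real.log K - ℓ z) =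
        1 / K * Real.exp (c * Y z) := by
      rw [← Real.exp_add, show ℓ z + (c * Y z - Real.log K - ℓ z) = c * Y z - Real.log K by ring,
        Real.exp_sub, Real.exp_log hK]
      ring
    rw [h6] at h5
    linarith
  have hdom : Integrable (fun z => Real.exp (ℓ z) * ℓ z +
      (Real.log K - 1) * Real.exp (ℓ z) + 1 / K * Real.exp (c * Y z)) μ :=
    (h2.add (h1.const_mul _)).add (h3.const_mul _)
  have hint : Integrable (fun z => c * (Real.exp (ℓ z) * Y z)) μ := by
    refine hdom.mono' ((h1.aestronglyMeasurable.mul hY).const_mul c) (Eventually.of_forall fun z => ?_)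
    rw [Real.norm_eq_abs, abs_of_nonneg (mul_nonneg hc.le (mul_nonneg (Real.exp_pos _).le (hY0 z)))]
    exact key z
  have hint2 : Integrable (fun z => Real.exp (ℓ z) * Y z) μ := by
    have h7 := hint.const_mul (1 / c)
    refine h7.congr (Eventually.of_forall fun z => ?_)
    simp only
    field_simp
  refine ⟨hint2, ?_⟩
  have h8 := integral_mono hint hdom key
  have i1 : Integrable (fun z => Real.exp (ℓ z) * ℓ z + (Real.log K - 1) * Real.exp (ℓ z)) μ :=
    h2.add (h1.const_mul _)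
  rw [integral_const_mul, integral_add i1 (h3.const_mul _), integral_add h2 (h1.const_mul _),
    integral_const_mul, integral_const_mul, hm] at h8
  rw [le_div_iff₀ hc]
  have h9 : 1 / K * ∫ z, Real.exp (c * Y z) ∂μ ≤ 1 := by
    rw [one_div, inv_mul_le_iff₀ hK, mul_one]
    exact hle
  linarith

end entropy

section sub

variable {ι : Type} [Fintype ι] (em : Pair n → ι)

/-- the restriction of a lower integral to the couplings -/
lemma lint_comp (hem : Function.Injective em) {F : (Pair n → ℝ) → ENNReal} (hF : Measurable F) :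
    ∫⁻ z : ι → ℝ, F (fun e => z (em e)) ∂(gI ι) = ∫⁻ g, F g ∂(gI (Pair n)) := by
  have h := Vale.Agent.P146.R3.H49.Lam.gauss_comp em hem
  have hm : Measurable fun (z : ι → ℝ) => z ∘ em :=
    measurable_pi_iff.mpr fun k => measurable_pi_apply (em k)
  have h2 := lintegral_map (μ := gI ι) hF hm
  rw [h] at h2
  exact h2.symm

/-- mean of the excess over `2 + D` under a density `e^ℓ` -/
theorem tilt_one (hn : 0 < n) (hem : Function.Injective em) {D : ℝ} (hD : 0 < D)
    {ℓ : (ι → ℝ) → ℝ} (h1 : Integrable (fun z => Real.exp (ℓ z)) (gI ι))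
    (hm : ∫ z, Real.exp (ℓ z) ∂(gI ι) = 1)
    (h2 : Integrable (fun z => Real.exp (ℓ z) * ℓ z) (gI ι)) :
    Integrable (fun z => Real.exp (ℓ z) * max (nu n (fun e => z (em e)) - 2 - D) 0) (gI ι) ∧
      ∫ z, Real.exp (ℓ z) * max (nu n (fun e => z (em e)) - 2 - D) 0 ∂(gI ι) ≤
        (∫ z, Real.exp (ℓ z) * ℓ z ∂(gI ι) + Real.log 3) / (n * D) := by
  have hn' : (0 : ℝ) < n := by exact_mod_cast hn
  have hnu := nu_meas (n := n)
  have hmc : Measurable fun z : ι → ℝ => (fun e => z (em e) : Pair n → ℝ) :=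
    measurable_pi_iff.mpr fun k => measurable_pi_apply (em k)
  have hnz : Measurable fun z : ι → ℝ => nu n (fun e => z (em e)) := hnu.comp hmc
  have hY : Measurable fun z : ι → ℝ => max (nu n (fun e => z (em e)) - 2 - D) 0 := by fun_prop
  have h3 : ∫⁻ z, ENNReal.ofReal (Real.exp (n * D * max (nu n (fun e => z (em e)) - 2 - D) 0))
      ∂(gI ι) ≤ 3 := by
    rw [lint_comp em hem (F := fun g => ENNReal.ofReal
      (Real.exp (n * D * max (nu n g - 2 - D) 0))) (by fun_prop)]
    exact nu_exp hn hD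
  have hi : Integrable (fun z => Real.exp (n * D * max (nu n (fun e => z (em e)) - 2 - D) 0))
      (gI ι) := by
    refine ⟨(by fun_prop : Measurable _).aestronglyMeasurable, ?_⟩
    rw [hasFiniteIntegral_iff_ofReal (Eventually.of_forall fun g => (Real.exp_pos _).le)]
    exact h3.trans_lt (by norm_num)
  refine entropy_le (by positivity) (by norm_num) h1 hm h2 hY.aestronglyMeasurable
    (fun z => le_max_right _ _) hi ?_
  rw [← ofReal_integral_eq_lintegral_ofReal hi (Eventually.of_forall fun g =>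
    (Real.exp_pos _).le)] at h3
  have h4 : (3 : ENNReal) = ENNReal.ofReal 3 := by norm_num
  rw [h4] at h3
  exact (ENNReal.ofReal_le_ofReal_iff (by norm_num)).1 h3

/-- mean of the square of the excess over `2` under a density `e^ℓ` -/
theorem tilt_two (hn : 0 < n) (hem : Function.Injective em)
    {ℓ : (ι → ℝ) → ℝ} (h1 : Integrable (fun z => Real.exp (ℓ z)) (gI ι))
    (hm : ∫ z, Real.exp (ℓ z) ∂(gI ι) = 1)
    (h2 : Integrable (fun z => Real.exp (ℓ z) * ℓ z) (gI ι)) :
    Integrable (fun z => Real.exp (ℓ z) * max (nu n (fun e => z (em e)) - 2) 0 ^ 2) (gI ι) ∧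
      ∫ z, Real.exp (ℓ z) * max (nu n (fun e => z (em e)) - 2) 0 ^ 2 ∂(gI ι) ≤
        (∫ z, Real.exp (ℓ z) * ℓ z ∂(gI ι) + Real.log 5) / (n / 8) := by
  have hn' : (0 : ℝ) < n := by exact_mod_cast hn
  have hnu := nu_meas (n := n)
  have hmc : Measurable fun z : ι → ℝ => (fun e => z (em e) : Pair n → ℝ) :=
    measurable_pi_iff.mpr fun k => measurable_pi_apply (em k)
  have hnz : Measurable fun z : ι → ℝ => nu n (fun e => z (em e)) := hnu.comp hmc
  have hY : Measurable fun z : ι → ℝ => max (nu n (fun e => z (em e)) - 2) 0 ^ 2 := by fun_prop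
  have h3 : ∫⁻ z, ENNReal.ofReal (Real.exp (n / 8 * max (nu n (fun e => z (em e)) - 2) 0 ^ 2))
      ∂(gI ι) ≤ 5 := by
    rw [lint_comp em hem (F := fun g => ENNReal.ofReal
      (Real.exp (n / 8 * max (nu n g - 2) 0 ^ 2))) (by fun_prop)]
    exact exp_sq hn
  have hi : Integrable (fun z => Real.exp (n / 8 * max (nu n (fun e => z (em e)) - 2) 0 ^ 2))
      (gI ι) := by
    refine ⟨(by fun_prop : Measurable _).aestronglyMeasurable, ?_⟩
    rw [hasFiniteIntegral_iff_ofReal (Eventually.of_forall fun g => (Real.exp_pos _).le)]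
    exact h3.trans_lt (by norm_num)
  refine entropy_le (by positivity) (by norm_num) h1 hm h2 hY.aestronglyMeasurable
    (fun z => by positivity) hi ?_
  rw [← ofReal_integral_eq_lintegral_ofReal hi (Eventually.of_forall fun g =>
    (Real.exp_pos _).le)] at h3
  have h4 : (5 : ENNReal) = ENNReal.ofReal 5 := by norm_num
  rw [h4] at h3
  exact (ENNReal.ofReal_le_ofReal_iff (by norm_num)).1 h3

end sub

/-- the excess over `2 + D` is at most the excess over `2` -/
lemma exc_mono {D : ℝ} (hD : 0 ≤ D) (x : ℝ) : max (x - 2 - D) 0 ≤ max (x - 2) 0 :=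
  max_le_max (by linarith) le_rfl

end Vale.Agent.P146.H498.Edge
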