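import Vale.Agent.P146.H498.LRow
import Vale.Agent.P146.H425.Kf

/-!
P146, lower half (helper498): the entropy of the law of the level one of a layered system by the
convexity of the free energy in the exponent of the level one.
-/

set_option linter.all false

open MeasureTheory ProbabilityTheory Finset

namespace Vale.Agent.P146.H498.Row

open Vale.Agent.P157.Lv Vale.Agent.P157.Lv.Sy
open Vale.Agent.P146.H425 (wm)

variable {ι X : Type} [Fintype ι] [Fintype X] [Nonempty X] {S : Sy ι X}

/-- the log-weights of the levels `≥ 1` do not depend on the exponent of the level one -/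
lemma lg_wm (S : Sy ι X) (M : ℝ) {l : ℕ} (hl1 : 1 ≤ l) (hl : l ≤ S.K) :
    (wm S (Function.update S.m 1 M)).lg l = S.lg l := by
  have h := down_ind (K := S.K)
    (P := fun l => 1 ≤ l → (wm S (Function.update S.m 1 M)).lg l = S.lg l) ?_ ?_ l hl
  · exact h hl1
  · intro _
    have e1 := lg_top S
    have e2 := lg_top (wm S (Function.update S.m 1 M))
    rw [e1]
    exact e2
  · intro l hl ih h1
    rw [lg_step S hl]
    have e2 := lg_step (wm S (Function.update S.m 1 M)) (l := l) hl
    rw [e2, ih (by omega)]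
    have h3 : (Function.update S.m 1 M) (l + 1) = S.m (l + 1) :=
      Function.update_of_ne (by omega) _ _
    funext z
    show 1 / (Function.update S.m 1 M) (l + 1) * Real.log (J S.lev l
      (fun z => Real.exp ((Function.update S.m 1 M) (l + 1) * S.lg (l + 1) z)) z) = _
    rw [h3]
    rfl

/-- **The entropy of the law of the level one** is at most
`m_1 M / (M - m_1) (Φ(M) - Φ(m_1))`, `Φ(M)` = the free energy with the exponent `M > m_1`
of the level one. -/
theorem ent_le (hS : S.Reg) (hK : 1 ≤ S.K) {M : ℝ} (hM : S.m 1 < M) :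
    (M - S.m 1) * ent S ≤ S.m 1 * M * ((wm S (Function.update S.m 1 M)).fe - S.fe) := by
  have hm : 0 < S.m 1 := hS.pos
  have hM0 : 0 < M := hm.trans hM
  have hK0 : 0 < S.K := by omega
  set S' := wm S (Function.update S.m 1 M) with hS'
  have l1 : Lip (S.lg 1) := hS.lip_lg hK
  have l0 : Lip (S.lg 0) := hS.lip_lg (Nat.zero_le _)
  have hm' : S'.m (0 + 1) = M := by
    show (Function.update S.m 1 M) 1 = M
    rw [Function.update_self]
  have e0 : S'.lg 0 = S'.stp 0 (S.lg 1) := by
    rw [lg_step S' (l := 0) hK0, zero_add, hS', lg_wm S M le_rfl hK]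
  have l0' : Lip (S'.lg 0) := by
    rw [e0]
    exact lc_lip_stp l1 (by rw [hm']; exact hM0)
  have hexp : EG (fun z => Real.exp (M * S.lg 1 z)) := l1.exp_eg M
  have hpos : ∀ z, 0 < J S.lev 0 (fun z => Real.exp (M * S.lg 1 z)) z :=
    fun z => J_pos hexp (fun _ => Real.exp_pos _) z
  have hJ : ∀ z, J S.lev 0 (fun z => Real.exp (M * S.lg 1 z)) z = Real.exp (M * S'.lg 0 z) := by
    intro z
    have e1 : S'.lg 0 z = 1 / M * Real.log (J S.lev 0 (fun z => Real.exp (M * S.lg 1 z)) z) := by
      rw [e0]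
      show 1 / S'.m (0 + 1) * Real.log (J S.lev 0
        (fun z => Real.exp (S'.m (0 + 1) * S.lg 1 z)) z) = _
      rw [hm']
    rw [e1, ← mul_assoc, mul_one_div_cancel hM0.ne', one_mul, Real.exp_log (hpos z)]
  have d0 : Dep S.lev 0 (S.lg 0) := hS.dep_lg (Nat.zero_le _)
  have d0' : Dep S.lev 0 (S'.lg 0) := by
    intro z w
    rw [e0]
    unfold stp
    have := dep_J S.lev 0 (fun z => Real.exp (M * S.lg 1 z)) z w
    show 1 / S'.m (0 + 1) * Real.log (J S.lev 0
        (fun z => Real.exp (S'.m (0 + 1) * S.lg 1 z)) (mix S.lev 0 z w)) =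
      1 / S'.m (0 + 1) * Real.log (J S.lev 0
        (fun z => Real.exp (S'.m (0 + 1) * S.lg 1 z)) z)
    rw [hm', this]
  -- the density of the law with the exponent `M`
  set q : (ι → ℝ) → ℝ := fun z => Real.exp (M * S.lg 1 z - M * S'.lg 0 z) with hq
  have eq : EG q := by
    have e : q = fun z => Real.exp (M * S.lg 1 z) * Real.exp (-M * S'.lg 0 z) := by
      funext z
      show Real.exp (M * S.lg 1 z - M * S'.lg 0 z) = _
      rw [← Real.exp_add]
      congr 1
      ring
    rw [e]
    exact hexp.mul (l0'.exp_eg (-M))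
  have iq : ∫ z, q z ∂(gI ι) = 1 := by
    rw [← integral_J (lev := S.lev) (l := 0) eq]
    have h1 : ∀ z, J S.lev 0 q z = 1 := by
      intro z
      have h2 : J S.lev 0 q z = J S.lev 0 (fun z => Real.exp (M * S.lg 1 z)) z *
          Real.exp (-(M * S'.lg 0 z)) := by
        unfold J
        rw [← integral_mul_const]
        congr 1
        funext w
        rw [hq]
        simp only
        rw [d0' z w, ← Real.exp_add]
        rfl
      rw [h2, hJ, ← Real.exp_add, add_neg_cancel, Real.exp_zero]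
    simp only [h1]
    rw [integral_const, probReal_univ, smul_eq_mul, one_mul]
  set p : (ι → ℝ) → ℝ := fun z => Real.exp (S.m 1 * (S.lg 1 z - S.lg 0 z)) with hp
  have ep : EG p := hS.pW_eg (show 0 < S.K by omega)
  have ip : ∫ z, p z ∂(gI ι) = 1 := int_pW hS hK
  have ipz : ∫ z, p z * (S'.lg 0 z - S.lg 0 z) ∂(gI ι) =
      ∫ z, (S'.lg 0 z - S.lg 0 z) ∂(gI ι) := by
    rw [← integral_J (lev := S.lev) (l := 0) (ep.mul (l0'.eg.sub l0.eg))]
    congr 1
    funext z
    have h2 : J S.lev 0 (fun z => p z * (S'.lg 0 z - S.lg 0 z)) z =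
        J S.lev 0 p z * (S'.lg 0 z - S.lg 0 z) := by
      unfold J
      rw [← integral_mul_const]
      congr 1
      funext w
      show p (mix S.lev 0 z w) * (S'.lg 0 (mix S.lev 0 z w) - S.lg 0 (mix S.lev 0 z w)) = _
      rw [d0' z w, d0 z w]
    have h3 : J S.lev 0 p z = 1 := hS.J_pW (show 0 < S.K by omega) z
    rw [h2, h3, one_mul]
  -- the inequality
  have hpt : ∀ z, p z * ((M - S.m 1) * (S.lg 1 z - S.lg 0 z) - M * (S'.lg 0 z - S.lg 0 z)) ≤
      q z - p z := by
    intro z
    set t := (M - S.m 1) * (S.lg 1 z - S.lg 0 z) - M * (S'.lg 0 z - S.lg 0 z) with ht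
    have h1 : q z = p z * Real.exp t := by
      rw [hq, hp]
      simp only
      rw [← Real.exp_add]
      congr 1
      rw [ht]
      ring
    rw [h1]
    have h2 : t ≤ Real.exp t - 1 := by linarith [Real.add_one_le_exp t]
    have h3 : 0 < p z := Real.exp_pos _
    nlinarith
  have hint : ∫ z, p z * ((M - S.m 1) * (S.lg 1 z - S.lg 0 z) -
      M * (S'.lg 0 z - S.lg 0 z)) ∂(gI ι) ≤ ∫ z, (q z - p z) ∂(gI ι) :=
    integral_mono (ep.mul (((l1.eg.sub l0.eg).const_mul _).sub
      ((l0'.eg.sub l0.eg).const_mul _))).integrable (eq.sub ep).integrable hpt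
  rw [integral_sub eq.integrable ep.integrable, iq, ip, sub_self] at hint
  have h5 : ∫ z, p z * ((M - S.m 1) * (S.lg 1 z - S.lg 0 z) -
      M * (S'.lg 0 z - S.lg 0 z)) ∂(gI ι) =
      (M - S.m 1) / S.m 1 * ent S - M * (S'.fe - S.fe) := by
    have e1 : (fun z => p z * ((M - S.m 1) * (S.lg 1 z - S.lg 0 z) -
        M * (S'.lg 0 z - S.lg 0 z))) = fun z =>
        (M - S.m 1) / S.m 1 * (p z * (S.m 1 * (S.lg 1 z - S.lg 0 z))) -
          M * (p z * (S'.lg 0 z - S.lg 0 z)) := by
      funext z
      field_simp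
    rw [e1, integral_sub ((ep.mul ((l1.eg.sub l0.eg).const_mul _)).const_mul _).integrable
      ((ep.mul (l0'.eg.sub l0.eg)).const_mul _).integrable, integral_const_mul,
      integral_const_mul, ipz, integral_sub l0'.eg.integrable l0.eg.integrable,
      ent_eq hS hK]
    rfl
  rw [h5] at hint
  have h6 := mul_le_mul_of_nonneg_left hint hm.le
  have h7 : S.m 1 * ((M - S.m 1) / S.m 1 * ent S - M * (S'.fe - S.fe)) =
      (M - S.m 1) * ent S - S.m 1 * M * (S'.fe - S.fe) := by
    field_simp
  rw [h7, mul_zero] at h6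
  linarith

end Vale.Agent.P146.H498.Row
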