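import Vale.Agent.P146.H498.Ent
import Vale.Agent.P146.H985.OddP

/-!
P146, lower half (helper498): the entropy of the law of the levels `≤ l` of a layered system by
the convexity of the free energy in the exponents.
-/

set_option linter.all false

open MeasureTheory ProbabilityTheory Finset

namespace Vale.Agent.P146.H498.MRow

open Vale.Agent.P157.Lv Vale.Agent.P157.Lv.Sy
open Vale.Agent.P146.H425 (wm)
open Vale.Agent.P146.H985 (VL VL_lip VL_dep Ex_eq_VL)

variable {ι X : Type} [Fintype ι] [Fintype X] [Nonempty X] {S : Sy ι X}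

/-- the average `J_l` of the density is one -/
lemma J_quot {lev : ι → ℕ} {l : ℕ} {M : ℝ} {G g : (ι → ℝ) → ℝ} (hG : Lip G)
    (hg : ∀ z, J lev l (fun z => Real.exp (M * G z)) z = Real.exp (M * g z))
    (hd : Dep lev l g) (z : ι → ℝ) :
    J lev l (fun z => Real.exp (M * G z - M * g z)) z = 1 := by
  have h2 : J lev l (fun z => Real.exp (M * G z - M * g z)) z =
      J lev l (fun z => Real.exp (M * G z)) z * Real.exp (-(M * g z)) := by
    unfold J
    rw [← integral_mul_const]
    congr 1
    funext w
    show Real.exp (M * G (mix lev l z w) - M * g (mix lev l z w)) =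
      Real.exp (M * G (mix lev l z w)) * Real.exp (-(M * g z))
    rw [hd z w, ← Real.exp_add]
    rfl
  rw [h2, hg, ← Real.exp_add, add_neg_cancel, Real.exp_zero]

/-- **one step down**: the step of the recursion is convex -/
lemma step_ge {lev : ι → ℕ} {l : ℕ} {m : ℝ} (hm : 0 < m) {G G' g g' : (ι → ℝ) → ℝ}
    (hG : Lip G) (hG' : Lip G') (lg : Lip g) (lg' : Lip g')
    (hg : ∀ z, J lev l (fun z => Real.exp (m * G z)) z = Real.exp (m * g z))
    (hg' : ∀ z, J lev l (fun z => Real.exp (m * G' z)) z = Real.exp (m * g' z))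
    (hd : Dep lev l g) (hd' : Dep lev l g') (z : ι → ℝ) :
    J lev l (fun z => Real.exp (m * (G z - g z)) * (G' z - G z)) z ≤ g' z - g z := by
  have ep : EG (fun z => Real.exp (m * (G z - g z))) := by
    have h1 : Lip fun z => G z + -1 * g z := hG.add (lg.const_mul (-1))
    have h2 := h1.exp_eg m
    have e : (fun z => Real.exp (m * (G z - g z))) = fun z => Real.exp (m * (G z + -1 * g z)) := by
      funext z; congr 1; ring
    rw [e]; exact h2
  have eq : EG (fun z => Real.exp (m * G' z - m * g' z)) := by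
    have h1 : Lip fun z => G' z + -1 * g' z := hG'.add (lg'.const_mul (-1))
    have h2 := h1.exp_eg m
    have e : (fun z => Real.exp (m * G' z - m * g' z)) =
        fun z => Real.exp (m * (G' z + -1 * g' z)) := by
      funext z; congr 1; ring
    rw [e]; exact h2
  have j1 : J lev l (fun z => Real.exp (m * (G z - g z))) z = 1 := by
    have h := J_quot hG hg hd z
    have e : (fun z => Real.exp (m * (G z - g z))) = fun z => Real.exp (m * G z - m * g z) := by
      funext z; congr 1; ring
    rw [e]; exact h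
  have j2 := J_quot hG' hg' hd' z
  have e1 : EG (fun z => Real.exp (m * (G z - g z)) * (m * (G' z - G z) - m * (g' z - g z))) :=
    ep.mul (((hG'.eg.sub hG.eg).const_mul m).sub ((lg'.eg.sub lg.eg).const_mul m))
  have hpt : ∀ z, Real.exp (m * (G z - g z)) * (m * (G' z - G z) - m * (g' z - g z)) ≤
      Real.exp (m * G' z - m * g' z) - Real.exp (m * (G z - g z)) := by
    intro z
    set t := m * (G' z - G z) - m * (g' z - g z) with ht
    have h1 : Real.exp (m * G' z - m * g' z) = Real.exp (m * (G z - g z)) * Real.exp t := by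
      rw [← Real.exp_add]
      congr 1
      rw [ht]; ring
    rw [h1]
    have h2 : t ≤ Real.exp t - 1 := by linarith [Real.add_one_le_exp t]
    have h3 : 0 < Real.exp (m * (G z - g z)) := Real.exp_pos _
    nlinarith
  have h3 := J_mono (lev := lev) (l := l) e1 (eq.sub ep) hpt z
  have h4 : J lev l (fun z => Real.exp (m * G' z - m * g' z) - Real.exp (m * (G z - g z))) z =
      0 := by
    have h5 : J lev l (fun z => Real.exp (m * G' z - m * g' z) - Real.exp (m * (G z - g z))) z =
        J lev l (fun z => Real.exp (m * G' z - m * g' z)) z -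
          J lev l (fun z => Real.exp (m * (G z - g z))) z := by
      unfold J
      exact integral_sub (eq.mix z) (ep.mix z)
    rw [h5, j1, j2, sub_self]
  rw [h4] at h3
  have h6 : J lev l (fun z => Real.exp (m * (G z - g z)) *
      (m * (G' z - G z) - m * (g' z - g z))) z =
      m * (J lev l (fun z => Real.exp (m * (G z - g z)) * (G' z - G z)) z - (g' z - g z)) := by
    have h7 : J lev l (fun z => Real.exp (m * (G z - g z)) * (g' z - g z)) z = g' z - g z := by
      have h8 : J lev l (fun z => Real.exp (m * (G z - g z)) * (g' z - g z)) z =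
          J lev l (fun z => Real.exp (m * (G z - g z))) z * (g' z - g z) := by
        unfold J
        rw [← integral_mul_const]
        congr 1
        funext w
        show Real.exp (m * (G (mix lev l z w) - g (mix lev l z w))) *
          (g' (mix lev l z w) - g (mix lev l z w)) =
          Real.exp (m * (G (mix lev l z w) - g (mix lev l z w))) * (g' z - g z)
        rw [hd' z w, hd z w]
      rw [h8, j1, one_mul]
    have h9 : (fun z => Real.exp (m * (G z - g z)) * (m * (G' z - G z) - m * (g' z - g z))) =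
        fun z => m * (Real.exp (m * (G z - g z)) * (G' z - G z)) -
          m * (Real.exp (m * (G z - g z)) * (g' z - g z)) := by
      funext z; ring
    have h10 : J lev l (fun z => m * (Real.exp (m * (G z - g z)) * (G' z - G z)) -
          m * (Real.exp (m * (G z - g z)) * (g' z - g z))) z =
        m * J lev l (fun z => Real.exp (m * (G z - g z)) * (G' z - G z)) z -
        m * J lev l (fun z => Real.exp (m * (G z - g z)) * (g' z - g z)) z := by
      unfold J
      rw [← integral_const_mul, ← integral_const_mul]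
      exact integral_sub (((ep.mul (hG'.eg.sub hG.eg)).const_mul m).mix z)
        (((ep.mul (lg'.eg.sub lg.eg)).const_mul m).mix z)
    rw [h9, h10, h7]
    ring
  rw [h6] at h3
  have := le_of_mul_le_mul_left (h3.trans_eq (mul_zero m).symm) hm
  linarith

/-- the step of the recursion in exponential form -/
lemma J_exp_stp {T : Sy ι X} {l : ℕ} {G : (ι → ℝ) → ℝ} (hG : Lip G) (hm : 0 < T.m (l + 1))
    (z : ι → ℝ) : J T.lev l (fun z => Real.exp (T.m (l + 1) * G z)) z =
      Real.exp (T.m (l + 1) * T.stp l G z) := by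
  have hexp : EG (fun z => Real.exp (T.m (l + 1) * G z)) := hG.exp_eg _
  have hpos : 0 < J T.lev l (fun z => Real.exp (T.m (l + 1) * G z)) z :=
    J_pos hexp (fun _ => Real.exp_pos _) z
  unfold stp
  rw [← mul_assoc, mul_one_div_cancel hm.ne', one_mul, Real.exp_log hpos]

variable {m' : ℕ → ℝ}

lemma lip_wm (hS : S.Reg) (hm : ∀ j, 1 ≤ j → j ≤ S.K → 0 < m' j) {l : ℕ} (hl : l ≤ S.K) :
    Lip ((wm S m').lg l) := by
  refine down_ind (K := S.K) (P := fun l => Lip ((wm S m').lg l)) ?_ ?_ l hl
  · have h : (wm S m').lg (wm S m').K = (wm S m').top := lg_top _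
    have h2 : (wm S m').lg S.K = S.top := h
    rw [h2]
    exact hS.lip_top
  · intro l hl ih
    have h : (wm S m').lg l = (wm S m').stp l ((wm S m').lg (l + 1)) := lg_step _ hl
    rw [h]
    exact lc_lip_stp ih (hm (l + 1) (by omega) (by omega))

lemma dep_wm (hS : S.Reg) {l : ℕ} (hl : l ≤ S.K) :
    Dep S.lev l ((wm S m').lg l) := by
  rcases Nat.lt_or_ge l S.K with h | h
  · have h1 : (wm S m').lg l = (wm S m').stp l ((wm S m').lg (l + 1)) := lg_step _ h
    rw [h1]
    intro z w
    unfold stp
    have := dep_J S.lev l (fun z => Real.exp (m' (l + 1) * (wm S m').lg (l + 1) z)) z w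
    show 1 / m' (l + 1) * Real.log (J S.lev l
      (fun z => Real.exp (m' (l + 1) * (wm S m').lg (l + 1) z)) (mix S.lev l z w)) =
      1 / m' (l + 1) * Real.log (J S.lev l
        (fun z => Real.exp (m' (l + 1) * (wm S m').lg (l + 1) z)) z)
    rw [this]
  · have e : l = S.K := le_antisymm hl h
    subst e
    intro z w
    rw [mix_top hS.lev]

/-- the increments of the log-weights under a change of the exponent of the level `i + 1`,
seen from a lower level -/
theorem down_ge (hS : S.Reg) {i : ℕ} (hi : i < S.K) {M : ℝ} (hM : 0 < M) :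
    ∀ j ≤ i, ∀ z, S.T j (fun z _ => (wm S (Function.update S.m (i + 1) M)).lg i z - S.lg i z) z ≤
      (wm S (Function.update S.m (i + 1) M)).lg j z - S.lg j z := by
  set m' := Function.update S.m (i + 1) M with hm'
  have hpos : ∀ j, 1 ≤ j → j ≤ S.K → 0 < m' j := by
    intro j hj1 hj2
    by_cases h : j = i + 1
    · rw [h, hm', Function.update_self]
      exact hM
    · rw [hm', Function.update_of_ne h]
      exact hS.m_pos hj1 (by omega)
  have hL : ∀ j ≤ S.K, Lip ((wm S m').lg j) := fun j hj => lip_wm hS hpos hj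
  have hD : ∀ j ≤ S.K, Dep S.lev j ((wm S m').lg j) := fun j hj => dep_wm hS hj
  have hf : EG (fun z => (wm S m').lg i z - S.lg i z) :=
    (hL i hi.le).eg.sub (hS.lip_lg hi.le).eg
  have hfd : Dep S.lev i (fun z => (wm S m').lg i z - S.lg i z) := by
    intro z w
    simp only
    rw [hD i hi.le z w, hS.dep_lg hi.le z w]
  refine down_ind (K := i) (P := fun j => ∀ z, S.T j (fun z _ => (wm S m').lg i z - S.lg i z) z ≤
      (wm S m').lg j z - S.lg j z) ?_ ?_
  · intro z
    rw [hS.T_fst hi.le hfd]
  · intro j hj ih z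
    have hjK : j < S.K := by omega
    rw [hS.T_step hjK (Nh.fst hf) z]
    have hmj : m' (j + 1) = S.m (j + 1) := by
      rw [hm', Function.update_of_ne (by omega)]
    have e1 := J_mono (lev := S.lev) (l := j) ((hS.pW_eg hjK).mul (hS.eg_T hjK (Nh.fst hf)))
      ((hS.pW_eg hjK).mul ((hL (j + 1) hjK).eg.sub (hS.lip_lg hjK).eg))
      (fun z => mul_le_mul_of_nonneg_left (ih z) (S.pW_pos j z).le) z
    refine e1.trans ?_
    have h1 := step_ge (lev := S.lev) (l := j) (hS.m_pos (l := j + 1) (by omega) (by omega))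
      (hS.lip_lg hjK) (hL (j + 1) hjK) (hS.lip_lg hjK.le) (hL j hjK.le)
      (fun z => hS.J_exp_lg hjK z) (fun z => ?_) (hS.dep_lg hjK.le) (hD j hjK.le) z
    · exact h1
    · have h2 : (wm S m').lg j = (wm S m').stp j ((wm S m').lg (j + 1)) := lg_step _ hjK
      have h3 := J_exp_stp (T := wm S m') (l := j) (hL (j + 1) hjK)
        (hpos (j + 1) (by omega) (by omega)) z
      rw [← h2] at h3
      have h4 : (wm S m').m (j + 1) = S.m (j + 1) := hmj
      rw [h4] at h3
      exact h3

/-- **one level**: `(M - m_{i+1}) E (lg_{i+1} - lg_i) ≤ M (Φ(m_{i+1} := M) - Φ)` -/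
theorem incr_le (hS : S.Reg) {i : ℕ} (hi : i < S.K) {M : ℝ} (hM : S.m (i + 1) < M) :
    (M - S.m (i + 1)) * S.Ex (fun z _ => S.lg (i + 1) z - S.lg i z) ≤
      M * ((wm S (Function.update S.m (i + 1) M)).fe - S.fe) := by
  have hmi : 0 < S.m (i + 1) := hS.m_pos (by omega) (by omega)
  have hM0 : 0 < M := hmi.trans hM
  set m' := Function.update S.m (i + 1) M with hm'
  have hpos : ∀ j, 1 ≤ j → j ≤ S.K → 0 < m' j := by
    intro j hj1 hj2
    by_cases h : j = i + 1
    · rw [h, hm', Function.update_self]
      exact hM0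
    · rw [hm', Function.update_of_ne h]
      exact hS.m_pos hj1 (by omega)
  have hL : ∀ j ≤ S.K, Lip ((wm S m').lg j) := fun j hj => lip_wm hS hpos hj
  have hD : ∀ j ≤ S.K, Dep S.lev j ((wm S m').lg j) := fun j hj => dep_wm hS hj
  have e1 : (wm S m').lg (i + 1) = S.lg (i + 1) :=
    Vale.Agent.P146.H425.lg_wm S m' (i + 1) hi fun j hj _ => by
      rw [hm', Function.update_of_ne (by omega)]
  have hmM : m' (i + 1) = M := by rw [hm', Function.update_self]
  have l1 : Lip (S.lg (i + 1)) := hS.lip_lg hi
  have l0 : Lip (S.lg i) := hS.lip_lg hi.le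
  have l0' := hL i hi.le
  have d0 := hS.dep_lg hi.le
  have d0' := hD i hi.le
  have d1 := hS.dep_lg (l := i + 1) hi
  have hJ : ∀ z, J S.lev i (fun z => Real.exp (M * S.lg (i + 1) z)) z =
      Real.exp (M * (wm S m').lg i z) := by
    intro z
    have h2 : (wm S m').lg i = (wm S m').stp i ((wm S m').lg (i + 1)) := lg_step _ hi
    have h3 := J_exp_stp (T := wm S m') (l := i) (hL (i + 1) hi)
      (hpos (i + 1) (by omega) (by omega)) z
    rw [← h2, e1] at h3
    have h4 : (wm S m').m (i + 1) = M := hmM
    rw [h4] at h3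
    exact h3
  have hJ2 := J_quot l1 hJ d0'
  have ep := hS.pW_eg hi
  have eq : EG (fun z => Real.exp (M * S.lg (i + 1) z - M * (wm S m').lg i z)) := by
    have h1 : Lip fun z => S.lg (i + 1) z + -1 * (wm S m').lg i z := l1.add (l0'.const_mul (-1))
    have h2 := h1.exp_eg M
    have e : (fun z => Real.exp (M * S.lg (i + 1) z - M * (wm S m').lg i z)) =
        fun z => Real.exp (M * (S.lg (i + 1) z + -1 * (wm S m').lg i z)) := by
      funext z; congr 1; ring
    rw [e]; exact h2
  have hpt : ∀ z, S.pW i z * ((M - S.m (i + 1)) * (S.lg (i + 1) z - S.lg i z) -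
      M * ((wm S m').lg i z - S.lg i z)) ≤
      Real.exp (M * S.lg (i + 1) z - M * (wm S m').lg i z) - S.pW i z := by
    intro z
    set t := (M - S.m (i + 1)) * (S.lg (i + 1) z - S.lg i z) -
      M * ((wm S m').lg i z - S.lg i z) with ht
    have h1 : Real.exp (M * S.lg (i + 1) z - M * (wm S m').lg i z) =
        S.pW i z * Real.exp t := by
      unfold pW
      rw [← Real.exp_add]
      congr 1
      rw [ht]; ring
    rw [h1]
    have h2 : t ≤ Real.exp t - 1 := by linarith [Real.add_one_le_exp t]
    have h3 : 0 < S.pW i z := S.pW_pos i z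
    nlinarith
  have nh1 : Nh (X := X) (fun z _ => S.lg (i + 1) z - S.lg i z) := Nh.fst (l1.eg.sub l0.eg)
  have nh2 : Nh (X := X) (fun z _ => (wm S m').lg i z - S.lg i z) := Nh.fst (l0'.eg.sub l0.eg)
  have key : ∀ z, (M - S.m (i + 1)) * S.T i (fun z _ => S.lg (i + 1) z - S.lg i z) z ≤
      M * S.T i (fun z _ => (wm S m').lg i z - S.lg i z) z := by
    intro z
    have h3 := J_mono (lev := S.lev) (l := i)
      (ep.mul (((l1.eg.sub l0.eg).const_mul (M - S.m (i + 1))).sub
        ((l0'.eg.sub l0.eg).const_mul M))) (eq.sub ep) hpt z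
    have h4 : J S.lev i (fun z => Real.exp (M * S.lg (i + 1) z - M * (wm S m').lg i z) -
        S.pW i z) z = 0 := by
      have h5 : J S.lev i (fun z => Real.exp (M * S.lg (i + 1) z - M * (wm S m').lg i z) -
          S.pW i z) z = J S.lev i (fun z => Real.exp (M * S.lg (i + 1) z -
            M * (wm S m').lg i z)) z - J S.lev i (S.pW i) z := by
        unfold J
        exact integral_sub (eq.mix z) (ep.mix z)
      rw [h5, hJ2, hS.J_pW hi, sub_self]
    rw [h4] at h3
    have hd1 : Dep S.lev (i + 1) (fun z => S.lg (i + 1) z - S.lg i z) := by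
      intro z w
      simp only
      rw [d1 z w, d0.mono (Nat.le_succ i) z w]
    have hd2 : Dep S.lev (i + 1) (fun z => (wm S m').lg i z - S.lg i z) := by
      intro z w
      simp only
      rw [d0'.mono (Nat.le_succ i) z w, d0.mono (Nat.le_succ i) z w]
    rw [hS.T_step hi nh1 z, hS.T_step hi nh2 z]
    simp only [hS.T_fst hi hd1, hS.T_fst hi hd2]
    have h9 : (fun z => S.pW i z * ((M - S.m (i + 1)) * (S.lg (i + 1) z - S.lg i z) -
        M * ((wm S m').lg i z - S.lg i z))) =
        fun z => (M - S.m (i + 1)) * (S.pW i z * (S.lg (i + 1) z - S.lg i z)) -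
          M * (S.pW i z * ((wm S m').lg i z - S.lg i z)) := by
      funext z; ring
    have h10 : J S.lev i (fun z => (M - S.m (i + 1)) * (S.pW i z * (S.lg (i + 1) z - S.lg i z)) -
          M * (S.pW i z * ((wm S m').lg i z - S.lg i z))) z =
        (M - S.m (i + 1)) * J S.lev i (fun z => S.pW i z * (S.lg (i + 1) z - S.lg i z)) z -
        M * J S.lev i (fun z => S.pW i z * ((wm S m').lg i z - S.lg i z)) z := by
      unfold J
      rw [← integral_const_mul, ← integral_const_mul]
      exact integral_sub (((ep.mul (l1.eg.sub l0.eg)).const_mul _).mix z)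
        (((ep.mul (l0'.eg.sub l0.eg)).const_mul M).mix z)
    rw [h9, h10] at h3
    linarith
  -- the average
  have hE1 := hS.Ex_T hi.le nh1
  have hE2 := hS.Ex_T hi.le nh2
  have h5 : (M - S.m (i + 1)) * S.Ex (fun z _ => S.lg (i + 1) z - S.lg i z) ≤
      M * S.Ex (fun z _ => (wm S m').lg i z - S.lg i z) := by
    rw [← hE1, ← hE2, ← Ex_const_mul, ← Ex_const_mul]
    exact hS.Ex_mono (Nh.fst ((hS.eg_T hi.le nh1).const_mul _))
      (Nh.fst ((hS.eg_T hi.le nh2).const_mul _)) fun z _ => key z
  refine h5.trans (mul_le_mul_of_nonneg_left ?_ hM0.le)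
  have h6 := down_ge hS hi hM0 0 (Nat.zero_le _)
  rw [lc_Ex_T0 hS nh2]
  have h7 := integral_mono (hS.eg_T (Nat.zero_le _) nh2).integrable
    ((hL 0 (Nat.zero_le _)).eg.sub (hS.lip_lg (Nat.zero_le _)).eg).integrable h6
  refine h7.trans (le_of_eq ?_)
  exact integral_sub (hL 0 (Nat.zero_le _)).eg.integrable (hS.lip_lg (Nat.zero_le _)).eg.integrable

/-- the entropy of the law of the levels `≤ l` -/
noncomputable def entL (S : Sy ι X) (l : ℕ) : ℝ := S.Ex (fun z _ => VL S l z)

/-- **The entropy of the law of the levels `≤ l`.** -/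
theorem entL_le (hS : S.Reg) {l : ℕ} (hl : l ≤ S.K) {M : ℕ → ℝ}
    (hM : ∀ i < l, S.m (i + 1) < M i) :
    entL S l ≤ ∑ i ∈ Finset.range l, S.m (i + 1) * M i / (M i - S.m (i + 1)) *
      ((wm S (Function.update S.m (i + 1) (M i))).fe - S.fe) := by
  have e1 : entL S l = ∑ i ∈ Finset.range l, S.m (i + 1) *
      S.Ex (fun z _ => S.lg (i + 1) z - S.lg i z) := by
    unfold entL
    have e2 : (fun (z : ι → ℝ) (_ : X) => VL S l z) = fun z _ => ∑ i ∈ Finset.range l,
        S.m (i + 1) * (S.lg (i + 1) z - S.lg i z) := by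
      funext z _
      unfold VL
      rw [Finset.range_eq_Ico]
    rw [e2, hS.Ex_sum _ fun i hi => ?_]
    · exact Finset.sum_congr rfl fun i _ => Ex_const_mul S _ _
    · rw [Finset.mem_range] at hi
      exact Nh.fst ((((hS.lip_lg (l := i + 1) (by omega)).eg).sub
        (hS.lip_lg (l := i) (by omega)).eg).const_mul _)
  rw [e1]
  refine Finset.sum_le_sum fun i hi => ?_
  rw [Finset.mem_range] at hi
  have h1 := incr_le hS (i := i) (by omega) (hM i hi)
  have h2 : 0 < M i - S.m (i + 1) := by linarith [hM i hi]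
  have h3 : 0 ≤ S.m (i + 1) := (hS.m_pos (l := i + 1) (by omega) (by omega)).le
  rw [mul_div_assoc, mul_assoc]
  refine mul_le_mul_of_nonneg_left ?_ h3
  rw [div_mul_eq_mul_div, le_div_iff₀ h2, mul_comm]
  exact h1

end Vale.Agent.P146.H498.MRow
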