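import Vale.Agent.P146.H498.LRow2

/-!
P146, lower half (helper498): **the lower row inequality** (L-ROW) for a layered system with the
couplings `cb ∑ z_e φ_i φ_j` and a field `s_1 ∑ z_i φ_i` at the level one, for the overlap of two
replicas which split at any level `l ≥ 1`:

`2 lam s χ (2 + D₀ - b χ) - (2 (2 + D₀) + τ) lam² (1 + m_1 s² χ) - errors`
`  ≤ (2 + D₀) ρ - b (2 ρ - 2 ∑_{k > l} p_k E u_l u_k - (2 m_{l+1} - 1) E u_l² - ∑_k p_k τ_k,l)`,

`b = cb √N`, `χ = 1 - ∑_{k ≥ 1} p_k R_k` (the response to the field of the level one),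
`ρ = R_l`, `u_k = mg_k · φ / N`. For `l = 1` the right side is
`(2 + D₀) ρ - b (2 ρ - 2 ∑_{k ≥ 2} p_k E u_1 u_k - (2 m_2 - m_1) E u_1²)`.
-/

set_option linter.all false

open MeasureTheory ProbabilityTheory Finset Matrix

namespace Vale.Agent.P146.H498.Row

open Vale.Agent.P157.Lv Vale.Agent.P157.Lv.Sy
open Vale.Agent.P146.H498.Edge (W0 W0_bil nu nu_lip nu_nonneg tilt_one tilt_two exc_mono spec_row0)

section one

variable {ι X : Type} [Fintype ι] [Fintype X] [Nonempty X] {S : Sy ι X}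

/-- the mean of a function of the level one -/
lemma Ex_lev1 (hS : S.Reg) (hK : 1 ≤ S.K) {f : (ι → ℝ) → ℝ} (hf : Dep S.lev 1 f) (ef : EG f) :
    S.Ex (fun z _ => f z) = ∫ z, S.pW 0 z * f z ∂(gI ι) := by
  have h0 : ∀ z, S.T 0 (fun z _ => f z) z = J S.lev 0 (fun z => S.pW 0 z * f z) z := by
    intro z
    rw [hS.T_step (show 0 < S.K by omega) (Nh.fst ef) z]
    congr 1
    funext y
    rw [hS.T_fst hK hf]
  rw [lc_Ex_T0 hS (Nh.fst ef)]
  simp only [h0]
  exact integral_J ((hS.pW_eg (show 0 < S.K by omega)).mul ef)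

/-- the entropy of the law of the level one -/
noncomputable def ent (S : Sy ι X) : ℝ := S.Ex (fun z _ => S.m 1 * (S.lg 1 z - S.lg 0 z))

lemma eg_lg (hS : S.Reg) {l : ℕ} (hl : l ≤ S.K) : EG (S.lg l) := (hS.lip_lg hl).eg

lemma ent_eq (hS : S.Reg) (hK : 1 ≤ S.K) :
    ent S = ∫ z, Real.exp (S.m 1 * (S.lg 1 z - S.lg 0 z)) *
      (S.m 1 * (S.lg 1 z - S.lg 0 z)) ∂(gI ι) := by
  have h1 : Dep S.lev 1 (fun z => S.m 1 * (S.lg 1 z - S.lg 0 z)) := by
    intro z w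
    have e1 := hS.dep_lg hK z w
    have e2 := (hS.dep_lg (Nat.zero_le S.K)).mono (Nat.zero_le 1) z w
    simp only
    rw [e1, e2]
  exact Ex_lev1 hS hK h1 (((eg_lg hS hK).sub (eg_lg hS (Nat.zero_le _))).const_mul _)

lemma int_pW (hS : S.Reg) (hK : 1 ≤ S.K) :
    ∫ z, Real.exp (S.m 1 * (S.lg 1 z - S.lg 0 z)) ∂(gI ι) = 1 := by
  have h := integral_J (lev := S.lev) (l := 0) (hS.pW_eg (show 0 < S.K by omega))
  simp only [hS.J_pW (show 0 < S.K by omega)] at h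
  rw [integral_const, probReal_univ, smul_eq_mul, one_mul] at h
  exact h.symm

end one

variable {ι X : Type} [Fintype ι] [DecidableEq ι] [Fintype X] [DecidableEq X] [Nonempty X]
  {S : Sy ι X} {D : ι → (ι → ℝ) → X → ℝ} {N : ℕ} {φ : X → Fin N → ℝ} {zc : ℕ → Fin N → ι}
  {s : ℕ → ℝ} {zb : Pair N → ι} {cb : ℝ} {l k : ℕ}

/-- the norm of the coupling matrix as a function of all coordinates is Lipschitz -/
lemma nuz_lip (zb : Pair N → ι) : Lip (fun z : ι → ℝ => nu N (gg zb z)) := by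
  obtain ⟨L, hL, h⟩ := nu_lip (n := N)
  refine ⟨L, hL, fun y y' => (h _ _).trans (mul_le_mul_of_nonneg_left ?_ hL)⟩
  rw [pi_norm_le_iff_of_nonneg (norm_nonneg _)]
  intro e
  exact norm_le_pi_norm (y - y') (zb e)

section fin

variable (F : Fl1 S D φ zc s) (B : Bnd S D φ zc zb cb)

include F B

lemma dep_nuz : Dep S.lev 1 (fun z : ι → ℝ => nu N (gg zb z)) := by
  intro z w
  have h : gg zb (mix S.lev 1 z w) = gg zb z := by
    funext e
    simp only [gg, mix]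
    rw [if_pos (by rw [B.lev])]
  simp only [h]

/-- the excess of the norm over `2 + D₀` -/
lemma exc_one {D0 : ℝ} (hD : 0 < D0) :
    S.Ex (fun z _ => max (nu N (gg zb z) - 2 - D0) 0) ≤ (ent S + Real.log 3) / (N * D0) := by
  have hS := F.reg.toReg
  have hK := B.K1
  have hl := nuz_lip (ι := ι) zb
  have hmeas : Measurable fun z : ι → ℝ => nu N (gg zb z) := hl.eg.meas
  have eX : EG (fun z : ι → ℝ => max (nu N (gg zb z) - 2 - D0) 0) := by
    have e1 : EG (fun z : ι → ℝ => nu N (gg zb z) - (2 + D0)) := hl.eg.sub (EG.const (2 + D0))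
    refine e1.mono (by fun_prop) fun y => ?_
    rw [abs_of_nonneg (le_max_right _ _)]
    refine max_le ?_ (abs_nonneg _)
    refine (le_of_eq ?_).trans (le_abs_self _)
    ring
  have dX : Dep S.lev 1 (fun z : ι → ℝ => max (nu N (gg zb z) - 2 - D0) 0) := by
    intro z w
    have := dep_nuz F B z w
    simp only at this ⊢
    rw [this]
  rw [Ex_lev1 hS hK dX eX, ent_eq hS hK]
  have h := tilt_one (ι := ι) zb F.N0 B.inj hD
    (ℓ := fun z => S.m 1 * (S.lg 1 z - S.lg 0 z))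
    (hS.pW_eg (show 0 < S.K by omega)).integrable (int_pW hS hK)
    ((hS.pW_eg (show 0 < S.K by omega)).mul
      (((eg_lg hS hK).sub (eg_lg hS (Nat.zero_le _))).const_mul (S.m 1))).integrable
  exact h.2

/-- the square of the excess over `2` -/
lemma exc_two :
    S.Ex (fun z _ => max (nu N (gg zb z) - 2) 0 ^ 2) ≤ (ent S + Real.log 5) / (N / 8) := by
  have hS := F.reg.toReg
  have hK := B.K1
  have hl := nuz_lip (ι := ι) zb
  have hmeas : Measurable fun z : ι → ℝ => nu N (gg zb z) := hl.eg.meas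
  have eX1 : EG (fun z : ι → ℝ => max (nu N (gg zb z) - 2) 0) := by
    have e1 : EG (fun z : ι → ℝ => nu N (gg zb z) - 2) := hl.eg.sub (EG.const 2)
    refine e1.mono (by fun_prop) fun y => ?_
    rw [abs_of_nonneg (le_max_right _ _)]
    exact max_le (le_abs_self _) (abs_nonneg _)
  have eX := eX1.pow 2
  have dX : Dep S.lev 1 (fun z : ι → ℝ => max (nu N (gg zb z) - 2) 0 ^ 2) := by
    intro z w
    have := dep_nuz F B z w
    simp only at this ⊢
    rw [this]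
  rw [Ex_lev1 hS hK dX eX, ent_eq hS hK]
  have h := tilt_two (ι := ι) zb F.N0 B.inj
    (ℓ := fun z => S.m 1 * (S.lg 1 z - S.lg 0 z))
    (hS.pW_eg (show 0 < S.K by omega)).integrable (int_pW hS hK)
    ((hS.pW_eg (show 0 < S.K by omega)).mul
      (((eg_lg hS hK).sub (eg_lg hS (Nat.zero_le _))).const_mul (S.m 1))).integrable
  exact h.2

/-- the bracket of the level one -/
lemma brk_one (hK : 1 ≤ S.K) : brk S φ 1 = 2 * S.Rl φ 1 - 2 * ∑ k ∈ Finset.Ico 2 (S.K + 1),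
    S.p k * S.Ex (fun z x => Fld.uu S φ 1 z x * Fld.uu S φ k z x) -
    (2 * S.m 2 - S.m 1) * S.Ex (fun z x => Fld.uu S φ 1 z x * Fld.uu S φ 1 z x) := by
  have hS := F.reg.toReg
  have h1 : ∑ k ∈ Finset.Ico 1 (S.K + 1), S.p k * tau S φ k 1 =
      (1 - S.m 1) * S.Ex (fun z x => Fld.uu S φ 1 z x * Fld.uu S φ 1 z x) := by
    rw [← hS.mK, ← sum_p S (show 1 ≤ S.K + 1 by omega), Finset.sum_mul]
    refine Finset.sum_congr rfl fun k hk => ?_
    rw [Finset.mem_Ico] at hk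
    rw [tau_eq hS hk.1 (by omega)]
  unfold brk
  rw [h1]
  norm_num
  ring

/-- the response inequality: `E hz (1 - ∑ p u) ≤ s χ²` -/
lemma resp (hs : 0 < s 1)
    (hP : S.Ex (fun z x => hz φ zc 1 z x * hz φ zc 1 z x) - S.Ex (hz φ zc 1) ^ 2 ≤ 1 / N) :
    S.Ex (hz φ zc 1) - ∑ k ∈ Finset.Ico 1 (S.K + 1), S.p k *
        S.Ex (fun z x => hz φ zc 1 z x * Fld.uu S φ k z x) ≤
      s 1 * (1 - ∑ i ∈ Finset.Ico 1 (S.K + 1), S.p i * S.Rl φ i) ^ 2 := by
  have hK := B.K1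
  rw [ex_hz_sq F B hK, F.Ex_hz] at hP
  rw [F.Ex_hz]
  have h1 : s 1 * (s 1 * (1 - ∑ i ∈ Finset.Ico 1 (S.K + 1), S.p i * S.Rl φ i) -
      ∑ k ∈ Finset.Ico 1 (S.K + 1), S.p k *
        S.Ex (fun z x => hz φ zc 1 z x * Fld.uu S φ k z x)) ≤
      s 1 * (s 1 * (1 - ∑ i ∈ Finset.Ico 1 (S.K + 1), S.p i * S.Rl φ i) ^ 2) := by
    have h2 : s 1 * (s 1 * (1 - ∑ i ∈ Finset.Ico 1 (S.K + 1), S.p i * S.Rl φ i) ^ 2) =
        (s 1 * (1 - ∑ i ∈ Finset.Ico 1 (S.K + 1), S.p i * S.Rl φ i)) ^ 2 := by ring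
    rw [h2]
    linarith
  exact le_of_mul_le_mul_left h1 hs

/-- **The lower row inequality.** -/
theorem lrow (hl1 : 1 ≤ l) (hl : l ≤ S.K) (hs : 0 < s 1)
    (hP : S.Ex (fun z x => hz φ zc 1 z x * hz φ zc 1 z x) - S.Ex (hz φ zc 1) ^ 2 ≤ 1 / N)
    {D0 lam τ χ : ℝ} (hD : 0 < D0) (hlam : 0 ≤ lam) (hτ : 0 < τ)
    (hχ : χ = 1 - ∑ i ∈ Finset.Ico 1 (S.K + 1), S.p i * S.Rl φ i) :
    2 * lam * (s 1 * χ * (2 + D0 - cb * √N * χ)) -
      (2 * (2 + D0) + τ) * lam ^ 2 * (1 + S.m 1 * s 1 ^ 2 * χ) -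
      3 * ((ent S + Real.log 3) / (N * D0)) -
      (2 / (2 + D0) + 1 / τ) * ((ent S + Real.log 5) / (N / 8)) ≤
    (2 + D0) * S.Rl φ l - cb * √N * (brk S φ l - S.m 1 * S.Rl φ l / N) := by
  have hR := F.reg
  have hS := F.reg.toReg
  have hN := F.N_pos
  have hK := B.K1
  have hsN : 0 < √(N : ℝ) := Real.sqrt_pos.2 hN
  have hNN : √(N : ℝ) * √N = N := Real.mul_self_sqrt hN.le
  set z0 : ℝ := 2 + D0 with hz0
  have hz0p : 0 < z0 := by positivity
  -- regularity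
  have hlip := nuz_lip (ι := ι) zb
  have hmeas : Measurable fun z : ι → ℝ => nu N (gg zb z) := hlip.eg.meas
  have eX1 : EG (fun z : ι → ℝ => max (nu N (gg zb z) - 2 - D0) 0) := by
    have e1 : EG (fun z : ι → ℝ => nu N (gg zb z) - (2 + D0)) := hlip.eg.sub (EG.const (2 + D0))
    refine e1.mono (by fun_prop) fun y => ?_
    rw [abs_of_nonneg (le_max_right _ _)]
    refine max_le ?_ (abs_nonneg _)
    refine (le_of_eq ?_).trans (le_abs_self _)
    ring
  have eX2 : EG (fun z : ι → ℝ => max (nu N (gg zb z) - 2) 0 ^ 2) := by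
    have e1 : EG (fun z : ι → ℝ => nu N (gg zb z) - 2) := hlip.eg.sub (EG.const 2)
    refine EG.pow (e1.mono (by fun_prop) fun y => ?_) 2
    rw [abs_of_nonneg (le_max_right _ _)]
    exact max_le (le_abs_self _) (abs_nonneg _)
  have emg : ∀ i, EG (S.mg φ l i) := fun i => eg_mg' hS hl i
  have eDWD : EG (fun z => dd S φ l z ⬝ᵥ (W0 N (gg zb z) *ᵥ dd S φ l z)) := by
    simp only [W0_bil, dd, gg]
    exact EG.sum _ fun e _ => ((((EG.coord (zb e)).const_mul (1 / √N)).mul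
      (((emg e.1.1).mul (emg e.1.2)).add ((emg e.1.2).mul (emg e.1.1))))).mono
        (by
          have h1 : ∀ i, Measurable (S.mg φ l i) := fun i => (emg i).meas
          have h2 : Measurable fun z : ι → ℝ => z (zb e) := measurable_pi_apply _
          exact (h2.div_const _).mul (((h1 _).mul (h1 _)).add ((h1 _).mul (h1 _))))
        (fun y => le_of_eq (by congr 1; ring))
  have ehWD : EG (fun z => hh zc z ⬝ᵥ (W0 N (gg zb z) *ᵥ dd S φ l z)) := by
    simp only [W0_bil, dd, gg, hh]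
    exact EG.sum _ fun e _ => ((((EG.coord (zb e)).const_mul (1 / √N)).mul
      (((EG.coord (zc 1 e.1.1)).mul (emg e.1.2)).add ((EG.coord (zc 1 e.1.2)).mul (emg e.1.1))))).mono
        (by
          have h1 : ∀ i, Measurable (S.mg φ l i) := fun i => (emg i).meas
          have h2 : ∀ e, Measurable fun z : ι → ℝ => z e := fun e => measurable_pi_apply _
          exact ((h2 _).div_const _).mul (((h2 _).mul (h1 _)).add ((h2 _).mul (h1 _))))
        (fun y => le_of_eq (by congr 1; ring))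
  have eDD : EG (fun z => dd S φ l z ⬝ᵥ dd S φ l z) := EG.sum _ fun i _ => (emg i).mul (emg i)
  have ehh : EG (fun z : ι → ℝ => hh zc z ⬝ᵥ hh zc z) :=
    EG.sum _ fun i _ => (EG.coord _).mul (EG.coord _)
  have ehD : EG (fun z => hh zc z ⬝ᵥ dd S φ l z) := EG.sum _ fun i _ => (EG.coord _).mul (emg i)
  -- the pointwise inequality
  have hpt : ∀ z, 2 * lam * (z0 * (hh zc z ⬝ᵥ dd S φ l z) -
      hh zc z ⬝ᵥ (W0 N (gg zb z) *ᵥ dd S φ l z)) -
      (2 * z0 + τ) * lam ^ 2 * (hh zc z ⬝ᵥ hh zc z) -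
      (N * 3) * max (nu N (gg zb z) - 2 - D0) 0 -
      (N * (2 / z0 + 1 / τ)) * max (nu N (gg zb z) - 2) 0 ^ 2 ≤
      z0 * (dd S φ l z ⬝ᵥ dd S φ l z) - dd S φ l z ⬝ᵥ (W0 N (gg zb z) *ᵥ dd S φ l z) := by
    intro z
    have h1 := spec_row0 (gg zb z) hz0p (dd S φ l z) (hh zc z) hlam hτ
    rw [dotProduct_sub, dotProduct_smul, dotProduct_sub, dotProduct_smul, smul_eq_mul,
      smul_eq_mul] at h1
    have h2 : dd S φ l z ⬝ᵥ dd S φ l z ≤ N := by
      have h3 : ∀ i, dd S φ l z i * dd S φ l z i ≤ 1 := by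
        intro i
        have h4 : |S.mg φ l i z| ≤ 1 := hS.abs_T_le hl (Nh.snd fun x => φ x i) (fun z x => by
          have := B.spin x i
          exact abs_le_one_iff_mul_self_le_one.2 this.le) z
        exact abs_le_one_iff_mul_self_le_one.1 h4
      calc dd S φ l z ⬝ᵥ dd S φ l z ≤ ∑ _i : Fin N, (1 : ℝ) := Finset.sum_le_sum fun i _ => h3 i
        _ = N := by simp
    have h0 : 0 ≤ dd S φ l z ⬝ᵥ dd S φ l z := Finset.sum_nonneg fun i _ => mul_self_nonneg _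
    have e1 : nu N (gg zb z) - z0 = nu N (gg zb z) - 2 - D0 := by rw [hz0]; ring
    rw [e1] at h1
    have h5 : 0 ≤ max (nu N (gg zb z) - 2 - D0) 0 := le_max_right _ _
    have h6 : max (nu N (gg zb z) - 2 - D0) 0 ^ 2 ≤ max (nu N (gg zb z) - 2) 0 ^ 2 :=
      pow_le_pow_left₀ h5 (exc_mono hD.le _) 2
    have h7 : 0 < 2 / z0 + 1 / τ := by positivity
    have h8 : (3 * max (nu N (gg zb z) - 2 - D0) 0 + (2 / z0 + 1 / τ) *
        max (nu N (gg zb z) - 2 - D0) 0 ^ 2) * (dd S φ l z ⬝ᵥ dd S φ l z) ≤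
        (N * 3) * max (nu N (gg zb z) - 2 - D0) 0 +
          (N * (2 / z0 + 1 / τ)) * max (nu N (gg zb z) - 2) 0 ^ 2 := by
      calc _ ≤ (3 * max (nu N (gg zb z) - 2 - D0) 0 + (2 / z0 + 1 / τ) *
            max (nu N (gg zb z) - 2) 0 ^ 2) * N := by
            refine mul_le_mul ?_ h2 h0 (by positivity)
            exact add_le_add le_rfl (mul_le_mul_of_nonneg_left h6 h7.le)
        _ = _ := by ring
    linarith
  have hEx := hS.Ex_mono (X := X) (f := fun z _ => 2 * lam * (z0 * (hh zc z ⬝ᵥ dd S φ l z) -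
      hh zc z ⬝ᵥ (W0 N (gg zb z) *ᵥ dd S φ l z)) -
      (2 * z0 + τ) * lam ^ 2 * (hh zc z ⬝ᵥ hh zc z) -
      (N * 3) * max (nu N (gg zb z) - 2 - D0) 0 -
      (N * (2 / z0 + 1 / τ)) * max (nu N (gg zb z) - 2) 0 ^ 2)
      (g := fun z _ => z0 * (dd S φ l z ⬝ᵥ dd S φ l z) -
        dd S φ l z ⬝ᵥ (W0 N (gg zb z) *ᵥ dd S φ l z))
      (Nh.fst ((((((ehD.const_mul z0).sub ehWD).const_mul (2 * lam)).sub
        (ehh.const_mul _)).sub (eX1.const_mul _)).sub (eX2.const_mul _)))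
      (Nh.fst ((eDD.const_mul z0).sub eDWD)) (fun z _ => hpt z)
  rw [hS.Ex_sub (Nh.fst (((((ehD.const_mul z0).sub ehWD).const_mul (2 * lam)).sub
        (ehh.const_mul _)).sub (eX1.const_mul _))) (Nh.fst (eX2.const_mul _)),
    hS.Ex_sub (Nh.fst ((((ehD.const_mul z0).sub ehWD).const_mul (2 * lam)).sub
        (ehh.const_mul _))) (Nh.fst (eX1.const_mul _)),
    hS.Ex_sub (Nh.fst (((ehD.const_mul z0).sub ehWD).const_mul (2 * lam)))
      (Nh.fst (ehh.const_mul _)), Ex_const_mul, hS.Ex_sub (Nh.fst (ehD.const_mul z0)) (Nh.fst ehWD),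
    Ex_const_mul, Ex_const_mul, Ex_const_mul, Ex_const_mul,
    hS.Ex_sub (Nh.fst (eDD.const_mul z0)) (Nh.fst eDWD), Ex_const_mul,
    Ex_DWD F B hl1 hl, Ex_hWD F B hl1 hl, Ex_hh F hK, Ex_hD F hl1 hl, Ex_DD F hl] at hEx
  have x1 := exc_one F B hD
  have x2 := exc_two F B
  have hr := resp F B hs hP
  rw [F.Ex_hz, ← hχ] at hEx
  rw [F.Ex_hz, ← hχ] at hr
  set Y := s 1 * χ - ∑ k ∈ Finset.Ico 1 (S.K + 1), S.p k *
        S.Ex (fun z x => hz φ zc 1 z x * Fld.uu S φ k z x) with hY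
  have hχ0 : 0 ≤ χ := by
    have h1 : ∑ i ∈ Finset.Ico 1 (S.K + 1), S.p i * S.Rl φ i ≤ 1 := by
      calc ∑ i ∈ Finset.Ico 1 (S.K + 1), S.p i * S.Rl φ i
          ≤ ∑ i ∈ Finset.Ico 1 (S.K + 1), S.p i := by
            refine Finset.sum_le_sum fun i hi => ?_
            rw [Finset.mem_Ico] at hi
            have h2 : 0 ≤ S.p i := by
              unfold Sy.p
              linarith [hS.mono i (by omega)]
            calc S.p i * S.Rl φ i ≤ S.p i * 1 :=
                  mul_le_mul_of_nonneg_left (F.Rl_le_one (by omega)) h2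
              _ = S.p i := mul_one _
        _ ≤ 1 := by
            rw [sum_p S (show 1 ≤ S.K + 1 by omega), hS.mK]
            linarith [hS.pos]
    linarith
  have hcb := B.c0
  have hm1 : 0 ≤ S.m 1 := (hS.m_pos le_rfl (by omega)).le
  have e1 : cb / √(N : ℝ) * ((N : ℝ) ^ 2 * Y - S.m 1 * (N * (s 1 * χ))) ≤
      N * (cb * √N * (s 1 * χ ^ 2)) := by
    have h1 : cb / √(N : ℝ) * ((N : ℝ) ^ 2 * Y - S.m 1 * (N * (s 1 * χ))) ≤
        cb / √(N : ℝ) * ((N : ℝ) ^ 2 * (s 1 * χ ^ 2)) := by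
      refine mul_le_mul_of_nonneg_left ?_ (by positivity)
      have h2 := mul_le_mul_of_nonneg_left hr (sq_nonneg (N : ℝ))
      have h3 : 0 ≤ S.m 1 * (N * (s 1 * χ)) := by positivity
      linarith
    refine h1.trans (le_of_eq ?_)
    rw [div_mul_eq_mul_div, div_eq_iff hsN.ne']
    linear_combination -(cb * N * s 1 * χ ^ 2) * hNN
  have e2 : cb / √(N : ℝ) * ((N : ℝ) ^ 2 * brk S φ l - S.m 1 * (N * S.Rl φ l)) =
      N * (cb * √N * (brk S φ l - S.m 1 * S.Rl φ l / N)) := by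
    rw [div_mul_eq_mul_div, div_eq_iff hsN.ne']
    have h3 : N * (cb * √(N : ℝ) * (brk S φ l - S.m 1 * S.Rl φ l / N)) * √N =
        cb * (√N * √N) * (N * brk S φ l - S.m 1 * S.Rl φ l) := by
      field_simp
    rw [h3, hNN]
    ring
  rw [e2] at hEx
  have e3 : (N : ℝ) * (2 * lam * (s 1 * χ * (z0 - cb * √N * χ)) -
      (2 * z0 + τ) * lam ^ 2 * (1 + S.m 1 * s 1 ^ 2 * χ) -
      3 * ((ent S + Real.log 3) / (N * D0)) -
      (2 / z0 + 1 / τ) * ((ent S + Real.log 5) / (N / 8))) ≤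
      N * (z0 * S.Rl φ l - cb * √N * (brk S φ l - S.m 1 * S.Rl φ l / N)) := by
    have h4 := mul_le_mul_of_nonneg_left e1 (show 0 ≤ 2 * lam by positivity)
    have h5 := mul_le_mul_of_nonneg_left x1 (show 0 ≤ (N : ℝ) * 3 by positivity)
    have h6 := mul_le_mul_of_nonneg_left x2 (show 0 ≤ (N : ℝ) * (2 / z0 + 1 / τ) by positivity)
    nlinarith
  exact le_of_mul_le_mul_left e3 hN

end fin

end Vale.Agent.P146.H498.Row
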