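import Vale.Agent.P146.Bdl.B2

/-!
P146, lower half (helper498): a layered system with a field at the level one only (the structure
`Fl1`, weaker than `Fld` which asks for a field at every level).
-/

set_option linter.all false

open MeasureTheory ProbabilityTheory Finset

namespace Vale.Agent.P146.H498.Row

open Vale.Agent.P157.Lv Vale.Agent.P157.Lv.Sy

variable {ι X : Type} [Fintype ι] [DecidableEq ι] [Fintype X] [DecidableEq X] [Nonempty X]
  {S : Sy ι X} {D : ι → (ι → ℝ) → X → ℝ} {N : ℕ} {φ : X → Fin N → ℝ} {zc : ℕ → Fin N → ι}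
  {s : ℕ → ℝ}

/-- The system contains the field `s_1 ∑_i z_{1,i} φ_i(x)` of the level one. -/
structure Fl1 (S : Sy ι X) (D : ι → (ι → ℝ) → X → ℝ) (φ : X → Fin N → ℝ) (zc : ℕ → Fin N → ι)
    (s : ℕ → ℝ) : Prop where
  reg : S.RegD D
  N0 : 0 < N
  norm : ∀ x, ∑ i, φ x i ^ 2 = N
  lev : ∀ i, S.lev (zc 1 i) = 1
  D : ∀ i z x, D (zc 1 i) z x = s 1 * φ x i

lemma Fl1.of (F : Fld S D φ zc s) (hK : 1 ≤ S.K) : Fl1 S D φ zc s :=
  ⟨F.reg, F.N0, F.norm, F.lev 1 hK, F.D 1 hK⟩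

namespace Fl1

variable (F : Fl1 S D φ zc s)

include F

lemma N_pos : (0 : ℝ) < N := by exact_mod_cast F.N0

lemma hreg : S.Reg := F.reg.toReg

lemma abs_Rov_le (x x' : X) : |Rov φ x x'| ≤ 1 := by
  have hN := F.N_pos
  have h := Finset.sum_mul_sq_le_sq_mul_sq Finset.univ (φ x) (φ x')
  rw [F.norm, F.norm] at h
  have h1 : Rov φ x x' ^ 2 ≤ 1 := by
    rw [Rov, mul_pow, one_div, inv_pow, inv_mul_le_iff₀ (by positivity)]
    linarith [sq (N : ℝ)]
  exact abs_le_one_iff_mul_self_le_one.mpr (by linarith [sq (Rov φ x x')])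

lemma Rl_eq_pairEx {l : ℕ} (hl : l ≤ S.K) : S.Rl φ l = S.pairEx l (Rov φ) := by
  rw [Sy.Rl, Sy.pairEx, ← Sy.Ex_const_mul]
  congr 1
  funext z _
  exact Fld.sum_mg_sq F.hreg hl z

lemma Rl_nonneg {l : ℕ} (hl : l ≤ S.K) : 0 ≤ S.Rl φ l := by
  rw [Sy.Rl, ← Sy.Ex_const_mul, ← F.hreg.Ex_const 0]
  refine F.hreg.Ex_mono (Nh.fst (EG.const 0)) (Nh.fst (EG.const_mul _ (EG.sum _ fun i _ =>
    (Fld.eg_mg F.hreg hl i).pow 2))) fun z _ => ?_
  have := F.N_pos
  positivity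

lemma Rl_le_one {l : ℕ} (hl : l ≤ S.K) : S.Rl φ l ≤ 1 := by
  rw [F.Rl_eq_pairEx hl, ← F.hreg.pairEx_const hl 1]
  exact F.hreg.pairEx_mono hl fun x x' => (le_abs_self _).trans (F.abs_Rov_le x x')

lemma Ex_uu {l : ℕ} (hl : l ≤ S.K) : S.Ex (Fld.uu S φ l) = S.Rl φ l := by
  have hS := F.hreg
  have e : Fld.uu S φ l = fun z x => 1 / N * ∑ a, S.mg φ l a z * φ x a := rfl
  rw [e, Sy.Ex_const_mul, Sy.Rl, hS.Ex_sum _ fun a _ =>
    Nh.mul (Nh.fst (Fld.eg_mg hS hl a)) (Nh.snd fun x => φ x a),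
    hS.Ex_sum _ fun a _ => Nh.fst ((Fld.eg_mg hS hl a).pow 2)]
  congr 1
  refine Finset.sum_congr rfl fun a _ => ?_
  have h2 := hS.Ex_mul_T hl (S.dep_T l (fun _ x => φ x a)) (Fld.eg_mg hS hl a)
    (Nh.snd fun x => φ x a)
  rw [← Fld.Ex_mg_mul hS le_rfl hl]
  exact h2.symm

/-- integration by parts for the coordinates of the field -/
lemma ibp' (i : Fin N) {h h' : (ι → ℝ) → X → ℝ}
    (hd : ∀ x, PD (zc 1 i) (fun z => h z x) (fun z => h' z x)) (hh : Nh h) (hh' : Nh h') :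
    S.Ex (fun z x => z (zc 1 i) * h z x) = S.Ex (fun z x => h' z x + h z x * (s 1 * φ x i -
      ∑ k ∈ Finset.Ico 1 (S.K + 1), S.p k * (s 1 * S.mg φ k i z))) := by
  rw [F.reg.ibp (zc 1 i) hd hh hh', F.lev i]
  congr 1
  funext z x
  rw [F.D i]
  have e : D (zc 1 i) = fun z x => s 1 * φ x i := by
    funext z x
    exact F.D i z x
  rw [e]
  simp only [Sy.T_const_mul]
  rfl

/-- the average of the field of the level one against an observable -/
lemma Ex_hz_mul {u : (ι → ℝ) → X → ℝ} {u' : Fin N → (ι → ℝ) → X → ℝ}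
    (hd : ∀ i x, PD (zc 1 i) (fun z => u z x) (fun z => u' i z x)) (hu : Nh u)
    (hu' : ∀ i, Nh (u' i)) :
    S.Ex (fun z x => hz φ zc 1 z x * u z x) =
      S.Ex (fun z x => 1 / N * ∑ i, φ x i * u' i z x) +
        s 1 * (S.Ex u - ∑ k ∈ Finset.Ico 1 (S.K + 1), S.p k *
          S.Ex (fun z x => u z x * Fld.uu S φ k z x)) := by
  have hS := F.hreg
  have hN := F.N_pos
  have hk : ∀ k ∈ Finset.Ico 1 (S.K + 1), k ≤ S.K := fun k hk => by
    rw [Finset.mem_Ico] at hk; omega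
  -- termwise integration by parts
  have h1 : ∀ i, S.Ex (fun z x => z (zc 1 i) * (φ x i * u z x)) =
      S.Ex (fun z x => φ x i * u' i z x + φ x i * u z x * (s 1 * φ x i -
        ∑ k ∈ Finset.Ico 1 (S.K + 1), S.p k * (s 1 * S.mg φ k i z))) := fun i =>
    F.ibp' i (h := fun z x => φ x i * u z x) (h' := fun z x => φ x i * u' i z x)
      (fun x => (hd i x).const_mul (φ x i)) (Nh.mul (Nh.snd fun x => φ x i) hu)
      (Nh.mul (Nh.snd fun x => φ x i) (hu' i))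
  have nz : ∀ i, Nh (fun (z : ι → ℝ) (x : X) => z (zc 1 i) * (φ x i * u z x)) := fun i =>
    Nh.mul (Nh.fst (EG.coord _)) (Nh.mul (Nh.snd fun x => φ x i) hu)
  have nk : ∀ k ∈ Finset.Ico 1 (S.K + 1), ∀ i, Nh (fun (z : ι → ℝ) (_ : X) =>
      S.p k * (s 1 * S.mg φ k i z)) := fun k hk' i =>
    Nh.fst (EG.const_mul _ (EG.const_mul _ (Fld.eg_mg hS (hk k hk') i)))
  have nr : ∀ i, Nh (fun (z : ι → ℝ) (x : X) => φ x i * u' i z x + φ x i * u z x * (s 1 * φ x i -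
        ∑ k ∈ Finset.Ico 1 (S.K + 1), S.p k * (s 1 * S.mg φ k i z))) := fun i =>
    Nh.add (Nh.mul (Nh.snd fun x => φ x i) (hu' i)) (Nh.mul (Nh.mul (Nh.snd fun x => φ x i) hu)
      (Nh.sub (Nh.const_mul _ (Nh.snd fun x => φ x i)) (Nh.sum _ fun k hk' => nk k hk' i)))
  have e1 : S.Ex (fun z x => hz φ zc 1 z x * u z x) =
      1 / N * ∑ i, S.Ex (fun z x => z (zc 1 i) * (φ x i * u z x)) := by
    rw [← hS.Ex_sum _ fun i _ => nz i, ← Sy.Ex_const_mul]
    congr 1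
    funext z x
    rw [hz, mul_assoc, Finset.sum_mul]
    congr 1
    refine Finset.sum_congr rfl fun i _ => ?_
    ring
  rw [e1]
  simp_rw [h1]
  rw [← hS.Ex_sum _ fun i _ => nr i, ← Sy.Ex_const_mul]
  have e2 : (fun (z : ι → ℝ) (x : X) => 1 / (N : ℝ) * ∑ i, (φ x i * u' i z x +
      φ x i * u z x * (s 1 * φ x i -
        ∑ k ∈ Finset.Ico 1 (S.K + 1), S.p k * (s 1 * S.mg φ k i z)))) =
      fun z x => (fun (z : ι → ℝ) (x : X) => 1 / (N : ℝ) * ∑ i, φ x i * u' i z x) z x +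
        (fun (z : ι → ℝ) (x : X) => s 1 * (u z x - ∑ k ∈ Finset.Ico 1 (S.K + 1),
          S.p k * (u z x * Fld.uu S φ k z x))) z x := by
    funext z x
    rw [Finset.sum_add_distrib, mul_add]
    congr 1
    have e3 : ∑ i, φ x i * u z x * (s 1 * φ x i -
        ∑ k ∈ Finset.Ico 1 (S.K + 1), S.p k * (s 1 * S.mg φ k i z)) =
        s 1 * (u z x * ∑ i, φ x i ^ 2) - s 1 * ∑ k ∈ Finset.Ico 1 (S.K + 1), S.p k *
          (u z x * ∑ i, S.mg φ k i z * φ x i) := by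
      simp_rw [mul_sub]
      rw [Finset.sum_sub_distrib]
      congr 1
      · rw [Finset.mul_sum, Finset.mul_sum]
        refine Finset.sum_congr rfl fun i _ => ?_
        ring
      · simp_rw [Finset.mul_sum]
        rw [Finset.sum_comm]
        refine Finset.sum_congr rfl fun k _ => Finset.sum_congr rfl fun i _ => ?_
        ring
    rw [e3, F.norm]
    have e4 : ∀ k, S.p k * (u z x * Fld.uu S φ k z x) =
        1 / N * (S.p k * (u z x * ∑ i, S.mg φ k i z * φ x i)) := by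
      intro k
      rw [Fld.uu]
      ring
    simp_rw [e4]
    rw [← Finset.mul_sum]
    field_simp
  rw [e2]
  have nu : ∀ k ∈ Finset.Ico 1 (S.K + 1), Nh (fun (z : ι → ℝ) (x : X) =>
      S.p k * (u z x * Fld.uu S φ k z x)) := fun k hk' =>
    Nh.const_mul _ (Nh.mul hu (Fld.nh_uu hS (hk k hk')))
  rw [hS.Ex_add (Nh.const_mul _ (Nh.sum _ fun i _ => Nh.mul (Nh.snd fun x => φ x i) (hu' i)))
    (Nh.const_mul _ (Nh.sub hu (Nh.sum _ nu)))]
  congr 1
  rw [Sy.Ex_const_mul, hS.Ex_sub hu (Nh.sum _ nu), hS.Ex_sum _ nu]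
  congr 2
  refine Finset.sum_congr rfl fun k _ => ?_
  rw [Sy.Ex_const_mul]

/-- The mean of the field of the level one. -/
theorem Ex_hz :
    S.Ex (hz φ zc 1) = s 1 * (1 - ∑ i ∈ Finset.Ico 1 (S.K + 1), S.p i * S.Rl φ i) := by
  have hS := F.hreg
  have h := F.Ex_hz_mul (u := fun _ _ => 1) (u' := fun _ _ _ => 0)
    (fun i x => PD.const 1) (Nh.fst (EG.const 1)) (fun i => Nh.fst (EG.const 0))
  simp only [mul_one, one_mul, mul_zero, Finset.sum_const_zero, hS.Ex_const, zero_add] at h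
  rw [show S.Ex (hz φ zc 1) = S.Ex (fun z x => hz φ zc 1 z x) from rfl, h]
  congr 2
  refine Finset.sum_congr rfl fun k hk => ?_
  rw [Finset.mem_Ico] at hk
  rw [← F.Ex_uu (by omega : k ≤ S.K)]

end Fl1

end Vale.Agent.P146.H498.Row
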