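import Vale.Agent.P146.Bdl.B2
import Vale.Agent.P146.H332.M0

/-!
P146, lower half (helper498): integration by parts in the couplings of the level one of a layered
system. `D_l = mg l` (magnetization given the levels at most `l`), `W` = the coupling matrix of the
level one, `h` = the field of the level one. Exact formulas for `E D_l W D_l`, `E h W D_l`,
`E h h`, `E h D_l`.
-/

set_option linter.all false

open MeasureTheory ProbabilityTheory Finset

namespace Vale.Agent.P146.H498.Row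

open Vale.Agent.P157.Lv Vale.Agent.P157.Lv.Sy

section gen

variable {ι X : Type} [Fintype ι] [DecidableEq ι] [Fintype X] [DecidableEq X] [Nonempty X]
  {S : Sy ι X} {D : ι → (ι → ℝ) → X → ℝ} {l : ℕ} {e : ι} {c : ℝ} {w : X → ℝ}

/-- derivative of a conditional average in a coordinate with the derivative `c w` of the energy -/
theorem pd_Tw (hR : S.RegD D) (hl : l ≤ S.K) (he : S.lev e ≤ l)
    (hD : ∀ z x, D e z x = c * w x) (f : X → ℝ) :
    PD e (S.T l (fun _ x => f x)) (fun z => c * (S.T l (fun _ x => f x * w x) z -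
      ∑ k ∈ Finset.Ico (l + 1) (S.K + 1), S.p k *
        S.T l (fun z _ => S.T k (fun _ x => f x) z * S.T k (fun _ x => w x) z) z -
      S.m (l + 1) * (S.T l (fun _ x => f x) z * S.T l (fun _ x => w x) z))) := by
  have hS := hR.toReg
  have h := hR.pd_T hl (e := e) he (h := fun _ x => f x)
    (h' := fun _ _ => 0) (fun x => PD.const _) (Nh.snd fun x => f x) (Nh.fst (EG.const 0))
  refine h.congr fun z => ?_
  have hDe : D e = fun z x => c * w x := by
    funext z x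
    exact hD z x
  have hk : ∀ k ∈ Finset.Ico (l + 1) (S.K + 1), k ≤ S.K := fun k hk => by
    rw [Finset.mem_Ico] at hk; omega
  have hlk : ∀ k ∈ Finset.Ico (l + 1) (S.K + 1), l ≤ k := fun k hk => by
    rw [Finset.mem_Ico] at hk; omega
  have na : Nh (ι := ι) (fun _ x => f x) := Nh.snd fun x => f x
  have nw : Nh (ι := ι) (fun _ x => w x) := Nh.snd fun x => w x
  have ew : ∀ k ≤ S.K, EG (S.T k (fun _ x => w x)) := fun k hk' => hS.eg_T hk' nw
  have nab : Nh (ι := ι) (fun _ x => f x * w x) := Nh.snd fun x => f x * w x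
  have nk : ∀ k ∈ Finset.Ico (l + 1) (S.K + 1), Nh (fun (z : ι → ℝ) (x : X) =>
      S.p k * (f x * S.T k (fun _ x => w x) z)) := fun k hk' =>
    Nh.const_mul _ (Nh.mul na (Nh.fst (ew k (hk k hk'))))
  have nl : Nh (fun (z : ι → ℝ) (x : X) => S.m (l + 1) * (S.T l (fun _ x => w x) z * f x)) :=
    Nh.const_mul _ (Nh.mul (Nh.fst (ew l hl)) na)
  have e0 : (fun (z : ι → ℝ) (x : X) => (0 : ℝ) + f x * (D e z x -
      ∑ i ∈ Finset.Ico (l + 1) (S.K + 1), S.p i * S.T i (D e) z -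
        S.m (l + 1) * S.T l (D e) z)) =
      fun z x => c * ((f x * w x - ∑ k ∈ Finset.Ico (l + 1) (S.K + 1),
        S.p k * (f x * S.T k (fun _ x => w x) z)) -
          S.m (l + 1) * (S.T l (fun _ x => w x) z * f x)) := by
    funext z x
    rw [hDe]
    simp only [T_const_mul]
    have e2 : ∑ i ∈ Finset.Ico (l + 1) (S.K + 1), S.p i * (c * S.T i (fun _ x => w x) z) =
        c * ∑ i ∈ Finset.Ico (l + 1) (S.K + 1), S.p i * S.T i (fun _ x => w x) z := by
      rw [Finset.mul_sum]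
      refine Finset.sum_congr rfl fun i _ => ?_
      ring
    have e3 : ∑ k ∈ Finset.Ico (l + 1) (S.K + 1), S.p k * (f x * S.T k (fun _ x => w x) z) =
        f x * ∑ i ∈ Finset.Ico (l + 1) (S.K + 1), S.p i * S.T i (fun _ x => w x) z := by
      rw [Finset.mul_sum]
      refine Finset.sum_congr rfl fun i _ => ?_
      ring
    rw [e2, e3]
    ring
  rw [e0, T_const_mul, hS.T_sub hl (Nh.sub nab (Nh.sum _ nk)) nl,
    hS.T_sub hl nab (Nh.sum _ nk), hS.T_sum hl _ nk, T_const_mul,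
    T_mul_left S (S.dep_T l (fun _ x => w x))]
  congr 2
  · congr 1
    refine Finset.sum_congr rfl fun k hk' => ?_
    rw [T_const_mul]
    congr 1
    rw [← hS.T_T (hlk k hk') (hk k hk') (Nh.mul na (Nh.fst (ew k (hk k hk'))))]
    congr 1
    funext z' _
    have e4 : (fun (z : ι → ℝ) (x : X) => f x * S.T k (fun _ x => w x) z) =
        fun z x => S.T k (fun _ x => w x) z * (fun (_ : ι → ℝ) (x : X) => f x) z x := by
      funext z x
      exact mul_comm _ _
    rw [e4, T_mul_left S (S.dep_T k (fun _ x => w x)), mul_comm]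
  · rw [mul_comm (S.T l (fun _ x => f x) z)]

/-- integration by parts against a function of the coordinates -/
theorem ibp_w (hR : S.RegD D) (hD : ∀ z x, D e z x = c * w x) {f f' : (ι → ℝ) → ℝ}
    (hd : PD e f f') (hf : EG f) (hf' : EG f') :
    S.Ex (fun z _ => z e * f z) = S.Ex (fun z _ => f' z) +
      c * (S.Ex (fun z x => f z * w x) - ∑ k ∈ Finset.Ico (S.lev e) (S.K + 1),
        S.p k * S.Ex (fun z _ => f z * S.T k (fun _ x => w x) z)) := by
  have hS := hR.toReg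
  have nw : Nh (ι := ι) (fun _ x => w x) := Nh.snd fun x => w x
  have hk : ∀ k ∈ Finset.Ico (S.lev e) (S.K + 1), k ≤ S.K := fun k hk => by
    rw [Finset.mem_Ico] at hk; omega
  have ew : ∀ k ∈ Finset.Ico (S.lev e) (S.K + 1), EG (S.T k (fun _ x => w x)) :=
    fun k hk' => hS.eg_T (hk k hk') nw
  rw [hR.ibp e (h := fun z _ => f z) (h' := fun z _ => f' z) (fun _ => hd) (Nh.fst hf)
    (Nh.fst hf')]
  have hDe : D e = fun z x => c * w x := by
    funext z x
    exact hD z x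
  have nS : Nh (fun (z : ι → ℝ) (_ : X) => ∑ k ∈ Finset.Ico (S.lev e) (S.K + 1),
      S.p k * (f z * S.T k (fun _ x => w x) z)) :=
    Nh.sum _ fun k hk' => Nh.fst ((hf.mul (ew k hk')).const_mul _)
  have nfw : Nh (fun (z : ι → ℝ) (x : X) => f z * w x) := Nh.mul (Nh.fst hf) nw
  have e1 : (fun (z : ι → ℝ) (x : X) => f' z + f z * (D e z x -
      ∑ l ∈ Finset.Ico (S.lev e) (S.K + 1), S.p l * S.T l (D e) z)) =
      fun z x => (fun (z : ι → ℝ) (_ : X) => f' z) z x + c * (f z * w x -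
        ∑ k ∈ Finset.Ico (S.lev e) (S.K + 1), S.p k * (f z * S.T k (fun _ x => w x) z)) := by
    funext z x
    rw [hDe]
    simp only [T_const_mul]
    have e2 : ∑ i ∈ Finset.Ico (S.lev e) (S.K + 1), S.p i * (c * S.T i (fun _ x => w x) z) =
        c * ∑ i ∈ Finset.Ico (S.lev e) (S.K + 1), S.p i * S.T i (fun _ x => w x) z := by
      rw [Finset.mul_sum]
      refine Finset.sum_congr rfl fun i _ => ?_
      ring
    have e3 : ∑ k ∈ Finset.Ico (S.lev e) (S.K + 1), S.p k * (f z * S.T k (fun _ x => w x) z) =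
        f z * ∑ i ∈ Finset.Ico (S.lev e) (S.K + 1), S.p i * S.T i (fun _ x => w x) z := by
      rw [Finset.mul_sum]
      refine Finset.sum_congr rfl fun i _ => ?_
      ring
    rw [e2, e3]
    ring
  rw [e1, hS.Ex_add (Nh.fst hf') (Nh.const_mul _ (Nh.sub nfw nS)), Ex_const_mul,
    hS.Ex_sub nfw nS, hS.Ex_sum _ fun k hk' => Nh.fst ((hf.mul (ew k hk')).const_mul _)]
  congr 3
  refine Finset.sum_congr rfl fun k _ => ?_
  rw [Ex_const_mul]

omit [Fintype ι] [DecidableEq ι] [Fintype X] [DecidableEq X] [Nonempty X] in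
lemma sum_p (S : Sy ι X) {a b : ℕ} (hab : a ≤ b) :
    ∑ k ∈ Finset.Ico a b, S.p k = S.m b - S.m a := by
  unfold Sy.p
  rw [Finset.sum_Ico_eq_sub _ hab, Finset.sum_range_sub, Finset.sum_range_sub]
  ring

end gen

/-! ## the couplings of the level one -/

section bonds

variable {ι X : Type} [Fintype ι] [DecidableEq ι] [Fintype X] [DecidableEq X] [Nonempty X]
  {S : Sy ι X} {D : ι → (ι → ℝ) → X → ℝ} {N : ℕ} {φ : X → Fin N → ℝ} {zc : ℕ → Fin N → ι}
  {s : ℕ → ℝ} {zb : Pair N → ι} {cb : ℝ} {l k : ℕ}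

/-- The system contains at the level one the couplings `cb ∑_e z_e φ_i(x) φ_j(x)` of spins. -/
structure Bnd (S : Sy ι X) (D : ι → (ι → ℝ) → X → ℝ) (φ : X → Fin N → ℝ) (zc : ℕ → Fin N → ι)
    (zb : Pair N → ι) (cb : ℝ) : Prop where
  inj : Function.Injective zb
  lev : ∀ e, S.lev (zb e) = 1
  D : ∀ e z x, D (zb e) z x = cb * (φ x e.1.1 * φ x e.1.2)
  spin : ∀ x i, φ x i * φ x i = 1
  ne : ∀ i e, zc 1 i ≠ zb e
  injc : Function.Injective (zc 1)
  K1 : 1 ≤ S.K
  c0 : 0 ≤ cb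

/-- `E mg_l,i mg_k,j φ_i φ_j` -/
noncomputable def E3 (S : Sy ι X) (φ : X → Fin N → ℝ) (l k : ℕ) (i j : Fin N) : ℝ :=
  S.Ex (fun z x => S.mg φ l i z * S.mg φ k j z * (φ x i * φ x j))

/-- `E mg_l,i mg_l,j T_k(φ_i φ_j)` -/
noncomputable def E4 (S : Sy ι X) (φ : X → Fin N → ℝ) (k l : ℕ) (i j : Fin N) : ℝ :=
  S.Ex (fun z _ => S.mg φ l i z * S.mg φ l j z * S.T k (fun _ x => φ x i * φ x j) z)

/-- `E h_i φ_i mg_k,j φ_j`, `h` the field of the level one -/
noncomputable def Eh (S : Sy ι X) (φ : X → Fin N → ℝ) (zc : ℕ → Fin N → ι) (k : ℕ)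
    (i j : Fin N) : ℝ :=
  S.Ex (fun z x => z (zc 1 i) * S.mg φ k j z * (φ x i * φ x j))

/-- three replicas: two which split at the level `l`, one which splits from them at the level `k` -/
noncomputable def tau (S : Sy ι X) (φ : X → Fin N → ℝ) (k l : ℕ) : ℝ :=
  1 / (N : ℝ) ^ 2 * ∑ a, ∑ b, E4 S φ k l a b

lemma eg_mg' (hS : S.Reg) {l : ℕ} (hl : l ≤ S.K) (i : Fin N) : EG (S.mg φ l i) :=
  hS.eg_T hl (Nh.snd fun x => φ x i)

lemma dep_mg' (S : Sy ι X) (φ : X → Fin N → ℝ) (l : ℕ) (i : Fin N) : Dep S.lev l (S.mg φ l i) :=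
  S.dep_T l (fun _ x => φ x i)

lemma eg_C (hS : S.Reg) {k : ℕ} (hk : k ≤ S.K) (i j : Fin N) :
    EG (S.T k (fun _ x => φ x i * φ x j)) := hS.eg_T hk (Nh.snd fun x => φ x i * φ x j)

lemma dep_mul {lev : ι → ℕ} {l : ℕ} {f g : (ι → ℝ) → ℝ} (hf : Dep lev l f) (hg : Dep lev l g) :
    Dep lev l (fun z => f z * g z) := by
  intro z w
  simp only
  rw [hf z w, hg z w]

lemma E3_comm (S : Sy ι X) (φ : X → Fin N → ℝ) (l : ℕ) (i j : Fin N) :
    E3 S φ l l i j = E3 S φ l l j i := by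
  unfold E3
  congr 1
  funext z x
  ring

lemma E4_comm (S : Sy ι X) (φ : X → Fin N → ℝ) (k l : ℕ) (i j : Fin N) :
    E4 S φ k l i j = E4 S φ k l j i := by
  unfold E4
  have h : (fun (_ : ι → ℝ) x => φ x i * φ x j) = fun _ x => φ x j * φ x i := by
    funext _ x
    ring
  rw [h]
  congr 1
  funext z x
  ring

/-- for `l ≤ k` the third replica can be any one -/
lemma E4_eq (hS : S.Reg) (hlk : l ≤ k) (hk : k ≤ S.K) (i j : Fin N) :
    E4 S φ k l i j = E3 S φ l l i j := by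
  have hl := hlk.trans hk
  exact hS.Ex_mul_T hk (φ := fun z => S.mg φ l i z * S.mg φ l j z)
    ((dep_mul (dep_mg' S φ l i) (dep_mg' S φ l j)).mono hlk)
    ((eg_mg' hS hl i).mul (eg_mg' hS hl j)) (Nh.snd fun x => φ x i * φ x j)

lemma sum_E3 (hS : S.Reg) (hl : l ≤ S.K) (hk : k ≤ S.K) :
    S.Ex (fun z x => Fld.uu S φ l z x * Fld.uu S φ k z x) =
      1 / (N : ℝ) ^ 2 * ∑ a, ∑ b, E3 S φ l k a b := by
  unfold E3
  have e : (fun (z : ι → ℝ) (x : X) => Fld.uu S φ l z x * Fld.uu S φ k z x) =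
      fun z x => 1 / (N : ℝ) ^ 2 * ∑ a, ∑ b, S.mg φ l a z * S.mg φ k b z * (φ x a * φ x b) := by
    funext z x
    unfold Fld.uu
    rw [mul_mul_mul_comm, Finset.sum_mul_sum]
    congr 1
    · ring
    · exact Finset.sum_congr rfl fun a _ => Finset.sum_congr rfl fun b _ => by ring
  have n1 : ∀ a b, Nh (fun (z : ι → ℝ) (x : X) => S.mg φ l a z * S.mg φ k b z *
      (φ x a * φ x b)) := fun a b =>
    Nh.mul (Nh.fst ((eg_mg' hS hl a).mul (eg_mg' hS hk b))) (Nh.snd fun x => φ x a * φ x b)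
  rw [e, Ex_const_mul, hS.Ex_sum _ fun a _ => Nh.sum _ fun b _ => n1 a b]
  congr 1
  exact Finset.sum_congr rfl fun a _ => hS.Ex_sum _ fun b _ => n1 a b

lemma tau_eq (hS : S.Reg) (hlk : l ≤ k) (hk : k ≤ S.K) :
    tau S φ k l = S.Ex (fun z x => Fld.uu S φ l z x * Fld.uu S φ l z x) := by
  rw [sum_E3 hS (hlk.trans hk) (hlk.trans hk)]
  unfold tau
  congr 1
  exact Finset.sum_congr rfl fun a _ => Finset.sum_congr rfl fun b _ => E4_eq hS hlk hk a b

/-- sums over the pairs -/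
lemma sum_pair_eq (G : Fin N → Fin N → ℝ) (hG : ∀ p q, G p q = G q p) :
    ∑ e : Pair N, G e.1.1 e.1.2 = (∑ p, ∑ q, G p q - ∑ p, G p p) / 2 := by
  have h1 := Vale.Agent.P146.H332.sum_pairs (fun p q => if p = q then 0 else G p q)
    (fun p q => by simp only [eq_comm (a := p) (b := q), hG p q]) (fun p => by simp)
  have h2 : ∑ e : Pair N, (if e.1.1 = e.1.2 then 0 else G e.1.1 e.1.2) =
      ∑ e : Pair N, G e.1.1 e.1.2 := by
    refine sum_congr rfl fun e _ => ?_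
    rw [if_neg e.2.ne]
  have h3 : ∑ p, ∑ q, (if p = q then 0 else G p q) = ∑ p, ∑ q, G p q - ∑ p, G p p := by
    rw [← sum_sub_distrib]
    refine sum_congr rfl fun p _ => ?_
    have h4 : ∀ q, (if p = q then 0 else G p q) = G p q - (if p = q then G p q else 0) := by
      intro q
      split_ifs <;> ring
    simp only [h4]
    rw [sum_sub_distrib, sum_ite_eq]
    simp
  rw [h2, h3] at h1
  linarith

section ibp

variable (hR : S.RegD D) (B : Bnd S D φ zc zb cb)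

include hR B

/-- the derivative of `mg l` in a coupling -/
lemma pd_mgb (hl1 : 1 ≤ l) (hl : l ≤ S.K) (e : Pair N) (a : Fin N) :
    PD (zb e) (S.mg φ l a) (fun z => cb * (S.T l (fun _ x => φ x a * (φ x e.1.1 * φ x e.1.2)) z -
      ∑ k ∈ Finset.Ico (l + 1) (S.K + 1), S.p k *
        S.T l (fun z _ => S.mg φ k a z * S.T k (fun _ x => φ x e.1.1 * φ x e.1.2) z) z -
      S.m (l + 1) * (S.mg φ l a z * S.T l (fun _ x => φ x e.1.1 * φ x e.1.2) z))) :=
  pd_Tw hR hl (by rw [B.lev]; exact hl1) (w := fun x => φ x e.1.1 * φ x e.1.2) (B.D e)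
    (fun x => φ x a)

lemma pd_mg1 (hl1 : 1 ≤ l) (hl : l ≤ S.K) (e : Pair N) :
    PD (zb e) (S.mg φ l e.1.1) (fun z => cb * (S.mg φ l e.1.2 z -
      ∑ k ∈ Finset.Ico (l + 1) (S.K + 1), S.p k *
        S.T l (fun z _ => S.mg φ k e.1.1 z * S.T k (fun _ x => φ x e.1.1 * φ x e.1.2) z) z -
      S.m (l + 1) * (S.mg φ l e.1.1 z * S.T l (fun _ x => φ x e.1.1 * φ x e.1.2) z))) := by
  refine (pd_mgb hR B hl1 hl e e.1.1).congr fun z => ?_
  have h : (fun (_ : ι → ℝ) x => φ x e.1.1 * (φ x e.1.1 * φ x e.1.2)) =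
      fun _ x => φ x e.1.2 := by
    funext _ x
    rw [← mul_assoc, B.spin, one_mul]
  rw [h]
  rfl

lemma pd_mg2 (hl1 : 1 ≤ l) (hl : l ≤ S.K) (e : Pair N) :
    PD (zb e) (S.mg φ l e.1.2) (fun z => cb * (S.mg φ l e.1.1 z -
      ∑ k ∈ Finset.Ico (l + 1) (S.K + 1), S.p k *
        S.T l (fun z _ => S.mg φ k e.1.2 z * S.T k (fun _ x => φ x e.1.1 * φ x e.1.2) z) z -
      S.m (l + 1) * (S.mg φ l e.1.2 z * S.T l (fun _ x => φ x e.1.1 * φ x e.1.2) z))) := by
  refine (pd_mgb hR B hl1 hl e e.1.2).congr fun z => ?_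
  have h : (fun (_ : ι → ℝ) x => φ x e.1.2 * (φ x e.1.1 * φ x e.1.2)) =
      fun _ x => φ x e.1.1 := by
    funext _ x
    rw [mul_comm (φ x e.1.1), ← mul_assoc, B.spin, one_mul]
  rw [h]
  rfl

/-- for a function `F` of the levels at most `l` -/
lemma Ex_F_dT (hl : l ≤ S.K) {F : (ι → ℝ) → ℝ} (hF : Dep S.lev l F) (eF : EG F)
    (hk1 : l ≤ k) (hk : k ≤ S.K) (a i j : Fin N) :
    S.Ex (fun z _ => F z * S.T l (fun z _ => S.mg φ k a z * S.T k (fun _ x => φ x i * φ x j) z) z) =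
      S.Ex (fun z x => F z * S.mg φ k a z * (φ x i * φ x j)) := by
  have hS := hR.toReg
  have ek := eg_mg' (φ := φ) hS hk a
  have eC := eg_C (φ := φ) hS hk i j
  rw [hS.Ex_mul_T hl hF eF (Nh.fst (ek.mul eC))]
  have h2 := hS.Ex_mul_T hk (φ := fun z => F z * S.mg φ k a z)
    (dep_mul (hF.mono hk1) (dep_mg' S φ k a)) (eF.mul ek) (Nh.snd fun x => φ x i * φ x j)
  rw [← h2]
  congr 1
  funext z _
  ring

/-- **first formula**: `E z_e mg_l,i mg_l,j` -/
theorem ibp_DD (hl1 : 1 ≤ l) (hl : l ≤ S.K) (e : Pair N) :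
    S.Ex (fun z _ => z (zb e) * (S.mg φ l e.1.1 z * S.mg φ l e.1.2 z)) =
      cb * (S.Ex (fun z _ => S.mg φ l e.1.1 z ^ 2) + S.Ex (fun z _ => S.mg φ l e.1.2 z ^ 2) -
        ∑ k ∈ Finset.Ico (l + 1) (S.K + 1), S.p k *
          (E3 S φ l k e.1.1 e.1.2 + E3 S φ l k e.1.2 e.1.1) -
        (2 * S.m (l + 1) - 1) * E3 S φ l l e.1.1 e.1.2 -
        ∑ k ∈ Finset.Ico 1 (S.K + 1), S.p k * E4 S φ k l e.1.1 e.1.2) := by
  have hS := hR.toReg
  obtain ⟨i, hi⟩ : ∃ i, i = e.1.1 := ⟨_, rfl⟩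
  obtain ⟨j, hj⟩ : ∃ j, j = e.1.2 := ⟨_, rfl⟩
  have h1 := pd_mg1 hR B hl1 hl e
  have h2 := pd_mg2 hR B hl1 hl e
  rw [← hi, ← hj] at h1 h2 ⊢
  have ei := eg_mg' (φ := φ) hS hl i
  have ej := eg_mg' (φ := φ) hS hl j
  have di := dep_mg' S φ l i
  have dj := dep_mg' S φ l j
  have eC : EG (S.T l (fun _ x => φ x i * φ x j)) := eg_C hS hl i j
  have hkK : ∀ k ∈ Finset.Ico (l + 1) (S.K + 1), k ≤ S.K := fun k hk => by
    rw [Finset.mem_Ico] at hk; omega
  have hlk : ∀ k ∈ Finset.Ico (l + 1) (S.K + 1), l ≤ k := fun k hk => by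
    rw [Finset.mem_Ico] at hk; omega
  have eT : ∀ k ∈ Finset.Ico (l + 1) (S.K + 1), ∀ a,
      EG (S.T l (fun z _ => S.mg φ k a z * S.T k (fun _ x => φ x i * φ x j) z)) := fun k hk a =>
    hS.eg_T hl (Nh.fst ((eg_mg' hS (hkK k hk) a).mul (eg_C hS (hkK k hk) i j)))
  set d1 : (ι → ℝ) → ℝ := fun z => cb * (S.mg φ l j z -
      ∑ k ∈ Finset.Ico (l + 1) (S.K + 1), S.p k *
        S.T l (fun z _ => S.mg φ k i z * S.T k (fun _ x => φ x i * φ x j) z) z -
      S.m (l + 1) * (S.mg φ l i z * S.T l (fun _ x => φ x i * φ x j) z)) with hd1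
  set d2 : (ι → ℝ) → ℝ := fun z => cb * (S.mg φ l i z -
      ∑ k ∈ Finset.Ico (l + 1) (S.K + 1), S.p k *
        S.T l (fun z _ => S.mg φ k j z * S.T k (fun _ x => φ x i * φ x j) z) z -
      S.m (l + 1) * (S.mg φ l j z * S.T l (fun _ x => φ x i * φ x j) z)) with hd2
  have ed1 : EG d1 := ((ej.sub (EG.sum _ fun k hk => (eT k hk i).const_mul _)).sub
    ((ei.mul eC).const_mul _)).const_mul _
  have ed2 : EG d2 := ((ei.sub (EG.sum _ fun k hk => (eT k hk j).const_mul _)).sub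
    ((ej.mul eC).const_mul _)).const_mul _
  have hw : ∀ z x, D (zb e) z x = cb * (φ x i * φ x j) := by
    intro z x
    rw [hi, hj]
    exact B.D e z x
  have h3 := ibp_w hR (e := zb e) (w := fun x => φ x i * φ x j) hw (h1.mul h2) (ei.mul ej)
    ((ed1.mul ej).add (ei.mul ed2))
  rw [B.lev] at h3
  rw [h3]
  -- the derivative terms
  have nS : ∀ a, Nh (fun (z : ι → ℝ) (_ : X) => ∑ k ∈ Finset.Ico (l + 1) (S.K + 1), S.p k *
      (S.mg φ l a z * S.T l (fun z _ => S.mg φ k a z * S.T k (fun _ x => φ x i * φ x j) z) z)) :=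
    fun a => Nh.sum _ fun k hk => Nh.fst (((eg_mg' hS hl a).mul (eT k hk a)).const_mul _)
  have n1 : ∀ k ∈ Finset.Ico (l + 1) (S.K + 1), ∀ a b, Nh (X := X) (fun (z : ι → ℝ) (_ : X) =>
      S.p k * (S.mg φ l a z * S.T l (fun z _ => S.mg φ k b z *
        S.T k (fun _ x => φ x i * φ x j) z) z)) := fun k hk a b =>
    Nh.fst (((eg_mg' hS hl a).mul (eT k hk b)).const_mul _)
  have e1 : S.Ex (fun z _ => d1 z * S.mg φ l j z) = cb * (S.Ex (fun z _ => S.mg φ l j z ^ 2) -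
      ∑ k ∈ Finset.Ico (l + 1) (S.K + 1), S.p k * E3 S φ l k j i -
      S.m (l + 1) * E3 S φ l l i j) := by
    have e0 : (fun (z : ι → ℝ) (_ : X) => d1 z * S.mg φ l j z) = fun z _ => cb *
        (S.mg φ l j z ^ 2 - ∑ k ∈ Finset.Ico (l + 1) (S.K + 1), S.p k * (S.mg φ l j z *
          S.T l (fun z _ => S.mg φ k i z * S.T k (fun _ x => φ x i * φ x j) z) z) -
        S.m (l + 1) * ((S.mg φ l i z * S.mg φ l j z) * S.T l (fun _ x => φ x i * φ x j) z)) := by
      funext z _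
      simp only [hd1]
      have e2 : ∑ k ∈ Finset.Ico (l + 1) (S.K + 1), S.p k * (S.mg φ l j z *
          S.T l (fun z _ => S.mg φ k i z * S.T k (fun _ x => φ x i * φ x j) z) z) =
          (∑ k ∈ Finset.Ico (l + 1) (S.K + 1), S.p k *
            S.T l (fun z _ => S.mg φ k i z * S.T k (fun _ x => φ x i * φ x j) z) z) *
            S.mg φ l j z := by
        rw [Finset.sum_mul]
        exact Finset.sum_congr rfl fun k _ => by ring
      rw [e2]
      ring
    rw [e0, Ex_const_mul, hS.Ex_sub (Nh.sub (Nh.fst (ej.pow 2)) (Nh.sum _ fun k hk => n1 k hk j i))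
      (Nh.fst (((ei.mul ej).mul eC).const_mul _)),
      hS.Ex_sub (Nh.fst (ej.pow 2)) (Nh.sum _ fun k hk => n1 k hk j i),
      hS.Ex_sum _ fun k hk => n1 k hk j i, Ex_const_mul]
    congr 2
    · congr 1
      refine Finset.sum_congr rfl fun k hk => ?_
      rw [Ex_const_mul, Ex_F_dT hR B hl dj ej (hlk k hk) (hkK k hk) i i j]
      congr 1
      unfold E3
      congr 1
      funext z x
      ring
    · congr 1
      exact hS.Ex_mul_T hl (φ := fun z => S.mg φ l i z * S.mg φ l j z) (dep_mul di dj)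
        (ei.mul ej) (Nh.snd fun x => φ x i * φ x j)
  have e2 : S.Ex (fun z _ => S.mg φ l i z * d2 z) = cb * (S.Ex (fun z _ => S.mg φ l i z ^ 2) -
      ∑ k ∈ Finset.Ico (l + 1) (S.K + 1), S.p k * E3 S φ l k i j -
      S.m (l + 1) * E3 S φ l l i j) := by
    have e0 : (fun (z : ι → ℝ) (_ : X) => S.mg φ l i z * d2 z) = fun z _ => cb *
        (S.mg φ l i z ^ 2 - ∑ k ∈ Finset.Ico (l + 1) (S.K + 1), S.p k * (S.mg φ l i z *
          S.T l (fun z _ => S.mg φ k j z * S.T k (fun _ x => φ x i * φ x j) z) z) -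
        S.m (l + 1) * ((S.mg φ l i z * S.mg φ l j z) * S.T l (fun _ x => φ x i * φ x j) z)) := by
      funext z _
      simp only [hd2]
      have e2 : ∑ k ∈ Finset.Ico (l + 1) (S.K + 1), S.p k * (S.mg φ l i z *
          S.T l (fun z _ => S.mg φ k j z * S.T k (fun _ x => φ x i * φ x j) z) z) =
          S.mg φ l i z * (∑ k ∈ Finset.Ico (l + 1) (S.K + 1), S.p k *
            S.T l (fun z _ => S.mg φ k j z * S.T k (fun _ x => φ x i * φ x j) z) z) := by
        rw [Finset.mul_sum]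
        exact Finset.sum_congr rfl fun k _ => by ring
      rw [e2]
      ring
    rw [e0, Ex_const_mul, hS.Ex_sub (Nh.sub (Nh.fst (ei.pow 2)) (Nh.sum _ fun k hk => n1 k hk i j))
      (Nh.fst (((ei.mul ej).mul eC).const_mul _)),
      hS.Ex_sub (Nh.fst (ei.pow 2)) (Nh.sum _ fun k hk => n1 k hk i j),
      hS.Ex_sum _ fun k hk => n1 k hk i j, Ex_const_mul]
    congr 2
    · congr 1
      refine Finset.sum_congr rfl fun k hk => ?_
      rw [Ex_const_mul, Ex_F_dT hR B hl di ei (hlk k hk) (hkK k hk) j i j]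
      rfl
    · congr 1
      exact hS.Ex_mul_T hl (φ := fun z => S.mg φ l i z * S.mg φ l j z) (dep_mul di dj)
        (ei.mul ej) (Nh.snd fun x => φ x i * φ x j)
  have e3 : S.Ex (fun z _ => d1 z * S.mg φ l j z + S.mg φ l i z * d2 z) =
      S.Ex (fun z _ => d1 z * S.mg φ l j z) + S.Ex (fun z _ => S.mg φ l i z * d2 z) :=
    hS.Ex_add (Nh.fst (ed1.mul ej)) (Nh.fst (ei.mul ed2))
  rw [e3, e1, e2]
  have e5 : ∑ k ∈ Finset.Ico (l + 1) (S.K + 1), S.p k * (E3 S φ l k i j + E3 S φ l k j i) =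
      ∑ k ∈ Finset.Ico (l + 1) (S.K + 1), S.p k * E3 S φ l k i j +
        ∑ k ∈ Finset.Ico (l + 1) (S.K + 1), S.p k * E3 S φ l k j i := by
    rw [← Finset.sum_add_distrib]
    exact Finset.sum_congr rfl fun k _ => by ring
  rw [e5]
  have e6 : S.Ex (fun z x => S.mg φ l i z * S.mg φ l j z * (φ x i * φ x j)) =
    E3 S φ l l i j := rfl
  have e7 : ∀ k, S.Ex (fun z _ => S.mg φ l i z * S.mg φ l j z *
      S.T k (fun _ x => φ x i * φ x j) z) = E4 S φ k l i j := fun k => rfl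
  simp only [e6, e7]
  ring

end ibp

end bonds

end Vale.Agent.P146.H498.Row
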