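import Vale.Agent.P146.H498.EdgeQ

/-!
P146, lower half (helper498): the spectral inequality. For a symmetric matrix `W` whose quadratic
form is bounded by `ν`, `X = (ν - z)_+`: for every vectors `d`, `h` and numbers `lam`, `τ`
`d (z - W) d ≥ 2 lam h (z - W) d - (2 z + τ) lam² |h|² - 3 X |d|² - (2 / z + 1 / τ) X² |d|²`.
-/

set_option linter.all false

open MeasureTheory ProbabilityTheory Finset Matrix Filter Topology

namespace Vale.Agent.P146.H498.Edge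

variable {n : ℕ}

/-- Cauchy-Schwarz for a nonnegative quadratic form -/
lemma psd_cs {M : Matrix (Fin n) (Fin n) ℝ} (hs : Mᵀ = M) (h0 : ∀ v, 0 ≤ v ⬝ᵥ (M *ᵥ v))
    (u v : Fin n → ℝ) : (u ⬝ᵥ (M *ᵥ v)) ^ 2 ≤ (u ⬝ᵥ (M *ᵥ u)) * (v ⬝ᵥ (M *ᵥ v)) := by
  have hsym : v ⬝ᵥ (M *ᵥ u) = u ⬝ᵥ (M *ᵥ v) := by
    rw [dotProduct_mulVec, ← mulVec_transpose, hs, dotProduct_comm]
  have h1 : ∀ t : ℝ, 0 ≤ (v ⬝ᵥ (M *ᵥ v)) * (t * t) + 2 * (u ⬝ᵥ (M *ᵥ v)) * t +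
      u ⬝ᵥ (M *ᵥ u) := by
    intro t
    have h2 := h0 (u + t • v)
    have h3 : (u + t • v) ⬝ᵥ (M *ᵥ (u + t • v)) =
        (v ⬝ᵥ (M *ᵥ v)) * (t * t) + 2 * (u ⬝ᵥ (M *ᵥ v)) * t + u ⬝ᵥ (M *ᵥ u) := by
      rw [mulVec_add, mulVec_smul, add_dotProduct, dotProduct_add, dotProduct_add,
        smul_dotProduct, smul_dotProduct, dotProduct_smul, dotProduct_smul, hsym]
      simp only [smul_eq_mul]
      ring
    rw [h3] at h2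
    exact h2
  have h4 := discrim_le_zero h1
  unfold discrim at h4
  nlinarith

/-- the squared length of the image -/
lemma sq_image_le {W : Matrix (Fin n) (Fin n) ℝ} (hs : Wᵀ = W) {c : ℝ} (hc : 0 < c)
    (hW : ∀ v, |v ⬝ᵥ (W *ᵥ v)| ≤ c * (v ⬝ᵥ v)) (d : Fin n → ℝ) :
    (c • d - W *ᵥ d) ⬝ᵥ (c • d - W *ᵥ d) ≤ 2 * c * (d ⬝ᵥ (c • d - W *ᵥ d)) := by
  set M : Matrix (Fin n) (Fin n) ℝ := c • (1 : Matrix (Fin n) (Fin n) ℝ) - W with hM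
  have hMv : ∀ v, M *ᵥ v = c • v - W *ᵥ v := by
    intro v
    rw [hM, sub_mulVec, smul_mulVec, one_mulVec]
  have hMs : Mᵀ = M := by
    rw [hM, transpose_sub, transpose_smul, transpose_one, hs]
  have hq : ∀ v, v ⬝ᵥ (M *ᵥ v) = c * (v ⬝ᵥ v) - v ⬝ᵥ (W *ᵥ v) := by
    intro v
    rw [hMv, dotProduct_sub, dotProduct_smul, smul_eq_mul]
  have h0 : ∀ v, 0 ≤ v ⬝ᵥ (M *ᵥ v) := by
    intro v
    rw [hq]
    have := (abs_le.1 (hW v)).2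
    linarith
  have h2 : ∀ v, v ⬝ᵥ (M *ᵥ v) ≤ 2 * c * (v ⬝ᵥ v) := by
    intro v
    rw [hq]
    have := (abs_le.1 (hW v)).1
    linarith
  rw [← hMv]
  set w := M *ᵥ d with hw
  have h3 := psd_cs hMs h0 w d
  rw [← hw] at h3
  have h4 := h2 w
  have h5 : 0 ≤ d ⬝ᵥ w := h0 d
  have h6 : 0 ≤ w ⬝ᵥ w := sum_nonneg fun i _ => mul_self_nonneg _
  have h7 : (w ⬝ᵥ w) ^ 2 ≤ (2 * c * (w ⬝ᵥ w)) * (d ⬝ᵥ w) :=
    h3.trans (mul_le_mul_of_nonneg_right h4 h5)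
  rcases h6.eq_or_lt with h | h
  · rw [← h]
    positivity
  · have h8 : (w ⬝ᵥ w) * (w ⬝ᵥ w) ≤ (w ⬝ᵥ w) * (2 * c * (d ⬝ᵥ w)) := by nlinarith
    exact le_of_mul_le_mul_left h8 h

/-- Cauchy-Schwarz with weights -/
lemma dot_le (u v : Fin n → ℝ) {t : ℝ} (ht : 0 < t) :
    u ⬝ᵥ v ≤ t * (u ⬝ᵥ u) + 1 / (4 * t) * (v ⬝ᵥ v) := by
  unfold dotProduct
  rw [mul_sum, mul_sum, ← sum_add_distrib]
  refine sum_le_sum fun i _ => ?_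
  have h1 : 0 ≤ (2 * t * u i - v i) ^ 2 / (4 * t) := by positivity
  have h2 : (2 * t * u i - v i) ^ 2 / (4 * t) =
      t * (u i * u i) + 1 / (4 * t) * (v i * v i) - u i * v i := by
    field_simp
    ring
  linarith

/-- **The spectral inequality.** -/
theorem spec_row {W : Matrix (Fin n) (Fin n) ℝ} (hs : Wᵀ = W) {ν z X : ℝ} (hz : 0 < z)
    (hW : ∀ v, |v ⬝ᵥ (W *ᵥ v)| ≤ ν * (v ⬝ᵥ v)) (hX0 : 0 ≤ X) (hX : ν ≤ z + X)
    (d h : Fin n → ℝ) {lam τ : ℝ} (hl : 0 ≤ lam) (hτ : 0 < τ) :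
    2 * lam * (h ⬝ᵥ (z • d - W *ᵥ d)) - (2 * z + τ) * lam ^ 2 * (h ⬝ᵥ h) -
      (3 * X + (2 / z + 1 / τ) * X ^ 2) * (d ⬝ᵥ d) ≤ d ⬝ᵥ (z • d - W *ᵥ d) := by
  set c := z + X with hc
  have hc0 : 0 < c := by positivity
  have hdd : ∀ v : Fin n → ℝ, 0 ≤ v ⬝ᵥ v := fun v => sum_nonneg fun i _ => mul_self_nonneg _
  have hWc : ∀ v, |v ⬝ᵥ (W *ᵥ v)| ≤ c * (v ⬝ᵥ v) := fun v =>
    (hW v).trans (mul_le_mul_of_nonneg_right hX (hdd v))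
  have h1 := sq_image_le hs hc0 hWc d
  set w := c • d - W *ᵥ d with hw
  have e1 : z • d - W *ᵥ d = w - X • d := by
    rw [hw, hc, add_smul]
    abel
  have e2 : d ⬝ᵥ w = d ⬝ᵥ (z • d - W *ᵥ d) + X * (d ⬝ᵥ d) := by
    have e0 : w = (z • d - W *ᵥ d) + X • d := by rw [e1]; abel
    nth_rewrite 1 [e0]
    rw [dotProduct_add, dotProduct_smul, smul_eq_mul]
  have e3 : h ⬝ᵥ (z • d - W *ᵥ d) = h ⬝ᵥ w - X * (h ⬝ᵥ d) := by
    rw [e1, dotProduct_sub, dotProduct_smul, smul_eq_mul]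
  have hdw0 : 0 ≤ d ⬝ᵥ w := by
    have h2 := (abs_le.1 (hWc d)).2
    have h3 : d ⬝ᵥ w = c * (d ⬝ᵥ d) - d ⬝ᵥ (W *ᵥ d) := by
      rw [hw, dotProduct_sub, dotProduct_smul, smul_eq_mul]
    rw [h3]
    linarith
  have hdw : d ⬝ᵥ w ≤ 2 * c * (d ⬝ᵥ d) := by
    have h2 := (abs_le.1 (hWc d)).1
    have h3 : d ⬝ᵥ w = c * (d ⬝ᵥ d) - d ⬝ᵥ (W *ᵥ d) := by
      rw [hw, dotProduct_sub, dotProduct_smul, smul_eq_mul]
    rw [h3]
    linarith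
  rcases hl.eq_or_lt with rfl | hl
  · have h4 : 0 ≤ (2 / z + 1 / τ) * X ^ 2 * (d ⬝ᵥ d) := by
      have := hdd d
      positivity
    have h5 : 0 ≤ X * (d ⬝ᵥ d) := mul_nonneg hX0 (hdd d)
    rw [e2] at hdw0
    nlinarith
  · have h2 := dot_le h w (t := lam * z) (by positivity)
    -- the main term
    have h4 : 1 / (4 * (lam * z)) * (w ⬝ᵥ w) ≤
        1 / (4 * (lam * z)) * (2 * c * (d ⬝ᵥ w)) :=
      mul_le_mul_of_nonneg_left h1 (by positivity)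
    have h5 : 2 * lam * (h ⬝ᵥ w) ≤ 2 * z * lam ^ 2 * (h ⬝ᵥ h) + c / z * (d ⬝ᵥ w) := by
      have h6 := mul_le_mul_of_nonneg_left (h2.trans (add_le_add le_rfl h4))
        (show 0 ≤ 2 * lam by positivity)
      refine h6.trans (le_of_eq ?_)
      field_simp
      ring
    have h7 : c / z * (d ⬝ᵥ w) ≤ d ⬝ᵥ (z • d - W *ᵥ d) + X * (d ⬝ᵥ d) +
        (2 * X + 2 / z * X ^ 2) * (d ⬝ᵥ d) := by
      have h8 : c / z * (d ⬝ᵥ w) = d ⬝ᵥ w + X / z * (d ⬝ᵥ w) := by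
        rw [hc]
        field_simp
      have h9 : X / z * (d ⬝ᵥ w) ≤ X / z * (2 * c * (d ⬝ᵥ d)) :=
        mul_le_mul_of_nonneg_left hdw (by positivity)
      have h10 : X / z * (2 * c * (d ⬝ᵥ d)) = (2 * X + 2 / z * X ^ 2) * (d ⬝ᵥ d) := by
        rw [hc]
        field_simp
      rw [h8, e2]
      rw [h10] at h9
      rw [e2] at h9
      linarith
    have h11 : -(2 * lam * (X * (h ⬝ᵥ d))) ≤ τ * lam ^ 2 * (h ⬝ᵥ h) + 1 / τ * X ^ 2 * (d ⬝ᵥ d) := by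
      have h12 : 0 ≤ ∑ i, (τ * lam * h i + X * d i) ^ 2 / τ := sum_nonneg fun i _ => by positivity
      have h13 : ∑ i, (τ * lam * h i + X * d i) ^ 2 / τ =
          τ * lam ^ 2 * (h ⬝ᵥ h) + 1 / τ * X ^ 2 * (d ⬝ᵥ d) + 2 * lam * (X * (h ⬝ᵥ d)) := by
        unfold dotProduct
        rw [mul_sum, mul_sum, mul_sum, mul_sum, ← sum_add_distrib, ← sum_add_distrib]
        refine sum_congr rfl fun i _ => ?_
        field_simp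
        ring
      rw [h13] at h12
      linarith
    rw [e3]
    linarith

/-- the spectral inequality for `W0`, with `X = (nu - z)_+` -/
theorem spec_row0 (g : Pair n → ℝ) {z : ℝ} (hz : 0 < z) (d h : Fin n → ℝ) {lam τ : ℝ}
    (hl : 0 ≤ lam) (hτ : 0 < τ) :
    2 * lam * (h ⬝ᵥ (z • d - W0 n g *ᵥ d)) - (2 * z + τ) * lam ^ 2 * (h ⬝ᵥ h) -
      (3 * max (nu n g - z) 0 + (2 / z + 1 / τ) * max (nu n g - z) 0 ^ 2) * (d ⬝ᵥ d) ≤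
      d ⬝ᵥ (z • d - W0 n g *ᵥ d) :=
  spec_row (W0_transpose g) hz (le_nu g) (le_max_right _ _)
    (by have := le_max_left (nu n g - z) 0; linarith) d h hl hτ

end Vale.Agent.P146.H498.Edge
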