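import Vale.Agent.P146.H607.LSideB
import Vale.Agent.P146.H498.MRowSK

/-!
P146, lower half (helper498): **the L-side inside the second part of a split law**: the lower row
inequality at a concentrated level of a bundle placed anywhere, with visible couplings on all the
levels below the bundle, in terms of finitely many numbers of the law.
-/

set_option linter.all false

open MeasureTheory ProbabilityTheory Finset

namespace Vale.Agent.P146.H498.MRow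

open Vale.Agent.P157.Lv Vale.Agent.P157.Lv.Sy Vale.Agent.P146.H425
open Vale.Agent.P146.H295
open Vale.Agent.P157.Lv.Fld (uu nh_uu mg_eq eg_mg dep_mg sum_mg_sq Ex_mg_mul)
open Vale.Agent.P146.H498.Row (tau E4 t_le_Th gg_nonneg)
open Vale.Agent.P146.H607 (Th_mono Rl_mono tau_le Cv_le_pair sum_p_Ico Rl_sq_le)

section gen

variable {ι X : Type} [Fintype ι] [DecidableEq ι] [Fintype X] [DecidableEq X] [Nonempty X]
  {S : Sy ι X} {D : ι → (ι → ℝ) → X → ℝ} {N : ℕ} {φ : X → Fin N → ℝ} {zc : ℕ → Fin N → ι}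
  {s : ℕ → ℝ} {P : ℕ → Prop}

lemma Th_nonneg (F : FldP S D φ zc s P) {l : ℕ} (hl : l ≤ S.K) : 0 ≤ Th S φ l :=
  F.hreg.pairEx_nonneg hl fun _ _ => sq_nonneg _

/-- the square of the overlap of the magnetisations is at most `Θ_l` -/
lemma Q_le_Th (F : FldP S D φ zc s P) {l : ℕ} (hl : l ≤ S.K) :
    S.Ex (fun z _ => (1 / (N : ℝ) * ∑ a, S.mg φ l a z ^ 2) ^ 2) ≤ Th S φ l := by
  have hS := F.hreg
  have em : ∀ a, EG (S.mg φ l a) := fun a => eg_mg hS hl a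
  have nu' := nh_uu (φ := φ) hS hl
  have e1 : ∀ z, S.T l (uu S φ l) z = 1 / (N : ℝ) * ∑ a, S.mg φ l a z ^ 2 := by
    intro z
    have n1 : ∀ a, Nh (fun (z : ι → ℝ) (x : X) => S.mg φ l a z * φ x a) := fun a =>
      Nh.mul (Nh.fst (em a)) (Nh.snd fun x => φ x a)
    have e2 : uu S φ l = fun z x => (1 / (N : ℝ)) * ∑ a, S.mg φ l a z * φ x a := rfl
    rw [e2, Sy.T_const_mul]
    congr 1
    rw [hS.T_sum hl Finset.univ (f := fun a => fun (z : ι → ℝ) (x : X) => S.mg φ l a z * φ x a)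
      (fun a _ => n1 a)]
    refine Finset.sum_congr rfl fun a _ => ?_
    rw [T_mul_left S (dep_mg S φ l a), sq]
    rfl
  have h1 : S.Ex (fun z _ => (1 / (N : ℝ) * ∑ a, S.mg φ l a z ^ 2) ^ 2) ≤
      S.Ex (fun z _ => S.T l (fun z x => uu S φ l z x ^ 2) z) := by
    refine hS.Ex_mono (Nh.fst ((EG.const_mul _ (EG.sum _ fun a _ => (em a).pow 2)).pow 2))
      (Nh.fst (hS.eg_T hl (Nh.pow nu' 2))) fun z _ => ?_
    rw [← e1 z]
    exact hS.sq_T_le hl nu' z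
  rw [hS.Ex_T hl (Nh.pow nu' 2)] at h1
  exact h1.trans (t_le_Th F hl)

/-- **Three replicas, Cauchy-Schwarz form.** -/
lemma tau_eps (F : FldP S D φ zc s P) {k l : ℕ} (hkl : k ≤ l) (hl : l ≤ S.K) {ε : ℝ}
    (hε : 0 < ε) : 2 * tau S φ k l ≤ ε * Th S φ l + Th S φ k / ε := by
  have hS := F.hreg
  have hN := F.N_pos
  have hk := hkl.trans hl
  have em : ∀ a, EG (S.mg φ l a) := fun a => eg_mg hS hl a
  have eA : ∀ a b, EG (A2 S φ k a b) := fun a b => eg_A2 hS hk a b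
  have e1 : ∀ a b, 2 * E4 S φ k l a b ≤
      ε * S.Ex (fun z _ => (S.mg φ l a z ^ 2 * S.mg φ l b z ^ 2)) +
        S.Ex (fun z _ => A2 S φ k a b z ^ 2) / ε := by
    intro a b
    have n1 : Nh fun (z : ι → ℝ) (_ : X) => S.mg φ l a z * S.mg φ l b z *
        S.T k (fun _ x => φ x a * φ x b) z := Nh.fst (((em a).mul (em b)).mul (eA a b))
    have n2 : Nh fun (z : ι → ℝ) (_ : X) => S.mg φ l a z ^ 2 * S.mg φ l b z ^ 2 :=
      Nh.fst (((em a).pow 2).mul ((em b).pow 2))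
    have n3 : Nh fun (z : ι → ℝ) (_ : X) => A2 S φ k a b z ^ 2 := Nh.fst ((eA a b).pow 2)
    have h := hS.Ex_mono (X := X)
      (f := fun z _ => 2 * (S.mg φ l a z * S.mg φ l b z * S.T k (fun _ x => φ x a * φ x b) z))
      (g := fun z _ => ε * (S.mg φ l a z ^ 2 * S.mg φ l b z ^ 2) + ε⁻¹ * A2 S φ k a b z ^ 2)
      (Nh.const_mul _ n1) (Nh.add (Nh.const_mul _ n2) (Nh.const_mul _ n3)) fun z _ => by
        have e : S.T k (fun _ x => φ x a * φ x b) z = A2 S φ k a b z := rfl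
        rw [e]
        set f := S.mg φ l a z * S.mg φ l b z
        set g := A2 S φ k a b z
        have h1 : 0 ≤ ε⁻¹ * (ε * f - g) ^ 2 := by positivity
        have h2 : ε⁻¹ * (ε * f - g) ^ 2 = ε * f ^ 2 - 2 * (f * g) + ε⁻¹ * g ^ 2 := by
          field_simp
          ring
        have h3 : f ^ 2 = S.mg φ l a z ^ 2 * S.mg φ l b z ^ 2 := by
          simp only [f]
          ring
        rw [← h3]
        linarith
    rw [Sy.Ex_const_mul, hS.Ex_add (Nh.const_mul _ n2) (Nh.const_mul _ n3), Sy.Ex_const_mul,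
      Sy.Ex_const_mul] at h
    rw [div_eq_inv_mul]
    exact h
  have e2 : 2 * tau S φ k l ≤ 1 / (N : ℝ) ^ 2 * ∑ a, ∑ b,
      (ε * S.Ex (fun z _ => (S.mg φ l a z ^ 2 * S.mg φ l b z ^ 2)) +
        S.Ex (fun z _ => A2 S φ k a b z ^ 2) / ε) := by
    unfold tau
    have e : 2 * (1 / (N : ℝ) ^ 2 * ∑ a, ∑ b, E4 S φ k l a b) =
        1 / (N : ℝ) ^ 2 * ∑ a, ∑ b, 2 * E4 S φ k l a b := by
      simp_rw [← Finset.mul_sum]
      ring
    rw [e]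
    refine mul_le_mul_of_nonneg_left ?_ (by positivity)
    exact Finset.sum_le_sum fun a _ => Finset.sum_le_sum fun b _ => e1 a b
  have e3 : 1 / (N : ℝ) ^ 2 * ∑ a, ∑ b,
      (ε * S.Ex (fun z _ => (S.mg φ l a z ^ 2 * S.mg φ l b z ^ 2)) +
        S.Ex (fun z _ => A2 S φ k a b z ^ 2) / ε) =
      ε * S.Ex (fun z _ => (1 / (N : ℝ) * ∑ a, S.mg φ l a z ^ 2) ^ 2) + Th S φ k / ε := by
    have g1 : S.Ex (fun z _ => (1 / (N : ℝ) * ∑ a, S.mg φ l a z ^ 2) ^ 2) =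
        1 / (N : ℝ) ^ 2 * ∑ a, ∑ b, S.Ex (fun z _ => (S.mg φ l a z ^ 2 * S.mg φ l b z ^ 2)) := by
      have n2 : ∀ a b, Nh fun (z : ι → ℝ) (_ : X) => S.mg φ l a z ^ 2 * S.mg φ l b z ^ 2 :=
        fun a b => Nh.fst (((em a).pow 2).mul ((em b).pow 2))
      have g2 : (fun (z : ι → ℝ) (_ : X) => (1 / (N : ℝ) * ∑ a, S.mg φ l a z ^ 2) ^ 2) =
          fun z _ => 1 / (N : ℝ) ^ 2 * ∑ a, ∑ b, S.mg φ l a z ^ 2 * S.mg φ l b z ^ 2 := by
        funext z _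
        rw [mul_pow, one_div_pow, sq (∑ a, S.mg φ l a z ^ 2), Finset.sum_mul_sum]
      rw [g2, Sy.Ex_const_mul, hS.Ex_sum _ fun a _ => Nh.sum _ fun b _ => n2 a b]
      congr 1
      refine Finset.sum_congr rfl fun a _ => ?_
      rw [hS.Ex_sum _ fun b _ => n2 a b]
    have g3 : Th S φ k = 1 / (N : ℝ) ^ 2 * ∑ a, ∑ b, S.Ex (fun z _ => A2 S φ k a b z ^ 2) := by
      have h := q2_pair F hk
      unfold q2 at h
      rw [hS.Ex_sum _ fun a _ => Nh.fst (EG.sum _ fun b _ => (eA a b).pow 2)] at h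
      have h2 : ∀ a, S.Ex (fun z (_ : X) => ∑ b, A2 S φ k a b z ^ 2) =
          ∑ b, S.Ex (fun z _ => A2 S φ k a b z ^ 2) := fun a =>
        hS.Ex_sum _ fun b _ => Nh.fst ((eA a b).pow 2)
      simp_rw [h2] at h
      rw [h]
      field_simp
    rw [g1, g3]
    simp_rw [Finset.sum_add_distrib, ← Finset.mul_sum, ← Finset.sum_div]
    ring
  rw [e3] at e2
  have h5 := mul_le_mul_of_nonneg_left (Q_le_Th F hl) hε.le
  linarith

/-- **Three replicas, Cauchy-Schwarz form.** -/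
theorem tau_cs (F : FldP S D φ zc s P) {k l : ℕ} (hkl : k ≤ l) (hl : l ≤ S.K) :
    tau S φ k l ≤ √(Th S φ k) * √(Th S φ l) := by
  have hk := hkl.trans hl
  have h0 := Th_nonneg (φ := φ) F hk
  have h1 := Th_mono F hkl hl
  rcases eq_or_lt_of_le h0 with h | h
  · have h2 := tau_le F hkl hl
    rw [← h] at h2 ⊢
    simpa using h2
  · have hl0 : 0 < Th S φ l := h.trans_le h1
    set a := √(Th S φ k) with ha
    set b := √(Th S φ l) with hb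
    have ha0 : 0 < a := Real.sqrt_pos.2 h
    have hb0 : 0 < b := Real.sqrt_pos.2 hl0
    have h3 := tau_eps F hkl hl (ε := a / b) (by positivity)
    have e1 : Th S φ l = b ^ 2 := (Real.sq_sqrt hl0.le).symm
    have e2 : Th S φ k = a ^ 2 := (Real.sq_sqrt h.le).symm
    rw [e1, e2] at h3
    have e3 : a / b * b ^ 2 + a ^ 2 / (a / b) = 2 * (a * b) := by
      field_simp
      ring
    rw [e3] at h3
    linarith

/-- the variance of the overlap -/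
lemma pvar_eq (F : FldP S D φ zc s P) {l : ℕ} (hlK : l ≤ S.K) :
    S.pairEx l (fun x x' => (Rov φ x x' - S.Rl φ l) ^ 2) = Th S φ l - S.Rl φ l ^ 2 := by
  have hS := F.hreg
  set R := S.Rl φ l with hR
  have e1 : (fun (x x' : X) => (Rov φ x x' - R) ^ 2) =
      fun x x' => Rov φ x x' ^ 2 + ((-(2 * R)) * Rov φ x x' + R * R) := by
    funext x x'
    ring
  rw [e1, hS.pairEx_add hlK (fun x x' => Rov φ x x' ^ 2)
      (fun x x' => (-(2 * R)) * Rov φ x x' + R * R),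
    hS.pairEx_add hlK (fun x x' => (-(2 * R)) * Rov φ x x') (fun _ _ => R * R),
    hS.pairEx_const_mul, hS.pairEx_const hlK]
  have e2 : S.pairEx l (fun x x' => Rov φ x x') = R := (F.Rl_eq_pairEx hlK).symm
  rw [e2, Th]
  ring

/-- the levels below `l` of the bracket -/
lemma low_sum (F : FldP S D φ zc s P) {g l : ℕ} (hg1 : 1 ≤ g) (hgl : g ≤ l) (hl : l ≤ S.K)
    {sh : ℕ → ℝ} (h0 : ∀ k, 1 ≤ k → k < l → 0 ≤ sh k) (h1 : ∀ k, 1 ≤ k → k < l → sh k ≤ 1) :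
    ∑ k ∈ Finset.Ico 1 l, S.p k * (sh k * tau S φ k l) ≤
      (S.m g - S.m 1) * (√(Th S φ (g - 1)) * √(Th S φ l)) + (S.m l - S.m g) * Th S φ l := by
  have hS := F.hreg
  have hp0 : ∀ i ≤ S.K, 0 ≤ S.p i := fun i hi => by
    rw [Sy.p]
    linarith [hS.mono i hi]
  have hl0 := Th_nonneg (φ := φ) F hl
  have key : ∀ k, 1 ≤ k → k < l → ∀ B : ℝ, 0 ≤ B → tau S φ k l ≤ B →
      S.p k * (sh k * tau S φ k l) ≤ S.p k * B := by
    intro k hk1 hkl B hB hle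
    refine mul_le_mul_of_nonneg_left ?_ (hp0 k (by omega))
    calc sh k * tau S φ k l ≤ sh k * B := mul_le_mul_of_nonneg_left hle (h0 k hk1 hkl)
      _ ≤ 1 * B := mul_le_mul_of_nonneg_right (h1 k hk1 hkl) hB
      _ = B := one_mul B
  rw [← Finset.sum_Ico_consecutive _ hg1 hgl]
  refine add_le_add ?_ ?_
  · rw [← sum_p_Ico S hg1, Finset.sum_mul]
    refine Finset.sum_le_sum fun k hk => ?_
    rw [Finset.mem_Ico] at hk
    refine key k hk.1 (by omega) _ (by positivity) ?_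
    refine (tau_cs F (by omega) hl).trans ?_
    refine mul_le_mul_of_nonneg_right (Real.sqrt_le_sqrt ?_) (Real.sqrt_nonneg _)
    exact Th_mono F (by omega) (by omega)
  · rw [← sum_p_Ico S hgl, Finset.sum_mul]
    refine Finset.sum_le_sum fun k hk => ?_
    rw [Finset.mem_Ico] at hk
    refine key k (by omega) hk.2 _ hl0 ?_
    exact (tau_le F (by omega) hl).trans (Th_mono F (by omega) hl)

/-- `√Θ_l ≤ ρ_l + √V` -/
lemma sqrt_Th_le (F : FldP S D φ zc s P) {l : ℕ} (hlK : l ≤ S.K) {V : ℝ} (hV0 : 0 ≤ V)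
    (hV : S.pairEx l (fun x x' => (Rov φ x x' - S.Rl φ l) ^ 2) ≤ V) :
    √(Th S φ l) ≤ S.Rl φ l + √V := by
  have hρ0 : 0 ≤ S.Rl φ l := F.Rl_nonneg hlK
  have h1 : Th S φ l ≤ (S.Rl φ l + √V) ^ 2 := by
    have h2 := pvar_eq F hlK
    have h3 := Real.sq_sqrt hV0
    have h4 : 0 ≤ S.Rl φ l * √V := mul_nonneg hρ0 (Real.sqrt_nonneg _)
    have h5 : (S.Rl φ l + √V) ^ 2 = S.Rl φ l ^ 2 + 2 * (S.Rl φ l * √V) + √V ^ 2 := by ring
    rw [h5, h3]
    linarith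
  calc √(Th S φ l) ≤ √((S.Rl φ l + √V) ^ 2) := Real.sqrt_le_sqrt h1
    _ = S.Rl φ l + √V := Real.sqrt_sq (add_nonneg hρ0 (Real.sqrt_nonneg _))

lemma chi1_nonneg (F : FldP S D φ zc s P) :
    0 ≤ 1 - ∑ i ∈ Finset.Ico 1 (S.K + 1), S.p i * S.Rl φ i := by
  have hS := F.hreg
  have hm0 : 0 < S.m 1 := hS.pos
  have hsum1 : ∑ i ∈ Finset.Ico 1 (S.K + 1), S.p i * S.Rl φ i ≤ 1 := by
    calc ∑ i ∈ Finset.Ico 1 (S.K + 1), S.p i * S.Rl φ i
        ≤ ∑ i ∈ Finset.Ico 1 (S.K + 1), S.p i := by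
          refine Finset.sum_le_sum fun i hi => ?_
          rw [Finset.mem_Ico] at hi
          have h2 : 0 ≤ S.p i := by
            rw [Sy.p]
            linarith [hS.mono i (by omega)]
          calc S.p i * S.Rl φ i ≤ S.p i * 1 :=
                mul_le_mul_of_nonneg_left (F.Rl_le_one (show i ≤ S.K by omega)) h2
            _ = S.p i := mul_one _
      _ ≤ 1 := by
          rw [sum_p_Ico S (show 1 ≤ S.K + 1 by omega), hS.mK]
          linarith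
  linarith

lemma chi_mono (F : FldP S D φ zc s P) {l q : ℕ} (hlq : l ≤ q) (hq : q ≤ S.K) :
    1 - ∑ i ∈ Finset.Ico l (S.K + 1), S.p i * S.Rl φ i ≤
      1 - ∑ i ∈ Finset.Ico q (S.K + 1), S.p i * S.Rl φ i := by
  have hS := F.hreg
  rw [← Finset.sum_Ico_consecutive _ (show l ≤ q by omega) (show q ≤ S.K + 1 by omega)]
  have : 0 ≤ ∑ i ∈ Finset.Ico l q, S.p i * S.Rl φ i :=
    Finset.sum_nonneg fun i hi => by
      rw [Finset.mem_Ico] at hi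
      have h2 : 0 ≤ S.p i := by
        rw [Sy.p]
        linarith [hS.mono i (by omega)]
      exact mul_nonneg h2 (F.Rl_nonneg (show i ≤ S.K by omega))
  linarith

lemma chi_ge (F : FldP S D φ zc s P) {l q : ℕ} (hlq : l ≤ q) (hq1 : 1 ≤ q) (hq : q ≤ S.K) :
    1 - ∑ i ∈ Finset.Ico q (S.K + 1), S.p i * S.Rl φ i - (S.m q - S.m l) * S.Rl φ (q - 1) ≤
      1 - ∑ i ∈ Finset.Ico l (S.K + 1), S.p i * S.Rl φ i := by
  have hS := F.hreg
  rw [← Finset.sum_Ico_consecutive _ (show l ≤ q by omega) (show q ≤ S.K + 1 by omega)]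
  have : ∑ i ∈ Finset.Ico l q, S.p i * S.Rl φ i ≤ (S.m q - S.m l) * S.Rl φ (q - 1) := by
    rw [← sum_p_Ico S (show l ≤ q by omega), Finset.sum_mul]
    refine Finset.sum_le_sum fun k hk => ?_
    rw [Finset.mem_Ico] at hk
    have h2 : 0 ≤ S.p k := by
      rw [Sy.p]
      linarith [hS.mono k (by omega)]
    exact mul_le_mul_of_nonneg_left (Rl_mono F (by omega) (show q - 1 ≤ S.K by omega)) h2
  linarith

lemma delta_le (F : FldP S D φ zc s P) {l : ℕ} (hl1 : 1 ≤ l) (hlK : l ≤ S.K) {ϑ : ℝ}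
    (hϑ : Th S φ l ≤ ϑ) :
    ∑ k ∈ Finset.Ico 1 l, S.p k * √(S.Ex (fun z x => uu S φ k z x ^ 2) / N) ≤
      S.m l * √(ϑ / N) := by
  have hS := F.hreg
  have hm0 : 0 < S.m 1 := hS.pos
  have hp0 : ∀ i ≤ S.K, 0 ≤ S.p i := fun i hi => by
    rw [Sy.p]
    linarith [hS.mono i hi]
  calc ∑ k ∈ Finset.Ico 1 l, S.p k * √(S.Ex (fun z x => uu S φ k z x ^ 2) / N)
      ≤ ∑ k ∈ Finset.Ico 1 l, S.p k * √(ϑ / N) := by
        refine Finset.sum_le_sum fun k hk => ?_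
        rw [Finset.mem_Ico] at hk
        refine mul_le_mul_of_nonneg_left (Real.sqrt_le_sqrt ?_) (hp0 k (by omega))
        refine div_le_div_of_nonneg_right ?_ (by positivity)
        exact (t_le_Th F (by omega)).trans ((Th_mono F (by omega) hlK).trans hϑ)
    _ = (S.m l - S.m 1) * √(ϑ / N) := by
        rw [← Finset.sum_mul, sum_p_Ico S hl1]
    _ ≤ S.m l * √(ϑ / N) := mul_le_mul_of_nonneg_right (by linarith) (Real.sqrt_nonneg _)

lemma t_le_V (F : FldP S D φ zc s P) {l q : ℕ} (hlq : l < q) (hq : q ≤ S.K) {V : ℝ}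
    (hV : S.pairEx l (fun x x' => (Rov φ x x' - S.Rl φ l) ^ 2) ≤ V) :
    S.Ex (fun z x => uu S φ l z x ^ 2) ≤ V + S.Rl φ (q - 1) * S.Rl φ l := by
  have hlK : l ≤ S.K := by omega
  have hVC := (Cv_le_pair F hlK).trans hV
  have hρ0 : 0 ≤ S.Rl φ l := F.Rl_nonneg hlK
  have hρr : S.Rl φ l ≤ S.Rl φ (q - 1) := Rl_mono F (by omega) (show q - 1 ≤ S.K by omega)
  have h1 : S.Ex (fun z x => uu S φ l z x ^ 2) =
      H295.Cv S (uu S φ l) (uu S φ l) + S.Rl φ l * S.Rl φ l := by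
    have e : (fun z x => uu S φ l z x ^ 2) = fun z x => uu S φ l z x * uu S φ l z x := by
      funext z x
      ring
    rw [e]
    unfold H295.Cv
    rw [F.Ex_uu hlK]
    ring
  rw [h1]
  have := mul_le_mul_of_nonneg_right hρr hρ0
  linarith

lemma low_le (F : FldP S D φ zc s P) {zb : ℕ → Pair N → ι} {cb : ℕ → ℝ} {Bt : ℝ} {g l q : ℕ}
    (B : Bns S D φ zc zb cb l Bt) (hg1 : 1 ≤ g) (hgl : g ≤ l) (hlq : l < q) (hq : q ≤ S.K)
    {V ϑ ϑg : ℝ} (hV0 : 0 ≤ V)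
    (hV : S.pairEx l (fun x x' => (Rov φ x x' - S.Rl φ l) ^ 2) ≤ V) (hϑ : Th S φ l ≤ ϑ)
    (hϑg : Th S φ (g - 1) ≤ ϑg) :
    ∑ k ∈ Finset.Ico 1 l, S.p k * (shr cb Bt k * tau S φ k l) ≤
      (S.m g - S.m 1) * √ϑg * S.Rl φ l + (S.m g - S.m 1) * (√ϑg * √V) +
        (S.m l - S.m g) * ϑ := by
  have hS := F.hreg
  have hlK : l ≤ S.K := by omega
  have hThl0 : 0 ≤ Th S φ l := Th_nonneg F hlK
  have hsqV := sqrt_Th_le F hlK hV0 hV
  have hmg1 : S.m 1 ≤ S.m g := hS.m_mono hg1 (show g ≤ S.K + 1 by omega)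
  have hmgl : S.m g ≤ S.m l := hS.m_mono (show g ≤ l by omega) (show l ≤ S.K + 1 by omega)
  have hmlq : S.m l ≤ S.m q := hS.m_mono (show l ≤ q by omega) (show q ≤ S.K + 1 by omega)
  have hshr0 : ∀ k, 0 ≤ shr cb Bt k := fun k => Finset.sum_nonneg fun j _ => by positivity
  have hshr1 : ∀ k, k < l → shr cb Bt k ≤ 1 := fun k hk => by
    have h1 : shr cb Bt k ≤ shr cb Bt l :=
      Finset.sum_le_sum_of_subset_of_nonneg (Finset.Icc_subset_Icc_right hk.le)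
        fun j _ _ => by positivity
    have h2 : shr cb Bt l = 1 := by
      unfold shr
      have := B.pos
      rw [← Finset.sum_div, B.sq, div_self (by positivity)]
    linarith
  have hU := low_sum F hg1 (show g ≤ l by omega) hlK
    (sh := fun k => shr cb Bt k) (fun k _ _ => hshr0 k) (fun k _ h => hshr1 k h)
  have hThg : √(Th S φ (g - 1)) ≤ √ϑg := Real.sqrt_le_sqrt hϑg
  have c1 : (S.m g - S.m 1) * (√(Th S φ (g - 1)) * √(Th S φ l)) ≤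
      (S.m g - S.m 1) * √ϑg * S.Rl φ l + (S.m g - S.m 1) * (√ϑg * √V) := by
    have h1 : √(Th S φ (g - 1)) * √(Th S φ l) ≤ √ϑg * (S.Rl φ l + √V) :=
      mul_le_mul hThg hsqV (Real.sqrt_nonneg _) (Real.sqrt_nonneg _)
    have h2 := mul_le_mul_of_nonneg_left h1 (show 0 ≤ S.m g - S.m 1 by linarith)
    calc _ ≤ _ := h2
      _ = _ := by ring
  have c2 : (S.m l - S.m g) * Th S φ l ≤ (S.m l - S.m g) * ϑ :=
    mul_le_mul_of_nonneg_left hϑ (by linarith)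
  linarith

lemma gg_le (hG : GP S φ zc s P) {π γ : ℝ} {l : ℕ} (hl : l < S.K) (Pl : P l) (Pl1 : P (l + 1))
    (hπ : 0 < π) (hpl : π ≤ S.p l) (hγ : gg S φ zc s l l ≤ γ)
    (hγ1 : gg S φ zc s (l + 1) (l + 1) ≤ γ) :
    2 * ((gg S φ zc s (l + 1) (l + 1) +
      √(gg S φ zc s l l * gg S φ zc s (l + 1) (l + 1))) / S.p l) ≤ 4 * γ / π := by
  have hγ0 : 0 ≤ γ := (gg_nonneg hG hl.le Pl).trans hγ
  have h1 : √(gg S φ zc s l l * gg S φ zc s (l + 1) (l + 1)) ≤ γ := by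
    rw [Real.sqrt_le_left hγ0, sq]
    exact mul_le_mul hγ hγ1 (gg_nonneg hG (show l + 1 ≤ S.K by omega) Pl1) hγ0
  have h2 : (gg S φ zc s (l + 1) (l + 1) +
    √(gg S φ zc s l l * gg S φ zc s (l + 1) (l + 1))) / S.p l ≤ (γ + γ) / π :=
    div_le_div₀ (by positivity) (by linarith) hπ hpl
  have h3 := mul_le_mul_of_nonneg_left h2 (show (0 : ℝ) ≤ 2 by norm_num)
  calc _ ≤ _ := h3
    _ = _ := by ring

/-- the algebra of the row -/
lemma fin_alg {N ρ r m1 ml ml1 mq mg s1 Bb V ϑ ϑg t U G δ χl χn χq χ1 D0 E ζ π γ : ℝ}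
    (hN : 0 < N) (hρ0 : 0 ≤ ρ) (hm0 : 0 < m1) (hml0 : 0 < ml) (hmq0 : 0 < mq) (hml1q : ml1 ≤ mq)
    (hmll : ml ≤ ml1) (hs1 : 0 < s1) (hB0 : 0 ≤ Bb)
    (hrow : max (s1 * χ1 * (2 - Bb * χl) - Bb * δ) 0 ^ 2 / (7 * (1 + m1 * s1 ^ 2)) +
      2 * (Bb * χn - 1) * ρ ≤ Bb * (2 * ml1 - ml) * t + Bb * U + Bb * G +
      (D0 + Bb * ml / N) * ρ + 3 * (E + Real.log 3) / (N * D0) + 16 * (E + Real.log 5) / N)
    (htl : t ≤ V + r * ρ)
    (hlow : U ≤ (mg - m1) * √ϑg * ρ + (mg - m1) * (√ϑg * √V) + (ml - mg) * ϑ)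
    (hgg : G ≤ 4 * γ / π) (hχnq : χq - (mq - ml1) * r ≤ χn) (hχlq : χl ≤ χq) (hχ10 : 0 ≤ χ1)
    (hδ : δ ≤ ml * √(ϑ / N)) (hrl : ρ ≤ √ϑ) (hV0 : 0 ≤ V) (hD : 0 < D0)
    (hζ : 0 ≤ s1 * χ1 * (2 - Bb * χq) - Bb * (ml * √(ϑ / N)))
    (hζ1 : ζ ≤ (s1 * χ1 * (2 - Bb * χq) - Bb * (ml * √(ϑ / N))) ^ 2 /
      (7 * (1 + m1 * s1 ^ 2))) :
    ζ + 2 * (Bb * χq - 1) * ρ ≤ Bb * ((2 * mq - ml) * r + (mg - m1) * √ϑg) * ρ +
      Bb * (2 * mq * V + 4 * γ / π + (ml - mg) * ϑ + (mg - m1) * (√ϑg * √V)) +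
      (D0 + Bb * mq / N) * √ϑ + 3 * (E + Real.log 3) / (N * D0) +
      16 * (E + Real.log 5) / N := by
  have hfirst : ζ ≤ max (s1 * χ1 * (2 - Bb * χl) - Bb * δ) 0 ^ 2 / (7 * (1 + m1 * s1 ^ 2)) := by
    refine hζ1.trans (div_le_div_of_nonneg_right ?_ (by positivity))
    refine pow_le_pow_left₀ hζ (le_trans ?_ (le_max_left _ _)) 2
    have h1 := mul_le_mul_of_nonneg_left hδ hB0
    have h2 : s1 * χ1 * (2 - Bb * χq) ≤ s1 * χ1 * (2 - Bb * χl) := by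
      refine mul_le_mul_of_nonneg_left ?_ (mul_nonneg hs1.le hχ10)
      have := mul_le_mul_of_nonneg_left hχlq hB0
      linarith
    linarith
  have c3 := mul_le_mul_of_nonneg_left hlow hB0
  have c4 : Bb * (2 * ml1 - ml) * t ≤ Bb * (2 * ml1 - ml) * (r * ρ) + Bb * (2 * mq * V) := by
    have h1 := mul_le_mul_of_nonneg_left htl (show 0 ≤ Bb * (2 * ml1 - ml) from
      mul_nonneg hB0 (by linarith))
    have h2 : (2 * ml1 - ml) * V ≤ 2 * mq * V := mul_le_mul_of_nonneg_right (by linarith) hV0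
    have h3 := mul_le_mul_of_nonneg_left h2 hB0
    calc _ ≤ _ := h1
      _ = Bb * (2 * ml1 - ml) * (r * ρ) + Bb * ((2 * ml1 - ml) * V) := by ring
      _ ≤ _ := by linarith
  have c5 := mul_le_mul_of_nonneg_left hgg hB0
  have c6 : (D0 + Bb * ml / N) * ρ ≤ (D0 + Bb * mq / N) * √ϑ := by
    have h1 : Bb * ml / N ≤ Bb * mq / N :=
      div_le_div_of_nonneg_right (mul_le_mul_of_nonneg_left (by linarith) hB0) hN.le
    have h0 : 0 ≤ Bb * ml / N := div_nonneg (mul_nonneg hB0 hml0.le) hN.le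
    exact mul_le_mul (by linarith) hrl hρ0 (by linarith)
  have c9 : 2 * (Bb * χq - 1) * ρ - 2 * Bb * (mq - ml1) * (r * ρ) ≤ 2 * (Bb * χn - 1) * ρ := by
    have h1 := mul_le_mul_of_nonneg_left hχnq (show 0 ≤ 2 * Bb * ρ by positivity)
    have e1 : 2 * Bb * ρ * (χq - (mq - ml1) * r) =
        2 * Bb * χq * ρ - 2 * Bb * (mq - ml1) * (r * ρ) := by ring
    have e2 : 2 * Bb * ρ * χn = 2 * Bb * χn * ρ := by ring
    rw [e1, e2] at h1
    linarith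
  have e20 : Bb * ((2 * mq - ml) * r + (mg - m1) * √ϑg) * ρ =
      2 * Bb * (mq - ml1) * (r * ρ) + Bb * (2 * ml1 - ml) * (r * ρ) +
        Bb * ((mg - m1) * √ϑg * ρ) := by ring
  have e22 : Bb * (2 * mq * V + 4 * γ / π + (ml - mg) * ϑ + (mg - m1) * (√ϑg * √V)) =
      Bb * (2 * mq * V) + Bb * (4 * γ / π) + Bb * ((ml - mg) * ϑ) +
        Bb * ((mg - m1) * (√ϑg * √V)) := by ring
  have e23 : Bb * ((mg - m1) * √ϑg * ρ + (mg - m1) * (√ϑg * √V) + (ml - mg) * ϑ) =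
      Bb * ((mg - m1) * √ϑg * ρ) + Bb * ((mg - m1) * (√ϑg * √V)) + Bb * ((ml - mg) * ϑ) := by
    ring
  rw [e20, e22]
  rw [e23] at c3
  linarith

/-- **The lower row inequality at a concentrated level `l`, visible couplings on all the levels
`≤ l`.** `V` bounds the variance of the overlap, `ϑg` bounds `Θ` of the levels `< g`. -/
theorem lrowV (F : FldP S D φ zc s P) (hinj : ∀ p ≤ S.K, P p → Function.Injective (zc p))
    (hs : ∀ p ≤ S.K, P p → 0 < s p) (hG : GP S φ zc s P) {zb : ℕ → Pair N → ι} {cb : ℕ → ℝ}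
    {Bt : ℝ} {g l q : ℕ} (B : Bns S D φ zc zb cb l Bt) (P1 : P 1) (Pl : P l) (Pl1 : P (l + 1))
    (hg1 : 1 ≤ g) (hgl : g ≤ l) (hlq : l < q) (hq : q ≤ S.K) {π γ V ϑ ϑg : ℝ} (hπ : 0 < π)
    (hpl : π ≤ S.p l) (hγ : gg S φ zc s l l ≤ γ) (hγ1 : gg S φ zc s (l + 1) (l + 1) ≤ γ)
    (hV : S.pairEx l (fun x x' => (Rov φ x x' - S.Rl φ l) ^ 2) ≤ V) (hϑ : Th S φ l ≤ ϑ)
    (hϑg : Th S φ (g - 1) ≤ ϑg)
    {D0 E χ1 χq ζ : ℝ} (hD : 0 < D0) (hD1 : D0 ≤ 1) (hE : entL S l ≤ E)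
    (hχ1 : χ1 = 1 - ∑ i ∈ Finset.Ico 1 (S.K + 1), S.p i * S.Rl φ i)
    (hχq : χq = 1 - ∑ i ∈ Finset.Ico q (S.K + 1), S.p i * S.Rl φ i)
    (hζ : 0 ≤ s 1 * χ1 * (2 - Bt * √N * χq) - Bt * √N * (S.m l * √(ϑ / N)))
    (hζ1 : ζ ≤ (s 1 * χ1 * (2 - Bt * √N * χq) - Bt * √N * (S.m l * √(ϑ / N))) ^ 2 /
      (7 * (1 + S.m 1 * s 1 ^ 2))) :
    ζ + 2 * (Bt * √N * χq - 1) * S.Rl φ l ≤
      Bt * √N * ((2 * S.m q - S.m l) * S.Rl φ (q - 1) + (S.m g - S.m 1) * √ϑg) * S.Rl φ l +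
      Bt * √N * (2 * S.m q * V + 4 * γ / π + (S.m l - S.m g) * ϑ +
        (S.m g - S.m 1) * (√ϑg * √V)) + (D0 + Bt * √N * S.m q / N) * √ϑ +
      3 * (E + Real.log 3) / (N * D0) + 16 * (E + Real.log 5) / N := by
  have hS := F.hreg
  have hlK : l ≤ S.K := by omega
  have hlK' : l < S.K := by omega
  have hl1 : 1 ≤ l := by omega
  have hN := F.N_pos
  have hV0 : 0 ≤ V := (hS.pairEx_nonneg hlK fun _ _ => sq_nonneg _).trans hV
  have hρ0 : 0 ≤ S.Rl φ l := F.Rl_nonneg hlK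
  have hm0 : 0 < S.m 1 := hS.pos
  have hml0 : 0 < S.m l := hS.m_pos hl1 (by omega)
  have hmq0 : 0 < S.m q := hS.m_pos (by omega) (by omega)
  have hml1q : S.m (l + 1) ≤ S.m q := hS.m_mono (by omega) (by omega)
  have hmll : S.m l ≤ S.m (l + 1) := hS.mono l hlK
  have hs1 := hs 1 (by omega) P1
  have hB0 : 0 ≤ Bt * √(N : ℝ) := mul_nonneg B.pos.le (Real.sqrt_nonneg _)
  have hrow := lrowL_fin F hinj hs hG B hlK' P1 Pl Pl1 (hπ.trans_le hpl) hD hD1 hE hχ1 rfl rfl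
  have htl := t_le_V F hlq hq hV
  have hlow := low_le F B hg1 hgl hlq hq hV0 hV hϑ hϑg
  have hgg := gg_le hG hlK' Pl Pl1 hπ hpl hγ hγ1
  have hχnq := chi_ge F (l := l + 1) (q := q) (by omega) (by omega) hq
  have hχlq := chi_mono F (l := l) (q := q) (by omega) hq
  have hχ10 : 0 ≤ χ1 := hχ1 ▸ chi1_nonneg F
  have hδ := delta_le F hl1 hlK hϑ
  have hrl : S.Rl φ l ≤ √ϑ := Real.le_sqrt_of_sq_le ((Rl_sq_le F hlK).trans hϑ)
  rw [← hχq] at hχnq hχlq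
  generalize 1 - ∑ i ∈ Finset.Ico l (S.K + 1), S.p i * S.Rl φ i = χl at hrow hχlq
  generalize 1 - ∑ i ∈ Finset.Ico (l + 1) (S.K + 1), S.p i * S.Rl φ i = χn at hrow hχnq
  generalize ∑ k ∈ Finset.Ico 1 l, S.p k * (shr cb Bt k * tau S φ k l) = U at hrow hlow
  generalize ∑ k ∈ Finset.Ico 1 l, S.p k * √(S.Ex (fun z x => uu S φ k z x ^ 2) / N) = δ
    at hrow hδ
  generalize S.Ex (fun z x => uu S φ l z x ^ 2) = t at hrow htl
  have e0 : 2 * (Bt * √(N : ℝ)) * ((gg S φ zc s (l + 1) (l + 1) +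
      √(gg S φ zc s l l * gg S φ zc s (l + 1) (l + 1))) / S.p l) = (Bt * √N) *
      (2 * ((gg S φ zc s (l + 1) (l + 1) +
        √(gg S φ zc s l l * gg S φ zc s (l + 1) (l + 1))) / S.p l)) := by ring
  rw [e0] at hrow
  generalize 2 * ((gg S φ zc s (l + 1) (l + 1) +
    √(gg S φ zc s l l * gg S φ zc s (l + 1) (l + 1))) / S.p l) = G at hrow hgg
  generalize S.Rl φ (q - 1) = r at *
  generalize S.Rl φ l = ρ at *
  generalize S.m q = mq at *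
  generalize S.m (l + 1) = ml1 at *
  generalize S.m l = ml at *
  generalize S.m g = mg at *
  generalize S.m 1 = m1 at *
  generalize s 1 = s1 at *
  generalize Bt * √(N : ℝ) = Bb at *
  exact fin_alg hN hρ0 hm0 hml0 hmq0 hml1q hmll hs1 hB0 hrow htl hlow hgg hχnq hχlq hχ10 hδ hrl hV0
    hD hζ hζ1

end gen

/-! ## the SK system -/

section sk

open Vale.Agent.P146.H93 (Cd st am aSK skS Em linS_sk)

variable {n K : ℕ} {m b w : ℕ → ℝ}

/-- the error of the L-side at a bundle from `p0` to `c` (last level `q`), visible couplings below -/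
noncomputable def errV (n : ℕ) (m : ℕ → ℝ) (g p0 c q : ℕ) (Bt π γ ϑ ϑg D0 E : ℝ) : ℝ :=
  Bt * √n * (2 * m q * (5 * ϑ / (c - p0) + 20 * γ / π ^ 2) + 4 * γ / π + (m c - m g) * ϑ +
    (m g - m 1) * (√ϑg * √(5 * ϑ / (c - p0) + 20 * γ / π ^ 2))) +
    (D0 + Bt * √n * m q / n) * √ϑ +
    3 * (E + Real.log 3) / (n * D0) + 16 * (E + Real.log 5) / n

/-- **The L-side at a good level of a bundle, visible couplings on all the levels below.** -/
theorem lsideV_sk (hn : 0 < n) (hK : 0 < K) (hm : Em K m) (hb : 0 ≤ b 1) {g p0 c q : ℕ}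
    (hg1 : 1 ≤ g) (hgp : g ≤ p0) (hpc : p0 < c) (hcq : c < q) (hq : q ≤ K) (hw1 : 0 < w 1)
    (hw : ∀ p, p0 ≤ p → p ≤ c + 1 → 0 < w p) (hbz : ∀ j, p0 < j → j ≤ c → b j = 0) {Bt : ℝ}
    (hBt : 0 < Bt) (hB : ∑ j ∈ Finset.Icc 1 p0, b j ^ 2 = Bt ^ 2) {π γ ϑ ϑg : ℝ} (hπ : 0 < π)
    (hp : ∀ l, p0 ≤ l → l ≤ c → π ≤ m (l + 1) - m l)
    (hγ : ∀ l, p0 ≤ l → l ≤ c + 1 → gg (skS n K m b w) (spn n) (zs hK) w l l ≤ γ)
    (hϑ : Th (skS n K m b w) (spn n) c ≤ ϑ) (hϑg : Th (skS n K m b w) (spn n) (g - 1) ≤ ϑg)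
    {D0 E χ1 χq ζ : ℝ} {M : ℕ → ℝ} (hD : 0 < D0) (hD1 : D0 ≤ 1) (hM : ∀ i < c, m (i + 1) < M i)
    (hE : ∀ l, p0 ≤ l → l < c → eSKL n K m b w M l ≤ E)
    (hχ1 : χ1 = 1 - ∑ i ∈ Finset.Ico 1 (K + 1), (m (i + 1) - m i) *
      (skS n K m b w).Rl (spn n) i)
    (hχq : χq = 1 - ∑ i ∈ Finset.Ico q (K + 1), (m (i + 1) - m i) *
      (skS n K m b w).Rl (spn n) i)
    (hζ : 0 ≤ w 1 * χ1 * (2 - Bt * √n * χq) - Bt * √n * (m c * √(ϑ / n)))
    (hζ1 : ζ ≤ (w 1 * χ1 * (2 - Bt * √n * χq) - Bt * √n * (m c * √(ϑ / n))) ^ 2 /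
      (7 * (1 + m 1 * w 1 ^ 2))) :
    ∃ l, p0 ≤ l ∧ l < c ∧
      ζ + 2 * (Bt * √n * χq - 1) * (skS n K m b w).Rl (spn n) l ≤
      Bt * √n * ((2 * m q - m p0) * (skS n K m b w).Rl (spn n) (q - 1) + (m g - m 1) * √ϑg) *
        (skS n K m b w).Rl (spn n) l + errV n m g p0 c q Bt π γ ϑ ϑg D0 E := by
  obtain ⟨l, hl1, hlc, hconc⟩ := conc_sk hn hK hm (show 1 ≤ p0 by omega) hpc
    (show c < K by omega) hw hπ hp hγ
  set P : ℕ → Prop := fun p => p = 1 ∨ (p0 ≤ p ∧ p ≤ c + 1) with hPd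
  have hP1 : ∀ p, P p → 1 ≤ p := by
    rintro p (h | h) <;> omega
  have hw' : ∀ p ≤ K, P p → 0 < w p := by
    rintro p _ (rfl | h)
    · exact hw1
    · exact hw p h.1 h.2
  have F := fldP_sk (P := P) hn hK hm b w hP1
  have hG := gp_sk (P := P) hn hK hm b w hP1 hw'
  have Pl : P l := Or.inr ⟨hl1, by omega⟩
  have Pl1 : P (l + 1) := Or.inr ⟨by omega, by omega⟩
  have hS : (skS n K m b w).Reg := F.hreg
  have hlK : l ≤ K := by omega
  have hThl : Th (skS n K m b w) (spn n) l ≤ ϑ := (Th_mono F hlc.le (show c ≤ K by omega)).trans hϑ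
  have hϑ0 : 0 ≤ ϑ := (Th_nonneg F (show l ≤ K from hlK)).trans hThl
  have hc1 : (0 : ℝ) < (c : ℝ) - p0 := by
    have : (p0 : ℝ) < c := by exact_mod_cast hpc
    linarith
  have hpv : (skS n K m b w).pairEx l
      (fun x x' => (Rov (spn n) x x' - (skS n K m b w).Rl (spn n) l) ^ 2) ≤
      5 * ϑ / ((c : ℝ) - p0) + 20 * γ / π ^ 2 := by
    have h1 : 0 ≤ 2 * ((skS n K m b w).Rl (spn n) (l + 1) -
      (skS n K m b w).Rl (spn n) l) ^ 2 := by positivity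
    have h2 : 5 * Th (skS n K m b w) (spn n) c / ((c : ℝ) - p0) ≤ 5 * ϑ / (c - p0) := by gcongr
    linarith
  have hBl : ∑ j ∈ Finset.Icc 1 l, b j ^ 2 = Bt ^ 2 := by
    rw [← hB]
    refine (Finset.sum_subset (Finset.Icc_subset_Icc_right hl1) fun j hj hj' => ?_).symm
    rw [Finset.mem_Icc] at hj hj'
    rw [hbz j (by omega) (by omega)]
    norm_num
  have hB0 : 0 ≤ Bt * √(n : ℝ) := mul_nonneg hBt.le (Real.sqrt_nonneg _)
  have em : (skS n K m b w).m = m := rfl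
  have hmlc : m l ≤ m c := hS.m_mono hlc.le (show c ≤ K + 1 by omega)
  have hmpl : m p0 ≤ m l := hS.m_mono hl1 (show l ≤ K + 1 by omega)
  have hroot : Bt * √n * (m l * √(ϑ / n)) ≤ Bt * √n * (m c * √(ϑ / n)) :=
    mul_le_mul_of_nonneg_left (mul_le_mul_of_nonneg_right hmlc (Real.sqrt_nonneg _)) hB0
  have hm0 : 0 < m 1 := hm.pos
  have hζ' : 0 ≤ w 1 * χ1 * (2 - Bt * √n * χq) - Bt * √n * (m l * √(ϑ / n)) := by linarith
  have hζ1' : ζ ≤ (w 1 * χ1 * (2 - Bt * √n * χq) - Bt * √n * (m l * √(ϑ / n))) ^ 2 /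
      (7 * (1 + m 1 * w 1 ^ 2)) := by
    refine hζ1.trans (div_le_div_of_nonneg_right ?_ (by positivity))
    exact pow_le_pow_left₀ hζ (by linarith) 2
  have h := lrowV F (fun p _ _ => zs_inj hK p) hw' hG
    (bns_sk (w := w) hK hm (show 1 ≤ l by omega) hlK hb hBt hBl) (Or.inl rfl) Pl Pl1 hg1
    (show g ≤ l by omega) (show l < q by omega) (show q ≤ (skS n K m b w).K from hq) hπ
    (show π ≤ (skS n K m b w).p l from hp l hl1 (by omega)) (hγ l hl1 (by omega))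
    (hγ (l + 1) (by omega) (by omega)) hpv hThl hϑg hD hD1
    ((entL_sk (n := n) hm b w hlK fun i hi => hM i (by omega)).trans (hE l hl1 hlc)) hχ1 hχq
    hζ' hζ1'
  rw [em] at h
  refine ⟨l, hl1, hlc, ?_⟩
  have r0 : 0 ≤ (skS n K m b w).Rl (spn n) l := F.Rl_nonneg hlK
  have r1 : 0 ≤ (skS n K m b w).Rl (spn n) (q - 1) := F.Rl_nonneg (show q - 1 ≤ K by omega)
  have h1 : Bt * √n * ((2 * m q - m l) * (skS n K m b w).Rl (spn n) (q - 1) +
      (m g - m 1) * √ϑg) * (skS n K m b w).Rl (spn n) l ≤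
      Bt * √n * ((2 * m q - m p0) * (skS n K m b w).Rl (spn n) (q - 1) +
      (m g - m 1) * √ϑg) * (skS n K m b w).Rl (spn n) l := by
    refine mul_le_mul_of_nonneg_right (mul_le_mul_of_nonneg_left ?_ hB0) r0
    have := mul_le_mul_of_nonneg_right (show 2 * m q - m l ≤ 2 * m q - m p0 by linarith) r1
    linarith
  have h2 : Bt * √n * ((m l - m g) * ϑ) ≤ Bt * √n * ((m c - m g) * ϑ) :=
    mul_le_mul_of_nonneg_left (mul_le_mul_of_nonneg_right (by linarith) hϑ0) hB0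
  have e1 : ∀ x y z t : ℝ, Bt * √n * (x + y + z + t) =
      Bt * √n * x + Bt * √n * y + Bt * √n * z + Bt * √n * t := fun x y z t => by ring
  unfold errV
  rw [e1] at h ⊢
  linarith

/-- **The L-side inside the second part, raw numbers.** -/
theorem lsideV_num (hn : 0 < n) (hK : 0 < K) (hm : Em K m) (hb : 0 ≤ b 1) {g p0 c q : ℕ}
    (hg1 : 1 ≤ g) (hgp : g ≤ p0) (hpc : p0 < c) (hcq : c < q) (hq : q ≤ K) (hw1 : 0 < w 1)
    (hw : ∀ p, p0 ≤ p → p ≤ c + 1 → 0 < w p) (hbz : ∀ j, p0 < j → j ≤ c → b j = 0) {Bt : ℝ}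
    (hBt : 0 < Bt) (hB : ∑ j ∈ Finset.Icc 1 p0, b j ^ 2 = Bt ^ 2) {π γ ϑ ϑg : ℝ} (hπ : 0 < π)
    (hp : ∀ l, p0 ≤ l → l ≤ c → π ≤ m (l + 1) - m l)
    (hγ : ∀ l, p0 ≤ l → l ≤ c + 1 → gg (skS n K m b w) (spn n) (zs hK) w l l ≤ γ)
    (hϑ : Th (skS n K m b w) (spn n) c ≤ ϑ) (hϑg : Th (skS n K m b w) (spn n) (g - 1) ≤ ϑg)
    {D0 E χ1 χq ζ e : ℝ} {M : ℕ → ℝ} (hD : 0 < D0) (hD1 : D0 ≤ 1) (hM : ∀ i < c, m (i + 1) < M i)
    (hE : ∀ l, p0 ≤ l → l < c → eSKL n K m b w M l ≤ E)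
    (hχ1 : χ1 = 1 - ∑ i ∈ Finset.Ico 1 (K + 1), (m (i + 1) - m i) *
      (skS n K m b w).Rl (spn n) i)
    (hχq : χq = 1 - ∑ i ∈ Finset.Ico q (K + 1), (m (i + 1) - m i) *
      (skS n K m b w).Rl (spn n) i)
    (hζ0 : 0 < ζ) (hζ : 0 ≤ w 1 * χ1 * (2 - Bt * √n * χq) - Bt * √n * (m c * √(ϑ / n)))
    (hζ1 : ζ ≤ (w 1 * χ1 * (2 - Bt * √n * χq) - Bt * √n * (m c * √(ϑ / n))) ^ 2 /
      (7 * (1 + m 1 * w 1 ^ 2)))
    (he0 : 0 ≤ e) (he : errV n m g p0 c q Bt π γ ϑ ϑg D0 E ≤ e) (heζ : 2 * e ≤ ζ) :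
    2 * (Bt * √n * χq - 1) ≤ (1 + 2 * e / ζ) * (Bt * √n * ((2 * m q - m p0) *
      (skS n K m b w).Rl (spn n) (q - 1) + (m g - m 1) * √ϑg)) ∧
    (skS n K m b w).Rl (spn n) (q - 1) ^ 2 ≤ Th (skS n K m b w) (spn n) (q - 1) ∧
    0 ≤ (skS n K m b w).Rl (spn n) (q - 1) := by
  obtain ⟨l, hl1, hlc, h⟩ := lsideV_sk hn hK hm hb hg1 hgp hpc hcq hq hw1 hw hbz hBt hB hπ hp hγ hϑ
    hϑg hD hD1 hM hE hχ1 hχq hζ hζ1
  set S := skS n K m b w with hSd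
  set P : ℕ → Prop := fun l => p0 ≤ l ∧ l ≤ c + 1 with hPd
  have hP1 : ∀ p, P p → 1 ≤ p := fun p h => by
    have := h.1
    omega
  have F := fldP_sk (P := P) hn hK hm b w hP1
  have hS : S.Reg := F.hreg
  have hρ0 : 0 ≤ S.Rl (spn n) l := F.Rl_nonneg (show l ≤ K by omega)
  have r1 : 0 ≤ S.Rl (spn n) (q - 1) := F.Rl_nonneg (show q - 1 ≤ K by omega)
  refine ⟨?_, Rl_sq_le F (show q - 1 ≤ K by omega), r1⟩
  have hB0 : 0 ≤ Bt * √(n : ℝ) := mul_nonneg hBt.le (Real.sqrt_nonneg _)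
  have hmq : m p0 ≤ m q := hS.m_mono (by omega) (show q ≤ K + 1 by omega)
  have hm1p : m 1 ≤ m p0 := hS.m_mono (by omega) (show p0 ≤ K + 1 by omega)
  have hmg : m 1 ≤ m g := hS.m_mono (by omega) (show g ≤ K + 1 by omega)
  have hm0 : 0 < m 1 := hm.pos
  set A := Bt * √(n : ℝ) * ((2 * m q - m p0) * S.Rl (spn n) (q - 1) + (m g - m 1) * √ϑg) with hA
  have hA0 : 0 ≤ A := mul_nonneg hB0 (add_nonneg (mul_nonneg (by linarith) r1)
    (mul_nonneg (by linarith) (Real.sqrt_nonneg _)))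
  set ρ := S.Rl (spn n) l with hρ
  by_cases hχ : Bt * √(n : ℝ) * χq - 1 ≤ 0
  · have : 0 ≤ 1 + 2 * e / ζ := by positivity
    have h2 := mul_nonneg this hA0
    linarith
  · push Not at hχ
    have h2 : 0 ≤ 2 * (Bt * √(n : ℝ) * χq - 1) * ρ := by positivity
    have h3 : ζ / 2 ≤ A * ρ := by linarith
    have hρ1 : 0 < ρ := by
      rcases eq_or_lt_of_le hρ0 with h0 | h0
      · rw [← h0, mul_zero] at h3
        linarith
      · exact h0
    have h4 : e ≤ A * ρ * (2 * e / ζ) := by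
      have h5 := mul_le_mul_of_nonneg_right h3 (show 0 ≤ 2 * e / ζ by positivity)
      have e2 : ζ / 2 * (2 * e / ζ) = e := by field_simp
      rwa [e2] at h5
    have h5 : 2 * (Bt * √(n : ℝ) * χq - 1) * ρ ≤ ((1 + 2 * e / ζ) * A) * ρ := by
      have e3 : ((1 + 2 * e / ζ) * A) * ρ = A * ρ + A * ρ * (2 * e / ζ) := by ring
      rw [e3]
      linarith
    exact le_of_mul_le_mul_right h5 hρ1

end sk

end Vale.Agent.P146.H498.MRow
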