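import Vale.Agent.P146.H498.LRow

/-!
P146, lower half (helper498): the formulas of `LRow1`, `LRow2` for couplings at any level `j0`
(the field is at the level one).
-/

set_option linter.all false

open MeasureTheory ProbabilityTheory Finset Matrix

namespace Vale.Agent.P146.H498.MRow

open Vale.Agent.P157.Lv Vale.Agent.P157.Lv.Sy
open Vale.Agent.P146.H498.Edge (W0 W0_bil nu)
open Vale.Agent.P146.H498.Row (pd_Tw ibp_w sum_p E3 E4 Eh tau eg_mg' dep_mg' eg_C dep_mul E3_comm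
  E4_comm E4_eq sum_E3 tau_eq sum_pair_eq dep_coord Fl1 sum_sq sum_Eh ex_hmg gg dd hh)

variable {ι X : Type} [Fintype ι] [DecidableEq ι] [Fintype X] [DecidableEq X] [Nonempty X]
  {S : Sy ι X} {D : ι → (ι → ℝ) → X → ℝ} {N : ℕ} {φ : X → Fin N → ℝ} {zc : ℕ → Fin N → ι}
  {s : ℕ → ℝ} {zb : Pair N → ι} {cb : ℝ} {l k j0 : ℕ}

/-- The system contains at the level `j0` the couplings `cb ∑_e z_e φ_i(x) φ_j(x)` of spins. -/
structure Bnj (S : Sy ι X) (D : ι → (ι → ℝ) → X → ℝ) (φ : X → Fin N → ℝ) (zc : ℕ → Fin N → ι)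
    (zb : Pair N → ι) (cb : ℝ) (j0 : ℕ) : Prop where
  inj : Function.Injective zb
  lev : ∀ e, S.lev (zb e) = j0
  D : ∀ e z x, D (zb e) z x = cb * (φ x e.1.1 * φ x e.1.2)
  spin : ∀ x i, φ x i * φ x i = 1
  ne : ∀ i e, zc 1 i ≠ zb e
  injc : Function.Injective (zc 1)
  j1 : 1 ≤ j0

section ibp

variable (hR : S.RegD D) (B : Bnj S D φ zc zb cb j0)

include hR B

/-- the derivative of `mg l` in a coupling -/
lemma pd_mgb (hl1 : j0 ≤ l) (hl : l ≤ S.K) (e : Pair N) (a : Fin N) :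
    PD (zb e) (S.mg φ l a) (fun z => cb * (S.T l (fun _ x => φ x a * (φ x e.1.1 * φ x e.1.2)) z -
      ∑ k ∈ Finset.Ico (l + 1) (S.K + 1), S.p k *
        S.T l (fun z _ => S.mg φ k a z * S.T k (fun _ x => φ x e.1.1 * φ x e.1.2) z) z -
      S.m (l + 1) * (S.mg φ l a z * S.T l (fun _ x => φ x e.1.1 * φ x e.1.2) z))) :=
  pd_Tw hR hl (by rw [B.lev]; exact hl1) (w := fun x => φ x e.1.1 * φ x e.1.2) (B.D e)
    (fun x => φ x a)

lemma pd_mg1 (hl1 : j0 ≤ l) (hl : l ≤ S.K) (e : Pair N) :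
    PD (zb e) (S.mg φ l e.1.1) (fun z => cb * (S.mg φ l e.1.2 z -
      ∑ k ∈ Finset.Ico (l + 1) (S.K + 1), S.p k *
        S.T l (fun z _ => S.mg φ k e.1.1 z * S.T k (fun _ x => φ x e.1.1 * φ x e.1.2) z) z -
      S.m (l + 1) * (S.mg φ l e.1.1 z * S.T l (fun _ x => φ x e.1.1 * φ x e.1.2) z))) := by
  refine (pd_mgb hR B hl1 hl e e.1.1).congr fun z => ?_
  have h : (fun (_ : ι → ℝ) x => φ x e.1.1 * (φ x e.1.1 * φ x e.1.2)) =
      fun _ x => φ x e.1.2 := by
    funext _ x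
    rw [← mul_assoc, B.spin, one_mul]
  rw [h]
  rfl

lemma pd_mg2 (hl1 : j0 ≤ l) (hl : l ≤ S.K) (e : Pair N) :
    PD (zb e) (S.mg φ l e.1.2) (fun z => cb * (S.mg φ l e.1.1 z -
      ∑ k ∈ Finset.Ico (l + 1) (S.K + 1), S.p k *
        S.T l (fun z _ => S.mg φ k e.1.2 z * S.T k (fun _ x => φ x e.1.1 * φ x e.1.2) z) z -
      S.m (l + 1) * (S.mg φ l e.1.2 z * S.T l (fun _ x => φ x e.1.1 * φ x e.1.2) z))) := by
  refine (pd_mgb hR B hl1 hl e e.1.2).congr fun z => ?_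
  have h : (fun (_ : ι → ℝ) x => φ x e.1.2 * (φ x e.1.1 * φ x e.1.2)) =
      fun _ x => φ x e.1.1 := by
    funext _ x
    rw [mul_comm (φ x e.1.1), ← mul_assoc, B.spin, one_mul]
  rw [h]
  rfl

/-- for a function `F` of the levels at most `l` -/
lemma Ex_F_dT (hl : l ≤ S.K) {F : (ι → ℝ) → ℝ} (hF : Dep S.lev l F) (eF : EG F)
    (hk1 : l ≤ k) (hk : k ≤ S.K) (a i j : Fin N) :
    S.Ex (fun z _ => F z * S.T l (fun z _ => S.mg φ k a z * S.T k (fun _ x => φ x i * φ x j) z) z) =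
      S.Ex (fun z x => F z * S.mg φ k a z * (φ x i * φ x j)) := by
  have hS := hR.toReg
  have ek := eg_mg' (φ := φ) hS hk a
  have eC := eg_C (φ := φ) hS hk i j
  rw [hS.Ex_mul_T hl hF eF (Nh.fst (ek.mul eC))]
  have h2 := hS.Ex_mul_T hk (φ := fun z => F z * S.mg φ k a z)
    (dep_mul (hF.mono hk1) (dep_mg' S φ k a)) (eF.mul ek) (Nh.snd fun x => φ x i * φ x j)
  rw [← h2]
  congr 1
  funext z _
  ring

/-- **first formula**: `E z_e mg_l,i mg_l,j` -/
theorem ibp_DD (hl1 : j0 ≤ l) (hl : l ≤ S.K) (e : Pair N) :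
    S.Ex (fun z _ => z (zb e) * (S.mg φ l e.1.1 z * S.mg φ l e.1.2 z)) =
      cb * (S.Ex (fun z _ => S.mg φ l e.1.1 z ^ 2) + S.Ex (fun z _ => S.mg φ l e.1.2 z ^ 2) -
        ∑ k ∈ Finset.Ico (l + 1) (S.K + 1), S.p k *
          (E3 S φ l k e.1.1 e.1.2 + E3 S φ l k e.1.2 e.1.1) -
        (2 * S.m (l + 1) - 1) * E3 S φ l l e.1.1 e.1.2 -
        ∑ k ∈ Finset.Ico j0 (S.K + 1), S.p k * E4 S φ k l e.1.1 e.1.2) := by
  have hS := hR.toReg
  obtain ⟨i, hi⟩ : ∃ i, i = e.1.1 := ⟨_, rfl⟩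
  obtain ⟨j, hj⟩ : ∃ j, j = e.1.2 := ⟨_, rfl⟩
  have h1 := pd_mg1 hR B hl1 hl e
  have h2 := pd_mg2 hR B hl1 hl e
  rw [← hi, ← hj] at h1 h2 ⊢
  have ei := eg_mg' (φ := φ) hS hl i
  have ej := eg_mg' (φ := φ) hS hl j
  have di := dep_mg' S φ l i
  have dj := dep_mg' S φ l j
  have eC : EG (S.T l (fun _ x => φ x i * φ x j)) := eg_C hS hl i j
  have hkK : ∀ k ∈ Finset.Ico (l + 1) (S.K + 1), k ≤ S.K := fun k hk => by
    rw [Finset.mem_Ico] at hk; omega
  have hlk : ∀ k ∈ Finset.Ico (l + 1) (S.K + 1), l ≤ k := fun k hk => by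
    rw [Finset.mem_Ico] at hk; omega
  have eT : ∀ k ∈ Finset.Ico (l + 1) (S.K + 1), ∀ a,
      EG (S.T l (fun z _ => S.mg φ k a z * S.T k (fun _ x => φ x i * φ x j) z)) := fun k hk a =>
    hS.eg_T hl (Nh.fst ((eg_mg' hS (hkK k hk) a).mul (eg_C hS (hkK k hk) i j)))
  set d1 : (ι → ℝ) → ℝ := fun z => cb * (S.mg φ l j z -
      ∑ k ∈ Finset.Ico (l + 1) (S.K + 1), S.p k *
        S.T l (fun z _ => S.mg φ k i z * S.T k (fun _ x => φ x i * φ x j) z) z -
      S.m (l + 1) * (S.mg φ l i z * S.T l (fun _ x => φ x i * φ x j) z)) with hd1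
  set d2 : (ι → ℝ) → ℝ := fun z => cb * (S.mg φ l i z -
      ∑ k ∈ Finset.Ico (l + 1) (S.K + 1), S.p k *
        S.T l (fun z _ => S.mg φ k j z * S.T k (fun _ x => φ x i * φ x j) z) z -
      S.m (l + 1) * (S.mg φ l j z * S.T l (fun _ x => φ x i * φ x j) z)) with hd2
  have ed1 : EG d1 := ((ej.sub (EG.sum _ fun k hk => (eT k hk i).const_mul _)).sub
    ((ei.mul eC).const_mul _)).const_mul _
  have ed2 : EG d2 := ((ei.sub (EG.sum _ fun k hk => (eT k hk j).const_mul _)).sub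
    ((ej.mul eC).const_mul _)).const_mul _
  have hw : ∀ z x, D (zb e) z x = cb * (φ x i * φ x j) := by
    intro z x
    rw [hi, hj]
    exact B.D e z x
  have h3 := ibp_w hR (e := zb e) (w := fun x => φ x i * φ x j) hw (h1.mul h2) (ei.mul ej)
    ((ed1.mul ej).add (ei.mul ed2))
  rw [B.lev] at h3
  rw [h3]
  -- the derivative terms
  have nS : ∀ a, Nh (fun (z : ι → ℝ) (_ : X) => ∑ k ∈ Finset.Ico (l + 1) (S.K + 1), S.p k *
      (S.mg φ l a z * S.T l (fun z _ => S.mg φ k a z * S.T k (fun _ x => φ x i * φ x j) z) z)) :=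
    fun a => Nh.sum _ fun k hk => Nh.fst (((eg_mg' hS hl a).mul (eT k hk a)).const_mul _)
  have n1 : ∀ k ∈ Finset.Ico (l + 1) (S.K + 1), ∀ a b, Nh (X := X) (fun (z : ι → ℝ) (_ : X) =>
      S.p k * (S.mg φ l a z * S.T l (fun z _ => S.mg φ k b z *
        S.T k (fun _ x => φ x i * φ x j) z) z)) := fun k hk a b =>
    Nh.fst (((eg_mg' hS hl a).mul (eT k hk b)).const_mul _)
  have e1 : S.Ex (fun z _ => d1 z * S.mg φ l j z) = cb * (S.Ex (fun z _ => S.mg φ l j z ^ 2) -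
      ∑ k ∈ Finset.Ico (l + 1) (S.K + 1), S.p k * E3 S φ l k j i -
      S.m (l + 1) * E3 S φ l l i j) := by
    have e0 : (fun (z : ι → ℝ) (_ : X) => d1 z * S.mg φ l j z) = fun z _ => cb *
        (S.mg φ l j z ^ 2 - ∑ k ∈ Finset.Ico (l + 1) (S.K + 1), S.p k * (S.mg φ l j z *
          S.T l (fun z _ => S.mg φ k i z * S.T k (fun _ x => φ x i * φ x j) z) z) -
        S.m (l + 1) * ((S.mg φ l i z * S.mg φ l j z) * S.T l (fun _ x => φ x i * φ x j) z)) := by
      funext z _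
      simp only [hd1]
      have e2 : ∑ k ∈ Finset.Ico (l + 1) (S.K + 1), S.p k * (S.mg φ l j z *
          S.T l (fun z _ => S.mg φ k i z * S.T k (fun _ x => φ x i * φ x j) z) z) =
          (∑ k ∈ Finset.Ico (l + 1) (S.K + 1), S.p k *
            S.T l (fun z _ => S.mg φ k i z * S.T k (fun _ x => φ x i * φ x j) z) z) *
            S.mg φ l j z := by
        rw [Finset.sum_mul]
        exact Finset.sum_congr rfl fun k _ => by ring
      rw [e2]
      ring
    rw [e0, Ex_const_mul, hS.Ex_sub (Nh.sub (Nh.fst (ej.pow 2)) (Nh.sum _ fun k hk => n1 k hk j i))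
      (Nh.fst (((ei.mul ej).mul eC).const_mul _)),
      hS.Ex_sub (Nh.fst (ej.pow 2)) (Nh.sum _ fun k hk => n1 k hk j i),
      hS.Ex_sum _ fun k hk => n1 k hk j i, Ex_const_mul]
    congr 2
    · congr 1
      refine Finset.sum_congr rfl fun k hk => ?_
      rw [Ex_const_mul, Ex_F_dT hR B hl dj ej (hlk k hk) (hkK k hk) i i j]
      congr 1
      unfold E3
      congr 1
      funext z x
      ring
    · congr 1
      exact hS.Ex_mul_T hl (φ := fun z => S.mg φ l i z * S.mg φ l j z) (dep_mul di dj)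
        (ei.mul ej) (Nh.snd fun x => φ x i * φ x j)
  have e2 : S.Ex (fun z _ => S.mg φ l i z * d2 z) = cb * (S.Ex (fun z _ => S.mg φ l i z ^ 2) -
      ∑ k ∈ Finset.Ico (l + 1) (S.K + 1), S.p k * E3 S φ l k i j -
      S.m (l + 1) * E3 S φ l l i j) := by
    have e0 : (fun (z : ι → ℝ) (_ : X) => S.mg φ l i z * d2 z) = fun z _ => cb *
        (S.mg φ l i z ^ 2 - ∑ k ∈ Finset.Ico (l + 1) (S.K + 1), S.p k * (S.mg φ l i z *
          S.T l (fun z _ => S.mg φ k j z * S.T k (fun _ x => φ x i * φ x j) z) z) -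
        S.m (l + 1) * ((S.mg φ l i z * S.mg φ l j z) * S.T l (fun _ x => φ x i * φ x j) z)) := by
      funext z _
      simp only [hd2]
      have e2 : ∑ k ∈ Finset.Ico (l + 1) (S.K + 1), S.p k * (S.mg φ l i z *
          S.T l (fun z _ => S.mg φ k j z * S.T k (fun _ x => φ x i * φ x j) z) z) =
          S.mg φ l i z * (∑ k ∈ Finset.Ico (l + 1) (S.K + 1), S.p k *
            S.T l (fun z _ => S.mg φ k j z * S.T k (fun _ x => φ x i * φ x j) z) z) := by
        rw [Finset.mul_sum]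
        exact Finset.sum_congr rfl fun k _ => by ring
      rw [e2]
      ring
    rw [e0, Ex_const_mul, hS.Ex_sub (Nh.sub (Nh.fst (ei.pow 2)) (Nh.sum _ fun k hk => n1 k hk i j))
      (Nh.fst (((ei.mul ej).mul eC).const_mul _)),
      hS.Ex_sub (Nh.fst (ei.pow 2)) (Nh.sum _ fun k hk => n1 k hk i j),
      hS.Ex_sum _ fun k hk => n1 k hk i j, Ex_const_mul]
    congr 2
    · congr 1
      refine Finset.sum_congr rfl fun k hk => ?_
      rw [Ex_const_mul, Ex_F_dT hR B hl di ei (hlk k hk) (hkK k hk) j i j]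
      rfl
    · congr 1
      exact hS.Ex_mul_T hl (φ := fun z => S.mg φ l i z * S.mg φ l j z) (dep_mul di dj)
        (ei.mul ej) (Nh.snd fun x => φ x i * φ x j)
  have e3 : S.Ex (fun z _ => d1 z * S.mg φ l j z + S.mg φ l i z * d2 z) =
      S.Ex (fun z _ => d1 z * S.mg φ l j z) + S.Ex (fun z _ => S.mg φ l i z * d2 z) :=
    hS.Ex_add (Nh.fst (ed1.mul ej)) (Nh.fst (ei.mul ed2))
  rw [e3, e1, e2]
  have e5 : ∑ k ∈ Finset.Ico (l + 1) (S.K + 1), S.p k * (E3 S φ l k i j + E3 S φ l k j i) =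
      ∑ k ∈ Finset.Ico (l + 1) (S.K + 1), S.p k * E3 S φ l k i j +
        ∑ k ∈ Finset.Ico (l + 1) (S.K + 1), S.p k * E3 S φ l k j i := by
    rw [← Finset.sum_add_distrib]
    exact Finset.sum_congr rfl fun k _ => by ring
  rw [e5]
  have e6 : S.Ex (fun z x => S.mg φ l i z * S.mg φ l j z * (φ x i * φ x j)) =
    E3 S φ l l i j := rfl
  have e7 : ∀ k, S.Ex (fun z _ => S.mg φ l i z * S.mg φ l j z *
      S.T k (fun _ x => φ x i * φ x j) z) = E4 S φ k l i j := fun k => rfl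
  simp only [e6, e7]
  ring

end ibp

section hd

variable (F : Fl1 S D φ zc s) (B : Bnj S D φ zc zb cb j0)

include F B

/-- `E z_e h_a mg_l,b` for a pair `e = {a, b}` -/
theorem ibp_hD (hl1 : j0 ≤ l) (hl : l ≤ S.K) (e : Pair N) {a b : Fin N}
    (hab : ∀ x, φ x e.1.1 * φ x e.1.2 = φ x a * φ x b) :
    S.Ex (fun z _ => z (zb e) * (z (zc 1 a) * S.mg φ l b z)) =
      cb * (S.Ex (fun z x => z (zc 1 a) * φ x a) -
        ∑ k ∈ Finset.Ico j0 (S.K + 1), S.p k * Eh S φ zc k a b) := by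
  have hR := F.reg
  have hS := F.reg.toReg
  have hw : ∀ z x, D (zb e) z x = cb * (φ x a * φ x b) := by
    intro z x
    rw [B.D e z x, hab]
  have hlev : S.lev (zc 1 a) = 1 := F.lev a
  have h1 := pd_Tw hR hl (e := zb e) (by rw [B.lev]; exact hl1) hw (fun x => φ x b)
  have hb : (fun (_ : ι → ℝ) x => φ x b * (φ x a * φ x b)) = fun _ x => φ x a := by
    funext _ x
    rw [mul_comm (φ x a), ← mul_assoc, B.spin, one_mul]
  rw [hb] at h1
  have hz : PD (zb e) (fun z : ι → ℝ => z (zc 1 a)) (fun _ => 0) := by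
    refine (PD.coord (zc 1 a)).congr fun z => ?_
    rw [if_neg (B.ne a e)]
  have ez : EG (fun z : ι → ℝ => z (zc 1 a)) := EG.coord _
  have eb := eg_mg' (φ := φ) hS hl b
  have ea := eg_mg' (φ := φ) hS hl a
  have hkK : ∀ k ∈ Finset.Ico (l + 1) (S.K + 1), k ≤ S.K := fun k hk => by
    rw [Finset.mem_Ico] at hk; omega
  have hlk : ∀ k ∈ Finset.Ico (l + 1) (S.K + 1), l ≤ k := fun k hk => by
    rw [Finset.mem_Ico] at hk; omega
  have eC : ∀ k ≤ S.K, EG (S.T k (fun _ x => φ x a * φ x b)) := fun k hk => eg_C hS hk a b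
  have eT : ∀ k ∈ Finset.Ico (l + 1) (S.K + 1),
      EG (S.T l (fun z _ => S.mg φ k b z * S.T k (fun _ x => φ x a * φ x b) z)) := fun k hk =>
    hS.eg_T hl (Nh.fst ((eg_mg' hS (hkK k hk) b).mul (eC k (hkK k hk))))
  have dz : ∀ k, 1 ≤ k → Dep S.lev k (fun z : ι → ℝ => z (zc 1 a)) := fun k hk =>
    dep_coord (by rw [hlev]; exact hk)
  set d : (ι → ℝ) → ℝ := fun z => cb * (S.T l (fun _ x => φ x a) z -
      ∑ k ∈ Finset.Ico (l + 1) (S.K + 1), S.p k *
        S.T l (fun z _ => S.T k (fun _ x => φ x b) z * S.T k (fun _ x => φ x a * φ x b) z) z -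
      S.m (l + 1) * (S.T l (fun _ x => φ x b) z * S.T l (fun _ x => φ x a * φ x b) z)) with hd
  have ed : EG d := ((ea.sub (EG.sum _ fun k hk => (eT k hk).const_mul _)).sub
    ((eb.mul (eC l hl)).const_mul _)).const_mul _
  have h2 := ibp_w hR (e := zb e) hw (f := fun z => z (zc 1 a) * S.mg φ l b z)
    (f' := fun z => 0 * S.mg φ l b z + z (zc 1 a) * d z) (hz.mul h1) (ez.mul eb)
    (((EG.const 0).mul eb).add (ez.mul ed))
  rw [B.lev] at h2
  rw [h2]
  -- the derivative term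
  have n1 : ∀ k ∈ Finset.Ico (l + 1) (S.K + 1), Nh (X := X) (fun (z : ι → ℝ) (_ : X) =>
      S.p k * (z (zc 1 a) * S.T l (fun z _ => S.mg φ k b z *
        S.T k (fun _ x => φ x a * φ x b) z) z)) := fun k hk =>
    Nh.fst ((ez.mul (eT k hk)).const_mul _)
  have e1 : S.Ex (fun z _ => 0 * S.mg φ l b z + z (zc 1 a) * d z) =
      cb * (S.Ex (fun z x => z (zc 1 a) * φ x a) -
        ∑ k ∈ Finset.Ico (l + 1) (S.K + 1), S.p k * Eh S φ zc k a b -
        S.m (l + 1) * Eh S φ zc l a b) := by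
    have e0 : (fun (z : ι → ℝ) (_ : X) => 0 * S.mg φ l b z + z (zc 1 a) * d z) = fun z _ => cb *
        (z (zc 1 a) * S.mg φ l a z - ∑ k ∈ Finset.Ico (l + 1) (S.K + 1), S.p k * (z (zc 1 a) *
          S.T l (fun z _ => S.mg φ k b z * S.T k (fun _ x => φ x a * φ x b) z) z) -
        S.m (l + 1) * ((z (zc 1 a) * S.mg φ l b z) * S.T l (fun _ x => φ x a * φ x b) z)) := by
      funext z _
      simp only [hd]
      have e2 : ∑ k ∈ Finset.Ico (l + 1) (S.K + 1), S.p k * (z (zc 1 a) *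
          S.T l (fun z _ => S.mg φ k b z * S.T k (fun _ x => φ x a * φ x b) z) z) =
          z (zc 1 a) * (∑ k ∈ Finset.Ico (l + 1) (S.K + 1), S.p k *
            S.T l (fun z _ => S.mg φ k b z * S.T k (fun _ x => φ x a * φ x b) z) z) := by
        rw [Finset.mul_sum]
        exact Finset.sum_congr rfl fun k _ => by ring
      rw [e2]
      have e3 : ∀ k a z, S.T k (fun _ x => φ x a) z = S.mg φ k a z := fun _ _ _ => rfl
      simp only [e3]
      ring
    rw [e0, Ex_const_mul, hS.Ex_sub (Nh.sub (Nh.fst (ez.mul ea)) (Nh.sum _ fun k hk => n1 k hk))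
      (Nh.fst (((ez.mul eb).mul (eC l hl)).const_mul _)),
      hS.Ex_sub (Nh.fst (ez.mul ea)) (Nh.sum _ fun k hk => n1 k hk),
      hS.Ex_sum _ fun k hk => n1 k hk, Ex_const_mul]
    congr 2
    · congr 1
      · exact hS.Ex_mul_T hl (dz l (B.j1.trans hl1)) ez (Nh.snd fun x => φ x a)
      · refine Finset.sum_congr rfl fun k hk => ?_
        rw [Ex_const_mul, Ex_F_dT hR B hl (dz l (B.j1.trans hl1)) ez (hlk k hk) (hkK k hk) b a b]
        rfl
    · congr 1
      exact hS.Ex_mul_T hl (φ := fun z => z (zc 1 a) * S.mg φ l b z)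
        (dep_mul (dz l (B.j1.trans hl1)) (dep_mg' S φ l b)) (ez.mul eb) (Nh.snd fun x => φ x a * φ x b)
  -- the term of the levels
  have e2 : S.Ex (fun z x => z (zc 1 a) * S.mg φ l b z * (φ x a * φ x b)) =
      Eh S φ zc l a b := rfl
  have e3 : ∀ k, l ≤ k → k ≤ S.K → S.Ex (fun z _ => z (zc 1 a) * S.mg φ l b z *
      S.T k (fun _ x => φ x a * φ x b) z) = Eh S φ zc l a b := by
    intro k hk1 hk2
    exact hS.Ex_mul_T hk2 (φ := fun z => z (zc 1 a) * S.mg φ l b z)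
      ((dep_mul (dz l (B.j1.trans hl1)) (dep_mg' S φ l b)).mono hk1) (ez.mul eb)
      (Nh.snd fun x => φ x a * φ x b)
  have e4 : ∀ k, 1 ≤ k → k < l → S.Ex (fun z _ => z (zc 1 a) * S.mg φ l b z *
      S.T k (fun _ x => φ x a * φ x b) z) = Eh S φ zc k a b := by
    intro k hk1 hk2
    have hkS : k ≤ S.K := hk2.le.trans hl
    have eCk := eC k hkS
    have dCk : Dep S.lev k (fun z => z (zc 1 a) * S.T k (fun _ x => φ x a * φ x b) z) :=
      dep_mul (dz k hk1) (S.dep_T k (fun _ x => φ x a * φ x b))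
    have q1 := hS.Ex_mul_T hl (φ := fun z => z (zc 1 a) * S.T k (fun _ x => φ x a * φ x b) z)
      (dCk.mono hk2.le) (ez.mul eCk) (Nh.snd fun x => φ x b)
    have q2 := hS.Ex_mul_T hkS (φ := fun z => z (zc 1 a) * S.T k (fun _ x => φ x a * φ x b) z)
      dCk (ez.mul eCk) (Nh.snd fun x => φ x b)
    have q3 := hS.Ex_mul_T hkS (φ := fun z => z (zc 1 a) * S.mg φ k b z)
      (dep_mul (dz k hk1) (dep_mg' S φ k b)) (ez.mul (eg_mg' hS hkS b))
      (Nh.snd fun x => φ x a * φ x b)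
    have q4 : S.Ex (fun z _ => z (zc 1 a) * S.mg φ l b z *
        S.T k (fun _ x => φ x a * φ x b) z) = S.Ex (fun z _ => z (zc 1 a) *
          S.T k (fun _ x => φ x a * φ x b) z * S.T l (fun _ x => φ x b) z) := by
      congr 1
      funext z _
      show z (zc 1 a) * S.T l (fun _ x => φ x b) z * _ = _
      ring
    have q5 : S.Ex (fun z _ => z (zc 1 a) * S.T k (fun _ x => φ x a * φ x b) z *
        S.T k (fun _ x => φ x b) z) = S.Ex (fun z _ => z (zc 1 a) * S.mg φ k b z *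
          S.T k (fun _ x => φ x a * φ x b) z) := by
      congr 1
      funext z _
      show _ = z (zc 1 a) * S.T k (fun _ x => φ x b) z * _
      ring
    rw [q4, q1, ← q2, q5, q3]
    rfl
  have e5 : ∑ k ∈ Finset.Ico j0 (S.K + 1), S.p k * S.Ex (fun z _ => z (zc 1 a) * S.mg φ l b z *
      S.T k (fun _ x => φ x a * φ x b) z) =
      ∑ k ∈ Finset.Ico j0 l, S.p k * Eh S φ zc k a b + (1 - S.m l) * Eh S φ zc l a b := by
    rw [← Finset.sum_Ico_consecutive _ hl1 (show l ≤ S.K + 1 by omega)]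
    congr 1
    · refine Finset.sum_congr rfl fun k hk => ?_
      rw [Finset.mem_Ico] at hk
      rw [e4 k (B.j1.trans hk.1) hk.2]
    · have q1 : ∑ k ∈ Finset.Ico l (S.K + 1), S.p k * S.Ex (fun z _ => z (zc 1 a) *
          S.mg φ l b z * S.T k (fun _ x => φ x a * φ x b) z) =
          ∑ k ∈ Finset.Ico l (S.K + 1), S.p k * Eh S φ zc l a b := by
        refine Finset.sum_congr rfl fun k hk => ?_
        rw [Finset.mem_Ico] at hk
        rw [e3 k hk.1 (by omega)]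
      rw [q1, ← Finset.sum_mul, sum_p S (by omega), hS.mK]
  have e6 : ∑ k ∈ Finset.Ico j0 (S.K + 1), S.p k * Eh S φ zc k a b =
      ∑ k ∈ Finset.Ico j0 l, S.p k * Eh S φ zc k a b + (S.p l * Eh S φ zc l a b +
        ∑ k ∈ Finset.Ico (l + 1) (S.K + 1), S.p k * Eh S φ zc k a b) := by
    rw [← Finset.sum_Ico_consecutive _ hl1 (show l ≤ S.K + 1 by omega)]
    congr 1
    rw [Finset.sum_eq_sum_Ico_succ_bot (show l < S.K + 1 by omega)]
  rw [e1, e2, e5, e6]
  have e7 : S.p l = S.m (l + 1) - S.m l := rfl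
  rw [e7]
  ring

/-- the bracket of the row equation at the level `l` -/
noncomputable def brk (S : Sy ι X) (φ : X → Fin N → ℝ) (j0 l : ℕ) : ℝ :=
  2 * S.Rl φ l - 2 * ∑ k ∈ Finset.Ico (l + 1) (S.K + 1), S.p k *
    S.Ex (fun z x => Fld.uu S φ l z x * Fld.uu S φ k z x) -
  (2 * S.m (l + 1) - 1) * S.Ex (fun z x => Fld.uu S φ l z x * Fld.uu S φ l z x) -
  ∑ k ∈ Finset.Ico j0 (S.K + 1), S.p k * tau S φ k l

/-- **`E D W D`** -/
theorem Ex_DWD (hl1 : j0 ≤ l) (hl : l ≤ S.K) :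
    S.Ex (fun z _ => dd S φ l z ⬝ᵥ (W0 N (gg zb z) *ᵥ dd S φ l z)) =
      cb / √N * ((N : ℝ) ^ 2 * brk S φ j0 l - S.m j0 * (N * S.Rl φ l)) := by
  have hR := F.reg
  have hS := F.reg.toReg
  have hN := F.N_pos
  set G : Fin N → Fin N → ℝ := fun i j =>
    S.Ex (fun z _ => S.mg φ l i z ^ 2) + S.Ex (fun z _ => S.mg φ l j z ^ 2) -
        ∑ k ∈ Finset.Ico (l + 1) (S.K + 1), S.p k * (E3 S φ l k i j + E3 S φ l k j i) -
        (2 * S.m (l + 1) - 1) * E3 S φ l l i j -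
        ∑ k ∈ Finset.Ico j0 (S.K + 1), S.p k * E4 S φ k l i j with hG
  have hkK : ∀ k ∈ Finset.Ico (l + 1) (S.K + 1), k ≤ S.K := fun k hk => by
    rw [Finset.mem_Ico] at hk; omega
  have hkK1 : ∀ k ∈ Finset.Ico j0 (S.K + 1), k ≤ S.K := fun k hk => by
    rw [Finset.mem_Ico] at hk; omega
  have hlk : ∀ k ∈ Finset.Ico (l + 1) (S.K + 1), l ≤ k := fun k hk => by
    rw [Finset.mem_Ico] at hk; omega
  have hGs : ∀ i j, G i j = G j i := by
    intro i j
    simp only [hG]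
    rw [E3_comm S φ l i j, add_comm (S.Ex (fun z _ => S.mg φ l i z ^ 2))]
    have e1 : ∀ k, E3 S φ l k i j + E3 S φ l k j i = E3 S φ l k j i + E3 S φ l k i j := fun k =>
      add_comm _ _
    have e2 : ∀ k, E4 S φ k l i j = E4 S φ k l j i := fun k => E4_comm S φ k l i j
    simp only [e1, e2]
  have e1 : S.Ex (fun z _ => dd S φ l z ⬝ᵥ (W0 N (gg zb z) *ᵥ dd S φ l z)) =
      ∑ e : Pair N, 2 / √N * S.Ex (fun z _ => z (zb e) * (S.mg φ l e.1.1 z * S.mg φ l e.1.2 z)) := by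
    have e2 : (fun (z : ι → ℝ) (_ : X) => dd S φ l z ⬝ᵥ (W0 N (gg zb z) *ᵥ dd S φ l z)) =
        fun z _ => ∑ e : Pair N, 2 / √N * (z (zb e) * (S.mg φ l e.1.1 z * S.mg φ l e.1.2 z)) := by
      funext z _
      rw [W0_bil]
      refine Finset.sum_congr rfl fun e _ => ?_
      simp only [dd, gg]
      ring
    rw [e2, hS.Ex_sum _ fun e _ => Nh.fst (((EG.coord (zb e)).mul
      ((eg_mg' hS hl e.1.1).mul (eg_mg' hS hl e.1.2))).const_mul _)]
    exact Finset.sum_congr rfl fun e _ => Ex_const_mul S _ _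
  have e3 : ∀ e : Pair N, 2 / √(N : ℝ) * S.Ex (fun z _ => z (zb e) *
      (S.mg φ l e.1.1 z * S.mg φ l e.1.2 z)) = 2 * cb / √N * G e.1.1 e.1.2 := by
    intro e
    rw [ibp_DD hR B hl1 hl e]
    ring
  rw [e1, Finset.sum_congr rfl fun e _ => e3 e, ← Finset.mul_sum, sum_pair_eq G hGs]
  -- the full sum
  have q1 : ∑ p, ∑ q, G p q = (N : ℝ) ^ 2 * brk S φ j0 l := by
    have r1 : ∀ p, ∑ q, G p q = N * S.Ex (fun z _ => S.mg φ l p z ^ 2) + N * S.Rl φ l -
        ∑ k ∈ Finset.Ico (l + 1) (S.K + 1), S.p k * (∑ q, E3 S φ l k p q + ∑ q, E3 S φ l k q p) -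
        (2 * S.m (l + 1) - 1) * ∑ q, E3 S φ l l p q -
        ∑ k ∈ Finset.Ico j0 (S.K + 1), S.p k * ∑ q, E4 S φ k l p q := by
      intro p
      simp only [hG]
      rw [Finset.sum_sub_distrib, Finset.sum_sub_distrib, Finset.sum_sub_distrib,
        Finset.sum_add_distrib, sum_sq F hl, Finset.sum_const, Finset.card_univ, Fintype.card_fin,
        nsmul_eq_mul, ← Finset.mul_sum, Finset.sum_comm, Finset.sum_comm (s := Finset.univ)
          (t := Finset.Ico j0 (S.K + 1))]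
      congr 1
      · congr 1
        congr 1
        refine Finset.sum_congr rfl fun k _ => ?_
        rw [← Finset.mul_sum, Finset.sum_add_distrib]
      · refine Finset.sum_congr rfl fun k _ => ?_
        rw [← Finset.mul_sum]
    simp only [r1]
    rw [Finset.sum_sub_distrib, Finset.sum_sub_distrib, Finset.sum_sub_distrib,
      Finset.sum_add_distrib, ← Finset.mul_sum, sum_sq F hl, Finset.sum_const, Finset.card_univ,
      Fintype.card_fin, nsmul_eq_mul, ← Finset.mul_sum, Finset.sum_comm,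
      Finset.sum_comm (s := Finset.univ) (t := Finset.Ico j0 (S.K + 1))]
    have r2 : ∀ k ∈ Finset.Ico (l + 1) (S.K + 1), ∑ p, S.p k * (∑ q, E3 S φ l k p q +
        ∑ q, E3 S φ l k q p) = (N : ℝ) ^ 2 * (2 * (S.p k *
          S.Ex (fun z x => Fld.uu S φ l z x * Fld.uu S φ k z x))) := by
      intro k hk
      rw [← Finset.mul_sum, Finset.sum_add_distrib, sum_E3 hS hl (hkK k hk)]
      have r3 : ∑ p, ∑ q, E3 S φ l k q p = ∑ p, ∑ q, E3 S φ l k p q := Finset.sum_comm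
      rw [r3]
      field_simp
      ring
    have r4 : ∀ k ∈ Finset.Ico j0 (S.K + 1), ∑ p, S.p k * ∑ q, E4 S φ k l p q =
        (N : ℝ) ^ 2 * (S.p k * tau S φ k l) := by
      intro k _
      rw [← Finset.mul_sum]
      unfold tau
      field_simp
    rw [Finset.sum_congr rfl r2, Finset.sum_congr rfl r4, ← Finset.mul_sum, ← Finset.mul_sum,
      ← Finset.mul_sum]
    unfold brk
    rw [sum_E3 hS hl hl]
    field_simp
    ring
  have q2 : ∑ p, G p p = S.m j0 * (N * S.Rl φ l) := by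
    have r1 : ∀ p, G p p = S.m j0 * S.Ex (fun z _ => S.mg φ l p z ^ 2) := by
      intro p
      have r2 : ∀ k, l ≤ k → k ≤ S.K → E3 S φ l k p p = S.Ex (fun z _ => S.mg φ l p z ^ 2) := by
        intro k hk1 hk2
        rw [← Fld.Ex_mg_mul hS hk1 hk2 p]
        unfold E3
        congr 1
        funext z x
        rw [B.spin, mul_one]
      have r3 : ∀ k ∈ Finset.Ico j0 (S.K + 1), E4 S φ k l p p =
          S.Ex (fun z _ => S.mg φ l p z ^ 2) := by
        intro k hk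
        unfold E4
        have h1 : (fun (_ : ι → ℝ) x => φ x p * φ x p) = fun _ _ => (1 : ℝ) := by
          funext _ x
          exact B.spin x p
        rw [h1]
        congr 1
        funext z _
        rw [hS.T_const (hkK1 k hk)]
        ring
      simp only [hG]
      have r4 : ∑ k ∈ Finset.Ico (l + 1) (S.K + 1), S.p k * (E3 S φ l k p p + E3 S φ l k p p) =
          (1 - S.m (l + 1)) * (2 * S.Ex (fun z _ => S.mg φ l p z ^ 2)) := by
        rw [← hS.mK, ← sum_p S (show l + 1 ≤ S.K + 1 by omega), Finset.sum_mul]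
        refine Finset.sum_congr rfl fun k hk => ?_
        rw [r2 k (hlk k hk) (hkK k hk)]
        ring
      have r5 : ∑ k ∈ Finset.Ico j0 (S.K + 1), S.p k * E4 S φ k l p p =
          (1 - S.m j0) * S.Ex (fun z _ => S.mg φ l p z ^ 2) := by
        rw [← hS.mK, ← sum_p S (show j0 ≤ S.K + 1 by omega), Finset.sum_mul]
        refine Finset.sum_congr rfl fun k hk => ?_
        rw [r3 k hk]
      rw [r4, r5, r2 l le_rfl hl]
      ring
    simp only [r1]
    rw [← Finset.mul_sum, sum_sq F hl]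
  rw [q1, q2]
  ring

/-- **`E h W D`** -/
theorem Ex_hWD (hl1 : j0 ≤ l) (hl : l ≤ S.K) :
    S.Ex (fun z _ => hh zc z ⬝ᵥ (W0 N (gg zb z) *ᵥ dd S φ l z)) =
      cb / √N * ((N : ℝ) ^ 2 * (S.Ex (hz φ zc 1) - ∑ k ∈ Finset.Ico j0 (S.K + 1), S.p k *
        S.Ex (fun z x => hz φ zc 1 z x * Fld.uu S φ k z x)) -
        S.m j0 * (N * S.Ex (hz φ zc 1))) := by
  have hR := F.reg
  have hS := F.reg.toReg
  have hN := F.N_pos
  have hkK1 : ∀ k ∈ Finset.Ico j0 (S.K + 1), k ≤ S.K := fun k hk => by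
    rw [Finset.mem_Ico] at hk; omega
  set G2 : Fin N → Fin N → ℝ := fun i j => S.Ex (fun z x => z (zc 1 i) * φ x i) -
    ∑ k ∈ Finset.Ico j0 (S.K + 1), S.p k * Eh S φ zc k i j with hG2
  have e1 : S.Ex (fun z _ => hh zc z ⬝ᵥ (W0 N (gg zb z) *ᵥ dd S φ l z)) =
      ∑ e : Pair N, cb / √N * (G2 e.1.1 e.1.2 + G2 e.1.2 e.1.1) := by
    have e2 : (fun (z : ι → ℝ) (_ : X) => hh zc z ⬝ᵥ (W0 N (gg zb z) *ᵥ dd S φ l z)) =
        fun z _ => ∑ e : Pair N, 1 / √N * (z (zb e) * (z (zc 1 e.1.1) * S.mg φ l e.1.2 z) +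
          z (zb e) * (z (zc 1 e.1.2) * S.mg φ l e.1.1 z)) := by
      funext z _
      rw [W0_bil]
      refine Finset.sum_congr rfl fun e _ => ?_
      simp only [dd, gg, hh]
      ring
    have n1 : ∀ (e : Pair N) (a b : Fin N), Nh (X := X) (fun (z : ι → ℝ) (_ : X) =>
        z (zb e) * (z (zc 1 a) * S.mg φ l b z)) := fun e a b =>
      Nh.fst ((EG.coord (zb e)).mul ((EG.coord _).mul (eg_mg' hS hl b)))
    rw [e2, hS.Ex_sum _ fun e _ => Nh.const_mul _ (Nh.add (n1 e e.1.1 e.1.2) (n1 e e.1.2 e.1.1))]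
    refine Finset.sum_congr rfl fun e _ => ?_
    rw [Ex_const_mul, hS.Ex_add (n1 e e.1.1 e.1.2) (n1 e e.1.2 e.1.1),
      ibp_hD F B hl1 hl e (a := e.1.1) (b := e.1.2) (fun x => rfl),
      ibp_hD F B hl1 hl e (a := e.1.2) (b := e.1.1) (fun x => mul_comm _ _)]
    simp only [hG2]
    ring
  rw [e1, ← Finset.mul_sum, sum_pair_eq (fun i j => G2 i j + G2 j i) (fun i j => add_comm _ _)]
  have q0 : ∑ p, ∑ q, (G2 p q + G2 q p) = 2 * ∑ p, ∑ q, G2 p q := by
    simp only [Finset.sum_add_distrib]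
    have : ∑ p, ∑ q, G2 q p = ∑ p, ∑ q, G2 p q := Finset.sum_comm
    rw [this]
    ring
  have q1 : ∑ p, ∑ q, G2 p q = (N : ℝ) ^ 2 * (S.Ex (hz φ zc 1) -
      ∑ k ∈ Finset.Ico j0 (S.K + 1), S.p k *
        S.Ex (fun z x => hz φ zc 1 z x * Fld.uu S φ k z x)) := by
    have hE : S.Ex (hz φ zc 1) = 1 / N * ∑ a, S.Ex (fun z x => z (zc 1 a) * φ x a) := by
      have e : hz φ zc 1 = fun z x => 1 / (N : ℝ) * ∑ a, z (zc 1 a) * φ x a := by
        funext z x
        rfl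
      rw [e, Ex_const_mul, hS.Ex_sum _ fun a _ => Nh.mul (Nh.fst (EG.coord _))
        (Nh.snd fun x => φ x a)]
    have r1 : ∀ p, ∑ q, G2 p q = N * S.Ex (fun z x => z (zc 1 p) * φ x p) -
        ∑ k ∈ Finset.Ico j0 (S.K + 1), S.p k * ∑ q, Eh S φ zc k p q := by
      intro p
      simp only [hG2]
      rw [Finset.sum_sub_distrib, Finset.sum_const, Finset.card_univ, Fintype.card_fin,
        nsmul_eq_mul, Finset.sum_comm]
      congr 1
      exact Finset.sum_congr rfl fun k _ => by rw [← Finset.mul_sum]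
    simp only [r1]
    rw [Finset.sum_sub_distrib, ← Finset.mul_sum, Finset.sum_comm]
    have r2 : ∀ k ∈ Finset.Ico j0 (S.K + 1), ∑ p, S.p k * ∑ q, Eh S φ zc k p q =
        (N : ℝ) ^ 2 * (S.p k * S.Ex (fun z x => hz φ zc 1 z x * Fld.uu S φ k z x)) := by
      intro k hk
      rw [← Finset.mul_sum, sum_Eh F (hkK1 k hk)]
      field_simp
    rw [Finset.sum_congr rfl r2, ← Finset.mul_sum, hE]
    field_simp
  have q2 : ∑ p, (G2 p p + G2 p p) = 2 * (S.m j0 * (N * S.Ex (hz φ zc 1))) := by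
    have hE : S.Ex (hz φ zc 1) = 1 / N * ∑ a, S.Ex (fun z x => z (zc 1 a) * φ x a) := by
      have e : hz φ zc 1 = fun z x => 1 / (N : ℝ) * ∑ a, z (zc 1 a) * φ x a := by
        funext z x
        rfl
      rw [e, Ex_const_mul, hS.Ex_sum _ fun a _ => Nh.mul (Nh.fst (EG.coord _))
        (Nh.snd fun x => φ x a)]
    have r1 : ∀ p, G2 p p + G2 p p = 2 * S.m j0 * S.Ex (fun z x => z (zc 1 p) * φ x p) := by
      intro p
      have r2 : ∀ k ∈ Finset.Ico j0 (S.K + 1), S.p k * Eh S φ zc k p p =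
          S.p k * S.Ex (fun z x => z (zc 1 p) * φ x p) := by
        intro k hk
        congr 1
        rw [Finset.mem_Ico] at hk
        rw [← ex_hmg F (B.j1.trans hk.1) (by omega) p]
        unfold Eh
        congr 1
        funext z x
        rw [B.spin, mul_one]
      simp only [hG2]
      rw [Finset.sum_congr rfl r2, ← Finset.sum_mul, sum_p S (by omega), hS.mK]
      ring
    simp only [r1]
    rw [← Finset.mul_sum, hE]
    field_simp
  rw [q0, q1, q2]
  ring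


end hd

end Vale.Agent.P146.H498.MRow
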