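import Vale.Agent.P146.H498.MRow1
import Vale.Agent.P146.H498.EntL
import Vale.Agent.P146.H529.GMap

/-!
P146, lower half (helper498): **the lower row inequality with the couplings of all the levels
`≤ l`** (visible couplings with several exponents).
-/

set_option linter.all false

open MeasureTheory ProbabilityTheory Finset Matrix

namespace Vale.Agent.P146.H498.MRow

open Vale.Agent.P157.Lv Vale.Agent.P157.Lv.Sy
open Vale.Agent.P146.H498.Edge (W0 W0_bil nu nu_lip nu_nonneg exc_mono spec_row0 nu_meas nu_exp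
  entropy_le exp_sq)
open Vale.Agent.P146.H498.Row (pd_Tw ibp_w sum_p E3 E4 Eh tau tau_eq Fl1 sum_sq gg dd hh eg_mg'
  Ex_hh Ex_hD Ex_DD)
open Vale.Agent.P146.H985 (VL VL_lip VL_dep Ex_eq_VL)

section tilt

variable {ι : Type} [Fintype ι] {n : ℕ} {G : (ι → ℝ) → Pair n → ℝ}

/-- mean of the excess over `2 + D` under a density `e^ℓ` -/
theorem tilt_one (hn : 0 < n) (hGm : Measurable G) (hG : (gI ι).map G = gI (Pair n)) {D : ℝ}
    (hD : 0 < D) {ℓ : (ι → ℝ) → ℝ} (h1 : Integrable (fun z => Real.exp (ℓ z)) (gI ι))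
    (hm : ∫ z, Real.exp (ℓ z) ∂(gI ι) = 1)
    (h2 : Integrable (fun z => Real.exp (ℓ z) * ℓ z) (gI ι)) :
    ∫ z, Real.exp (ℓ z) * max (nu n (G z) - 2 - D) 0 ∂(gI ι) ≤
        (∫ z, Real.exp (ℓ z) * ℓ z ∂(gI ι) + Real.log 3) / (n * D) := by
  have hn' : (0 : ℝ) < n := by exact_mod_cast hn
  have hnu := nu_meas (n := n)
  have hnz : Measurable fun z : ι → ℝ => nu n (G z) := hnu.comp hGm
  have hY : Measurable fun z : ι → ℝ => max (nu n (G z) - 2 - D) 0 := by fun_prop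
  have h3 : ∫⁻ z, ENNReal.ofReal (Real.exp (n * D * max (nu n (G z) - 2 - D) 0))
      ∂(gI ι) ≤ 3 := by
    have h4 := lintegral_map (μ := gI ι) (f := fun g => ENNReal.ofReal
      (Real.exp (n * D * max (nu n g - 2 - D) 0))) (by fun_prop) hGm
    rw [hG] at h4
    rw [← h4]
    exact nu_exp hn hD
  have hi : Integrable (fun z => Real.exp (n * D * max (nu n (G z) - 2 - D) 0))
      (gI ι) := by
    refine ⟨(by fun_prop : Measurable _).aestronglyMeasurable, ?_⟩
    rw [hasFiniteIntegral_iff_ofReal (Filter.Eventually.of_forall fun g => (Real.exp_pos _).le)]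
    exact h3.trans_lt (by norm_num)
  refine (entropy_le (by positivity) (by norm_num) h1 hm h2 hY.aestronglyMeasurable
    (fun z => le_max_right _ _) hi ?_).2
  rw [← ofReal_integral_eq_lintegral_ofReal hi (Filter.Eventually.of_forall fun g =>
    (Real.exp_pos _).le)] at h3
  have h4 : (3 : ENNReal) = ENNReal.ofReal 3 := by norm_num
  rw [h4] at h3
  exact (ENNReal.ofReal_le_ofReal_iff (by norm_num)).1 h3

/-- mean of the square of the excess over `2` under a density `e^ℓ` -/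
theorem tilt_two (hn : 0 < n) (hGm : Measurable G) (hG : (gI ι).map G = gI (Pair n))
    {ℓ : (ι → ℝ) → ℝ} (h1 : Integrable (fun z => Real.exp (ℓ z)) (gI ι))
    (hm : ∫ z, Real.exp (ℓ z) ∂(gI ι) = 1)
    (h2 : Integrable (fun z => Real.exp (ℓ z) * ℓ z) (gI ι)) :
    ∫ z, Real.exp (ℓ z) * max (nu n (G z) - 2) 0 ^ 2 ∂(gI ι) ≤
        (∫ z, Real.exp (ℓ z) * ℓ z ∂(gI ι) + Real.log 5) / (n / 8) := by
  have hn' : (0 : ℝ) < n := by exact_mod_cast hn
  have hnu := nu_meas (n := n)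
  have hnz : Measurable fun z : ι → ℝ => nu n (G z) := hnu.comp hGm
  have hY : Measurable fun z : ι → ℝ => max (nu n (G z) - 2) 0 ^ 2 := by fun_prop
  have h3 : ∫⁻ z, ENNReal.ofReal (Real.exp (n / 8 * max (nu n (G z) - 2) 0 ^ 2))
      ∂(gI ι) ≤ 5 := by
    have h4 := lintegral_map (μ := gI ι) (f := fun g => ENNReal.ofReal
      (Real.exp (n / 8 * max (nu n g - 2) 0 ^ 2))) (by fun_prop) hGm
    rw [hG] at h4
    rw [← h4]
    exact exp_sq hn
  have hi : Integrable (fun z => Real.exp (n / 8 * max (nu n (G z) - 2) 0 ^ 2))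
      (gI ι) := by
    refine ⟨(by fun_prop : Measurable _).aestronglyMeasurable, ?_⟩
    rw [hasFiniteIntegral_iff_ofReal (Filter.Eventually.of_forall fun g => (Real.exp_pos _).le)]
    exact h3.trans_lt (by norm_num)
  refine (entropy_le (by positivity) (by norm_num) h1 hm h2 hY.aestronglyMeasurable
    (fun z => by positivity) hi ?_).2
  rw [← ofReal_integral_eq_lintegral_ofReal hi (Filter.Eventually.of_forall fun g =>
    (Real.exp_pos _).le)] at h3
  have h4 : (5 : ENNReal) = ENNReal.ofReal 5 := by norm_num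
  rw [h4] at h3
  exact (ENNReal.ofReal_le_ofReal_iff (by norm_num)).1 h3

end tilt

variable {ι X : Type} [Fintype ι] [DecidableEq ι] [Fintype X] [DecidableEq X] [Nonempty X]
  {S : Sy ι X} {D : ι → (ι → ℝ) → X → ℝ} {N : ℕ} {φ : X → Fin N → ℝ} {zc : ℕ → Fin N → ι}
  {s : ℕ → ℝ} {zb : ℕ → Pair N → ι} {cb : ℕ → ℝ} {l k : ℕ} {Bt : ℝ}

/-- The system contains the couplings `cb j ∑_e z_{j,e} φ_i φ_k` at the levels `1 ≤ j ≤ l`;
`Bt² = ∑ cb_j²`. -/
structure Bns (S : Sy ι X) (D : ι → (ι → ℝ) → X → ℝ) (φ : X → Fin N → ℝ) (zc : ℕ → Fin N → ι)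
    (zb : ℕ → Pair N → ι) (cb : ℕ → ℝ) (l : ℕ) (Bt : ℝ) : Prop where
  bn : ∀ j, 1 ≤ j → j ≤ l → Bnj S D φ zc (zb j) (cb j) j
  pos : 0 < Bt
  sq : ∑ j ∈ Finset.Icc 1 l, cb j ^ 2 = Bt ^ 2
  l1 : 1 ≤ l
  c0 : 0 ≤ cb 1

/-- the normalised sum of the couplings of the levels `1, …, l` -/
noncomputable def GG (zb : ℕ → Pair N → ι) (cb : ℕ → ℝ) (l : ℕ) (Bt : ℝ) (z : ι → ℝ) :
    Pair N → ℝ := fun e => ∑ j ∈ Finset.Icc 1 l, cb j / Bt * z (zb j e)

lemma GG_meas : Measurable (GG (ι := ι) (N := N) zb cb l Bt) := by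
  unfold GG
  fun_prop

/-- the normalised sum is a standard Gaussian vector -/
theorem GG_map (B : Bns S D φ zc zb cb l Bt) : (gI ι).map (GG zb cb l Bt) = gI (Pair N) := by
  classical
  have h := Vale.Agent.P146.H529.gauss_map (κ := ι) (κ' := Pair N)
    (A := fun e i => ∑ j ∈ Finset.Icc 1 l, if zb j e = i then cb j / Bt else 0) ?_
  · have e1 : GG zb cb l Bt = fun (u : ι → ℝ) (p : Pair N) =>
        ∑ i, (∑ j ∈ Finset.Icc 1 l, if zb j p = i then cb j / Bt else 0) * u i := by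
      funext u p
      unfold GG
      simp_rw [Finset.sum_mul]
      rw [Finset.sum_comm]
      refine Finset.sum_congr rfl fun j _ => ?_
      simp only [ite_mul, zero_mul, Finset.sum_ite_eq, Finset.mem_univ, if_true]
    rw [e1]
    exact h
  · intro p q
    have e1 : ∀ i, (∑ j ∈ Finset.Icc 1 l, if zb j p = i then cb j / Bt else 0) *
        (∑ j ∈ Finset.Icc 1 l, if zb j q = i then cb j / Bt else 0) =
        ∑ j ∈ Finset.Icc 1 l, ∑ j' ∈ Finset.Icc 1 l,
          if zb j p = i then (if zb j' q = i then cb j / Bt * (cb j' / Bt) else 0) else 0 := by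
      intro i
      rw [Finset.sum_mul_sum]
      refine Finset.sum_congr rfl fun j _ => Finset.sum_congr rfl fun j' _ => ?_
      split_ifs <;> ring
    simp only [e1]
    rw [Finset.sum_comm]
    have e2 : ∀ j ∈ Finset.Icc 1 l, ∑ i, ∑ j' ∈ Finset.Icc 1 l,
        (if zb j p = i then (if zb j' q = i then cb j / Bt * (cb j' / Bt) else 0) else 0) =
        if p = q then (cb j / Bt) ^ 2 else 0 := by
      intro j hj
      rw [Finset.mem_Icc] at hj
      rw [Finset.sum_comm]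
      have e3 : ∀ j' ∈ Finset.Icc 1 l, ∑ i, (if zb j p = i then (if zb j' q = i then
          cb j / Bt * (cb j' / Bt) else 0) else 0) =
          if j' = j then (if p = q then (cb j / Bt) ^ 2 else 0) else 0 := by
        intro j' hj'
        rw [Finset.mem_Icc] at hj'
        rw [Finset.sum_ite_eq]
        simp only [Finset.mem_univ, if_true]
        by_cases h1 : j' = j
        · subst h1
          rw [if_pos rfl]
          by_cases h2 : p = q
          · subst h2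
            rw [if_pos rfl, if_pos rfl]
            ring
          · rw [if_neg h2, if_neg]
            intro h3
            exact h2 ((B.bn j' hj'.1 hj'.2).inj h3).symm
        · rw [if_neg h1, if_neg]
          intro h3
          apply h1
          rw [← (B.bn j' hj'.1 hj'.2).lev q, h3, (B.bn j hj.1 hj.2).lev p]
      rw [Finset.sum_congr rfl e3, Finset.sum_ite_eq', if_pos (Finset.mem_Icc.2 hj)]
    rw [Finset.sum_congr rfl e2]
    by_cases h1 : p = q
    · simp only [if_pos h1]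
      simp only [div_pow]
      rw [← Finset.sum_div, B.sq, div_self (pow_ne_zero 2 B.pos.ne')]
    · simp only [if_neg h1, Finset.sum_const_zero]

/-- the norm of the combined coupling matrix is Lipschitz -/
lemma nuG_lip (zb : ℕ → Pair N → ι) (cb : ℕ → ℝ) (l : ℕ) (Bt : ℝ) :
    Lip (fun z : ι → ℝ => nu N (GG zb cb l Bt z)) := by
  obtain ⟨L, hL, h⟩ := nu_lip (n := N)
  refine ⟨L * ∑ j ∈ Finset.Icc 1 l, |cb j / Bt|,
    mul_nonneg hL (Finset.sum_nonneg fun _ _ => abs_nonneg _), fun y y' => (h _ _).trans ?_⟩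
  rw [mul_assoc]
  refine mul_le_mul_of_nonneg_left ?_ hL
  rw [pi_norm_le_iff_of_nonneg (mul_nonneg (Finset.sum_nonneg fun _ _ => abs_nonneg _)
    (norm_nonneg _))]
  intro e
  rw [Pi.sub_apply]
  unfold GG
  rw [← Finset.sum_sub_distrib, Real.norm_eq_abs, Finset.sum_mul]
  refine (Finset.abs_sum_le_sum_abs _ _).trans (Finset.sum_le_sum fun j _ => ?_)
  rw [← mul_sub, abs_mul]
  refine mul_le_mul_of_nonneg_left ?_ (abs_nonneg _)
  exact norm_le_pi_norm (y - y') (zb j e)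

lemma dep_nuG (B : Bns S D φ zc zb cb l Bt) :
    Dep S.lev l (fun z : ι → ℝ => nu N (GG zb cb l Bt z)) := by
  intro z w
  have h : GG zb cb l Bt (mix S.lev l z w) = GG zb cb l Bt z := by
    funext e
    unfold GG
    refine Finset.sum_congr rfl fun j hj => ?_
    rw [Finset.mem_Icc] at hj
    simp only [mix]
    rw [if_pos (by rw [(B.bn j hj.1 hj.2).lev]; exact hj.2)]
  simp only [h]

lemma int_VL (hS : S.Reg) (hl : l ≤ S.K) : ∫ z, Real.exp (VL S l z) ∂(gI ι) = 1 := by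
  have h := Ex_eq_VL (X := X) hS hl (EG.const 1) (fun z w => rfl)
  rw [hS.Ex_const] at h
  simp only [mul_one] at h
  exact h.symm

lemma entL_eq (hS : S.Reg) (hl : l ≤ S.K) :
    entL S l = ∫ z, Real.exp (VL S l z) * VL S l z ∂(gI ι) :=
  Ex_eq_VL hS hl (VL_lip hS hl).eg (VL_dep hS hl)

lemma eg_excG {D0 : ℝ} (zb : ℕ → Pair N → ι) (cb : ℕ → ℝ) (l : ℕ) (Bt : ℝ) :
    EG (fun z : ι → ℝ => max (nu N (GG zb cb l Bt z) - 2 - D0) 0) := by
  have hl := nuG_lip zb cb l Bt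
  have hmeas : Measurable fun z : ι → ℝ => nu N (GG zb cb l Bt z) := hl.eg.meas
  have e1 : EG (fun z : ι → ℝ => nu N (GG zb cb l Bt z) - (2 + D0)) := hl.eg.sub (EG.const (2 + D0))
  refine e1.mono (by fun_prop) fun y => ?_
  rw [abs_of_nonneg (le_max_right _ _)]
  refine max_le ?_ (abs_nonneg _)
  refine (le_of_eq ?_).trans (le_abs_self _)
  ring

lemma eg_excG2 (zb : ℕ → Pair N → ι) (cb : ℕ → ℝ) (l : ℕ) (Bt : ℝ) :
    EG (fun z : ι → ℝ => max (nu N (GG zb cb l Bt z) - 2) 0 ^ 2) := by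
  have hl := nuG_lip zb cb l Bt
  have hmeas : Measurable fun z : ι → ℝ => nu N (GG zb cb l Bt z) := hl.eg.meas
  have e1 : EG (fun z : ι → ℝ => nu N (GG zb cb l Bt z) - 2) := hl.eg.sub (EG.const 2)
  refine EG.pow (e1.mono (by fun_prop) fun y => ?_) 2
  rw [abs_of_nonneg (le_max_right _ _)]
  exact max_le (le_abs_self _) (abs_nonneg _)

section fin

variable (F : Fl1 S D φ zc s) (B : Bns S D φ zc zb cb l Bt) (hlK : l ≤ S.K)

include F B hlK

/-- the excess of the norm over `2 + D₀` -/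
lemma exc_one {D0 : ℝ} (hD : 0 < D0) :
    S.Ex (fun z _ => max (nu N (GG zb cb l Bt z) - 2 - D0) 0) ≤
      (entL S l + Real.log 3) / (N * D0) := by
  have hS := F.reg.toReg
  have eX := eg_excG (D0 := D0) zb cb l Bt
  have dX : Dep S.lev l (fun z : ι → ℝ => max (nu N (GG zb cb l Bt z) - 2 - D0) 0) := by
    intro z w
    have := dep_nuG B z w
    simp only at this ⊢
    rw [this]
  rw [Ex_eq_VL hS hlK eX dX, entL_eq hS hlK]
  exact tilt_one F.N0 GG_meas (GG_map B) hD (ℓ := VL S l)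
    (lc_eg_exp (VL_lip hS hlK)).integrable (int_VL hS hlK)
    ((lc_eg_exp (VL_lip hS hlK)).mul (VL_lip hS hlK).eg).integrable

/-- the square of the excess over `2` -/
lemma exc_two :
    S.Ex (fun z _ => max (nu N (GG zb cb l Bt z) - 2) 0 ^ 2) ≤
      (entL S l + Real.log 5) / (N / 8) := by
  have hS := F.reg.toReg
  have eX := eg_excG2 zb cb l Bt
  have dX : Dep S.lev l (fun z : ι → ℝ => max (nu N (GG zb cb l Bt z) - 2) 0 ^ 2) := by
    intro z w
    have := dep_nuG B z w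
    simp only at this ⊢
    rw [this]
  rw [Ex_eq_VL hS hlK eX dX, entL_eq hS hlK]
  exact tilt_two F.N0 GG_meas (GG_map B) (ℓ := VL S l)
    (lc_eg_exp (VL_lip hS hlK)).integrable (int_VL hS hlK)
    ((lc_eg_exp (VL_lip hS hlK)).mul (VL_lip hS hlK).eg).integrable

/-- **`E D W D`** -/
theorem Ex_DGD :
    S.Ex (fun z _ => dd S φ l z ⬝ᵥ (W0 N (GG zb cb l Bt z) *ᵥ dd S φ l z)) =
      ∑ j ∈ Finset.Icc 1 l, cb j / Bt * (cb j / √N * ((N : ℝ) ^ 2 * brk S φ j l -
        S.m j * (N * S.Rl φ l))) := by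
  have hS := F.reg.toReg
  have e1 : (fun (z : ι → ℝ) (_ : X) => dd S φ l z ⬝ᵥ (W0 N (GG zb cb l Bt z) *ᵥ dd S φ l z)) =
      fun z _ => ∑ j ∈ Finset.Icc 1 l, cb j / Bt *
        (dd S φ l z ⬝ᵥ (W0 N (gg (zb j) z) *ᵥ dd S φ l z)) := by
    funext z _
    simp only [W0_bil]
    simp_rw [Finset.mul_sum]
    rw [Finset.sum_comm]
    refine Finset.sum_congr rfl fun e _ => ?_
    unfold GG gg
    rw [Finset.sum_div, Finset.sum_mul]
    refine Finset.sum_congr rfl fun j _ => ?_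
    ring
  have en : ∀ j ∈ Finset.Icc 1 l, Nh (X := X) (fun z _ => cb j / Bt *
      (dd S φ l z ⬝ᵥ (W0 N (gg (zb j) z) *ᵥ dd S φ l z))) := by
    intro j _
    refine Nh.fst (EG.const_mul _ ?_)
    simp only [W0_bil]
    refine EG.sum _ fun e _ => ?_
    have h1 : EG (fun z : ι → ℝ => 1 / √(N : ℝ) * (z (zb j e) * (S.mg φ l e.1.1 z *
        S.mg φ l e.1.2 z + S.mg φ l e.1.2 z * S.mg φ l e.1.1 z))) :=
      ((EG.coord (zb j e)).mul (((eg_mg' hS hlK e.1.1).mul (eg_mg' hS hlK e.1.2)).add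
        ((eg_mg' hS hlK e.1.2).mul (eg_mg' hS hlK e.1.1)))).const_mul _
    have e2 : (fun z : ι → ℝ => gg (zb j) z e / √(N : ℝ) * (dd S φ l z e.1.1 * dd S φ l z e.1.2 +
        dd S φ l z e.1.2 * dd S φ l z e.1.1)) = fun z : ι → ℝ => 1 / √(N : ℝ) * (z (zb j e) *
        (S.mg φ l e.1.1 z * S.mg φ l e.1.2 z + S.mg φ l e.1.2 z * S.mg φ l e.1.1 z)) := by
      funext z
      unfold gg dd
      ring
    rw [e2]
    exact h1
  rw [e1, hS.Ex_sum _ en]
  refine Finset.sum_congr rfl fun j hj => ?_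
  rw [Finset.mem_Icc] at hj
  rw [Ex_const_mul, Ex_DWD F (B.bn j hj.1 hj.2) hj.2 hlK]

/-- **`E h W D`** -/
theorem Ex_hGD :
    S.Ex (fun z _ => hh zc z ⬝ᵥ (W0 N (GG zb cb l Bt z) *ᵥ dd S φ l z)) =
      ∑ j ∈ Finset.Icc 1 l, cb j / Bt * (cb j / √N * ((N : ℝ) ^ 2 * (S.Ex (hz φ zc 1) -
        ∑ k ∈ Finset.Ico j (S.K + 1), S.p k *
          S.Ex (fun z x => hz φ zc 1 z x * Fld.uu S φ k z x)) -
        S.m j * (N * S.Ex (hz φ zc 1)))) := by
  have hS := F.reg.toReg
  have e1 : (fun (z : ι → ℝ) (_ : X) => hh zc z ⬝ᵥ (W0 N (GG zb cb l Bt z) *ᵥ dd S φ l z)) =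
      fun z _ => ∑ j ∈ Finset.Icc 1 l, cb j / Bt *
        (hh zc z ⬝ᵥ (W0 N (gg (zb j) z) *ᵥ dd S φ l z)) := by
    funext z _
    simp only [W0_bil]
    simp_rw [Finset.mul_sum]
    rw [Finset.sum_comm]
    refine Finset.sum_congr rfl fun e _ => ?_
    unfold GG gg
    rw [Finset.sum_div, Finset.sum_mul]
    refine Finset.sum_congr rfl fun j _ => ?_
    ring
  have en : ∀ j ∈ Finset.Icc 1 l, Nh (X := X) (fun z _ => cb j / Bt *
      (hh zc z ⬝ᵥ (W0 N (gg (zb j) z) *ᵥ dd S φ l z))) := by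
    intro j _
    refine Nh.fst (EG.const_mul _ ?_)
    simp only [W0_bil]
    refine EG.sum _ fun e _ => ?_
    have h1 : EG (fun z : ι → ℝ => 1 / √(N : ℝ) * (z (zb j e) * (z (zc 1 e.1.1) *
        S.mg φ l e.1.2 z + z (zc 1 e.1.2) * S.mg φ l e.1.1 z))) :=
      ((EG.coord (zb j e)).mul (((EG.coord (zc 1 e.1.1)).mul (eg_mg' hS hlK e.1.2)).add
        ((EG.coord (zc 1 e.1.2)).mul (eg_mg' hS hlK e.1.1)))).const_mul _
    have e2 : (fun z : ι → ℝ => gg (zb j) z e / √(N : ℝ) * (hh zc z e.1.1 * dd S φ l z e.1.2 +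
        hh zc z e.1.2 * dd S φ l z e.1.1)) = fun z : ι → ℝ => 1 / √(N : ℝ) * (z (zb j e) *
        (z (zc 1 e.1.1) * S.mg φ l e.1.2 z + z (zc 1 e.1.2) * S.mg φ l e.1.1 z)) := by
      funext z
      unfold gg dd hh
      ring
    rw [e2]
    exact h1
  rw [e1, hS.Ex_sum _ en]
  refine Finset.sum_congr rfl fun j hj => ?_
  rw [Finset.mem_Icc] at hj
  rw [Ex_const_mul, Ex_hWD F (B.bn j hj.1 hj.2) hj.2 hlK]

end fin

end Vale.Agent.P146.H498.MRow
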