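import Vale.Agent.P146.H498.MRow2
import Vale.Agent.P146.H498.LRowSK

/-!
P146, lower half (helper498): the lower row inequality with the couplings of all the levels `≤ l`:
assembly.
-/

set_option linter.all false

open MeasureTheory ProbabilityTheory Finset Matrix

namespace Vale.Agent.P146.H498.MRow

open Vale.Agent.P157.Lv Vale.Agent.P157.Lv.Sy
open Vale.Agent.P157.Lv.Fld (uu nh_uu)
open Vale.Agent.P146.H498.Edge (W0 W0_bil nu nu_lip nu_nonneg exc_mono spec_row0)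
open Vale.Agent.P146.H498.Row (sum_p E3 E4 Eh tau tau_eq Fl1 sum_sq gg dd hh eg_mg'
  Ex_hh Ex_hD Ex_DD nh_hz)

variable {ι X : Type} [Fintype ι] [DecidableEq ι] [Fintype X] [DecidableEq X] [Nonempty X]
  {S : Sy ι X} {D : ι → (ι → ℝ) → X → ℝ} {N : ℕ} {φ : X → Fin N → ℝ} {zc : ℕ → Fin N → ι}
  {s : ℕ → ℝ} {zb : ℕ → Pair N → ι} {cb : ℕ → ℝ} {l k : ℕ} {Bt : ℝ}

/-- the share of the couplings of the levels `≤ k` among those of the levels `≤ l` -/
noncomputable def shr (cb : ℕ → ℝ) (Bt : ℝ) (k : ℕ) : ℝ := ∑ j ∈ Finset.Icc 1 k, cb j ^ 2 / Bt ^ 2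

/-- the bracket with the couplings of all the levels `≤ l` -/
noncomputable def brkT (S : Sy ι X) (φ : X → Fin N → ℝ) (cb : ℕ → ℝ) (Bt : ℝ) (l : ℕ) : ℝ :=
  2 * S.Rl φ l - 2 * ∑ k ∈ Finset.Ico (l + 1) (S.K + 1), S.p k *
    S.Ex (fun z x => uu S φ l z x * uu S φ k z x) -
  (2 * S.m (l + 1) - S.m l) * S.Ex (fun z x => uu S φ l z x * uu S φ l z x) -
  ∑ k ∈ Finset.Ico 1 l, S.p k * (shr cb Bt k * tau S φ k l)

lemma brk_exact (hS : S.Reg) {j : ℕ} (hj : j ≤ l) (hl : l ≤ S.K) :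
    brk S φ j l = 2 * S.Rl φ l - 2 * ∑ k ∈ Finset.Ico (l + 1) (S.K + 1), S.p k *
      S.Ex (fun z x => uu S φ l z x * uu S φ k z x) -
    (2 * S.m (l + 1) - S.m l) * S.Ex (fun z x => uu S φ l z x * uu S φ l z x) -
    ∑ k ∈ Finset.Ico j l, S.p k * tau S φ k l := by
  unfold brk
  rw [← Finset.sum_Ico_consecutive _ hj (show l ≤ S.K + 1 by omega)]
  have h1 : ∑ k ∈ Finset.Ico l (S.K + 1), S.p k * tau S φ k l =
      (1 - S.m l) * S.Ex (fun z x => uu S φ l z x * uu S φ l z x) := by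
    rw [← hS.mK, ← sum_p S (show l ≤ S.K + 1 by omega), Finset.sum_mul]
    refine Finset.sum_congr rfl fun k hk => ?_
    rw [Finset.mem_Ico] at hk
    rw [tau_eq hS hk.1 (by omega)]
  rw [h1]
  ring

/-- exchange of the two sums -/
lemma sum_swap (a x : ℕ → ℝ) (l : ℕ) :
    ∑ j ∈ Finset.Icc 1 l, a j * ∑ k ∈ Finset.Ico j l, x k =
      ∑ k ∈ Finset.Ico 1 l, (∑ j ∈ Finset.Icc 1 k, a j) * x k := by
  simp_rw [Finset.mul_sum, Finset.sum_mul]
  refine Finset.sum_comm' fun j k => ?_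
  simp only [Finset.mem_Icc, Finset.mem_Ico]
  omega

lemma brkT_eq (hS : S.Reg) (B : Bns S D φ zc zb cb l Bt) (hl : l ≤ S.K) :
    ∑ j ∈ Finset.Icc 1 l, cb j ^ 2 / Bt ^ 2 * brk S φ j l = brkT S φ cb Bt l := by
  have h1 : ∑ j ∈ Finset.Icc 1 l, cb j ^ 2 / Bt ^ 2 = 1 := by
    rw [← Finset.sum_div, B.sq, div_self (pow_ne_zero 2 B.pos.ne')]
  set c := 2 * S.Rl φ l - 2 * ∑ k ∈ Finset.Ico (l + 1) (S.K + 1), S.p k *
      S.Ex (fun z x => uu S φ l z x * uu S φ k z x) -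
    (2 * S.m (l + 1) - S.m l) * S.Ex (fun z x => uu S φ l z x * uu S φ l z x) with hc
  have h2 : ∑ j ∈ Finset.Icc 1 l, cb j ^ 2 / Bt ^ 2 * brk S φ j l =
      ∑ j ∈ Finset.Icc 1 l, (cb j ^ 2 / Bt ^ 2 * c - cb j ^ 2 / Bt ^ 2 *
        ∑ k ∈ Finset.Ico j l, S.p k * tau S φ k l) := by
    refine Finset.sum_congr rfl fun j hj => ?_
    rw [Finset.mem_Icc] at hj
    rw [brk_exact hS hj.2 hl]
    ring
  rw [h2, Finset.sum_sub_distrib, ← Finset.sum_mul, h1, one_mul, sum_swap]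
  unfold brkT shr
  rw [← hc]
  congr 1
  refine Finset.sum_congr rfl fun k _ => ?_
  ring

section fin

variable (F : Fl1 S D φ zc s) (B : Bns S D φ zc zb cb l Bt) (hlK : l ≤ S.K)

include F B hlK

/-- the correlation of the field with `u_k` -/
lemma hz_uu_le (hP : S.Ex (fun z x => hz φ zc 1 z x * hz φ zc 1 z x) - S.Ex (hz φ zc 1) ^ 2 ≤
    1 / N) {k : ℕ} (hk : k ≤ S.K) :
    S.Ex (fun z x => hz φ zc 1 z x * uu S φ k z x) ≤ S.Ex (hz φ zc 1) * S.Rl φ k +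
      √(S.Ex (fun z x => uu S φ k z x ^ 2) / N) := by
  have hS := F.reg.toReg
  have hN := F.N_pos
  set a := S.Ex (hz φ zc 1) with ha
  have nz := nh_hz (φ := φ) (zc := zc) F
  have nu' := nh_uu (φ := φ) hS hk
  have e1 : S.Ex (fun z x => hz φ zc 1 z x * uu S φ k z x) = a * S.Rl φ k +
      S.Ex (fun z x => (hz φ zc 1 z x - a) * uu S φ k z x) := by
    rw [← F.Ex_uu hk, ← Ex_const_mul, ← hS.Ex_add (Nh.const_mul _ nu')
      (Nh.mul (Nh.sub nz (Nh.fst (EG.const a))) nu')]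
    congr 1
    funext z x
    ring
  rw [e1]
  refine add_le_add le_rfl (Real.le_sqrt_of_sq_le ?_)
  have h2 := hS.Ex_cs (f := fun z x => hz φ zc 1 z x - a) (g := uu S φ k)
    (Nh.sub nz (Nh.fst (EG.const a))) nu'
  have e2 : S.Ex (fun z x => (hz φ zc 1 z x - a) ^ 2) ≤ 1 / N := by
    have e3 : (fun z x => (hz φ zc 1 z x - a) ^ 2) = fun z x =>
        (hz φ zc 1 z x * hz φ zc 1 z x - 2 * a * hz φ zc 1 z x) + a ^ 2 := by
      funext z x; ring
    rw [e3, hS.Ex_add (Nh.sub (Nh.mul nz nz) (Nh.const_mul _ nz)) (Nh.fst (EG.const _)),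
      hS.Ex_sub (Nh.mul nz nz) (Nh.const_mul _ nz), Ex_const_mul, hS.Ex_const]
    have : S.Ex (fun z x => hz φ zc 1 z x) = a := rfl
    rw [this]
    linarith
  have h3 : 0 ≤ S.Ex (fun z x => uu S φ k z x ^ 2) := by
    have h7 := hS.Ex_mono (X := X) (f := fun _ _ => (0 : ℝ)) (g := fun z x => uu S φ k z x ^ 2)
      (Nh.fst (EG.const 0)) (Nh.pow nu' 2) fun z x => sq_nonneg _
    rwa [hS.Ex_const] at h7
  refine h2.trans ?_
  calc _ ≤ 1 / N * S.Ex (fun z x => uu S φ k z x ^ 2) := mul_le_mul_of_nonneg_right e2 h3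
    _ = _ := by ring

/-- **The lower row inequality** with the couplings of all the levels `≤ l`. -/
theorem lrowL (hs : 0 < s 1)
    (hP : S.Ex (fun z x => hz φ zc 1 z x * hz φ zc 1 z x) - S.Ex (hz φ zc 1) ^ 2 ≤ 1 / N)
    {D0 lam τ χ χl : ℝ} (hD : 0 < D0) (hlam : 0 ≤ lam) (hτ : 0 < τ)
    (hχ : χ = 1 - ∑ i ∈ Finset.Ico 1 (S.K + 1), S.p i * S.Rl φ i)
    (hχl : χl = 1 - ∑ i ∈ Finset.Ico l (S.K + 1), S.p i * S.Rl φ i) :
    2 * lam * (s 1 * χ * (2 + D0 - Bt * √N * χl) - Bt * √N * ∑ k ∈ Finset.Ico 1 l,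
        S.p k * √(S.Ex (fun z x => uu S φ k z x ^ 2) / N)) -
      (2 * (2 + D0) + τ) * lam ^ 2 * (1 + S.m 1 * s 1 ^ 2 * χ) -
      3 * ((entL S l + Real.log 3) / (N * D0)) -
      (2 / (2 + D0) + 1 / τ) * ((entL S l + Real.log 5) / (N / 8)) ≤
    (2 + D0) * S.Rl φ l - Bt * √N * (brkT S φ cb Bt l - S.m l * S.Rl φ l / N) := by
  have hR := F.reg
  have hS := F.reg.toReg
  have hN := F.N_pos
  have hK : 1 ≤ S.K := B.l1.trans hlK
  have hl1 := B.l1
  have hsN : 0 < √(N : ℝ) := Real.sqrt_pos.2 hN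
  have hNN : √(N : ℝ) * √N = N := Real.mul_self_sqrt hN.le
  have hBt := B.pos
  set z0 : ℝ := 2 + D0 with hz0
  have hz0p : 0 < z0 := by positivity
  have eX1 := eg_excG (D0 := D0) zb cb l Bt
  have eX2 := eg_excG2 zb cb l Bt
  have emg : ∀ i, EG (S.mg φ l i) := fun i => eg_mg' hS hlK i
  have eG : ∀ e, EG (fun z : ι → ℝ => GG zb cb l Bt z e) := fun e =>
    EG.sum _ fun j _ => (EG.coord (zb j e)).const_mul _
  have eDWD : EG (fun z => dd S φ l z ⬝ᵥ (W0 N (GG zb cb l Bt z) *ᵥ dd S φ l z)) := by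
    simp only [W0_bil]
    refine EG.sum _ fun e _ => ?_
    have h1 : EG (fun z : ι → ℝ => 1 / √(N : ℝ) * (GG zb cb l Bt z e * (S.mg φ l e.1.1 z *
        S.mg φ l e.1.2 z + S.mg φ l e.1.2 z * S.mg φ l e.1.1 z))) :=
      ((eG e).mul (((emg e.1.1).mul (emg e.1.2)).add ((emg e.1.2).mul (emg e.1.1)))).const_mul _
    have e2 : (fun z : ι → ℝ => GG zb cb l Bt z e / √(N : ℝ) * (dd S φ l z e.1.1 *
        dd S φ l z e.1.2 + dd S φ l z e.1.2 * dd S φ l z e.1.1)) = fun z : ι → ℝ =>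
        1 / √(N : ℝ) * (GG zb cb l Bt z e *
        (S.mg φ l e.1.1 z * S.mg φ l e.1.2 z + S.mg φ l e.1.2 z * S.mg φ l e.1.1 z)) := by
      funext z
      unfold dd
      ring
    rw [e2]
    exact h1
  have ehWD : EG (fun z => hh zc z ⬝ᵥ (W0 N (GG zb cb l Bt z) *ᵥ dd S φ l z)) := by
    simp only [W0_bil]
    refine EG.sum _ fun e _ => ?_
    have h1 : EG (fun z : ι → ℝ => 1 / √(N : ℝ) * (GG zb cb l Bt z e * (z (zc 1 e.1.1) *
        S.mg φ l e.1.2 z + z (zc 1 e.1.2) * S.mg φ l e.1.1 z))) :=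
      ((eG e).mul (((EG.coord (zc 1 e.1.1)).mul (emg e.1.2)).add
        ((EG.coord (zc 1 e.1.2)).mul (emg e.1.1)))).const_mul _
    have e2 : (fun z : ι → ℝ => GG zb cb l Bt z e / √(N : ℝ) * (hh zc z e.1.1 *
        dd S φ l z e.1.2 + hh zc z e.1.2 * dd S φ l z e.1.1)) = fun z : ι → ℝ =>
        1 / √(N : ℝ) * (GG zb cb l Bt z e *
        (z (zc 1 e.1.1) * S.mg φ l e.1.2 z + z (zc 1 e.1.2) * S.mg φ l e.1.1 z)) := by
      funext z
      unfold dd hh
      ring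
    rw [e2]
    exact h1
  have eDD : EG (fun z => dd S φ l z ⬝ᵥ dd S φ l z) := EG.sum _ fun i _ => (emg i).mul (emg i)
  have ehh : EG (fun z : ι → ℝ => hh zc z ⬝ᵥ hh zc z) :=
    EG.sum _ fun i _ => (EG.coord _).mul (EG.coord _)
  have ehD : EG (fun z => hh zc z ⬝ᵥ dd S φ l z) := EG.sum _ fun i _ => (EG.coord _).mul (emg i)
  -- the pointwise inequality
  have hspin := (B.bn 1 le_rfl hl1).spin
  have hpt : ∀ z, 2 * lam * (z0 * (hh zc z ⬝ᵥ dd S φ l z) -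
      hh zc z ⬝ᵥ (W0 N (GG zb cb l Bt z) *ᵥ dd S φ l z)) -
      (2 * z0 + τ) * lam ^ 2 * (hh zc z ⬝ᵥ hh zc z) -
      (N * 3) * max (nu N (GG zb cb l Bt z) - 2 - D0) 0 -
      (N * (2 / z0 + 1 / τ)) * max (nu N (GG zb cb l Bt z) - 2) 0 ^ 2 ≤
      z0 * (dd S φ l z ⬝ᵥ dd S φ l z) -
        dd S φ l z ⬝ᵥ (W0 N (GG zb cb l Bt z) *ᵥ dd S φ l z) := by
    intro z
    have h1 := spec_row0 (GG zb cb l Bt z) hz0p (dd S φ l z) (hh zc z) hlam hτ
    rw [dotProduct_sub, dotProduct_smul, dotProduct_sub, dotProduct_smul, smul_eq_mul,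
      smul_eq_mul] at h1
    have h2 : dd S φ l z ⬝ᵥ dd S φ l z ≤ N := by
      have h3 : ∀ i, dd S φ l z i * dd S φ l z i ≤ 1 := by
        intro i
        have h4 : |S.mg φ l i z| ≤ 1 := hS.abs_T_le hlK (Nh.snd fun x => φ x i) (fun z x => by
          have := hspin x i
          exact abs_le_one_iff_mul_self_le_one.2 this.le) z
        exact abs_le_one_iff_mul_self_le_one.1 h4
      calc dd S φ l z ⬝ᵥ dd S φ l z ≤ ∑ _i : Fin N, (1 : ℝ) := Finset.sum_le_sum fun i _ => h3 i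
        _ = N := by simp
    have h0 : 0 ≤ dd S φ l z ⬝ᵥ dd S φ l z := Finset.sum_nonneg fun i _ => mul_self_nonneg _
    have e1 : nu N (GG zb cb l Bt z) - z0 = nu N (GG zb cb l Bt z) - 2 - D0 := by rw [hz0]; ring
    rw [e1] at h1
    have h5 : 0 ≤ max (nu N (GG zb cb l Bt z) - 2 - D0) 0 := le_max_right _ _
    have h6 : max (nu N (GG zb cb l Bt z) - 2 - D0) 0 ^ 2 ≤
        max (nu N (GG zb cb l Bt z) - 2) 0 ^ 2 := pow_le_pow_left₀ h5 (exc_mono hD.le _) 2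
    have h7 : 0 < 2 / z0 + 1 / τ := by positivity
    have h8 : (3 * max (nu N (GG zb cb l Bt z) - 2 - D0) 0 + (2 / z0 + 1 / τ) *
        max (nu N (GG zb cb l Bt z) - 2 - D0) 0 ^ 2) * (dd S φ l z ⬝ᵥ dd S φ l z) ≤
        (N * 3) * max (nu N (GG zb cb l Bt z) - 2 - D0) 0 +
          (N * (2 / z0 + 1 / τ)) * max (nu N (GG zb cb l Bt z) - 2) 0 ^ 2 := by
      calc _ ≤ (3 * max (nu N (GG zb cb l Bt z) - 2 - D0) 0 + (2 / z0 + 1 / τ) *
            max (nu N (GG zb cb l Bt z) - 2) 0 ^ 2) * N := by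
            refine mul_le_mul ?_ h2 h0 (by positivity)
            exact add_le_add le_rfl (mul_le_mul_of_nonneg_left h6 h7.le)
        _ = _ := by ring
    linarith
  have hEx := hS.Ex_mono (X := X) (f := fun z _ => 2 * lam * (z0 * (hh zc z ⬝ᵥ dd S φ l z) -
      hh zc z ⬝ᵥ (W0 N (GG zb cb l Bt z) *ᵥ dd S φ l z)) -
      (2 * z0 + τ) * lam ^ 2 * (hh zc z ⬝ᵥ hh zc z) -
      (N * 3) * max (nu N (GG zb cb l Bt z) - 2 - D0) 0 -
      (N * (2 / z0 + 1 / τ)) * max (nu N (GG zb cb l Bt z) - 2) 0 ^ 2)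
      (g := fun z _ => z0 * (dd S φ l z ⬝ᵥ dd S φ l z) -
        dd S φ l z ⬝ᵥ (W0 N (GG zb cb l Bt z) *ᵥ dd S φ l z))
      (Nh.fst ((((((ehD.const_mul z0).sub ehWD).const_mul (2 * lam)).sub
        (ehh.const_mul _)).sub (eX1.const_mul _)).sub (eX2.const_mul _)))
      (Nh.fst ((eDD.const_mul z0).sub eDWD)) (fun z _ => hpt z)
  rw [hS.Ex_sub (Nh.fst (((((ehD.const_mul z0).sub ehWD).const_mul (2 * lam)).sub
        (ehh.const_mul _)).sub (eX1.const_mul _))) (Nh.fst (eX2.const_mul _)),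
    hS.Ex_sub (Nh.fst ((((ehD.const_mul z0).sub ehWD).const_mul (2 * lam)).sub
        (ehh.const_mul _))) (Nh.fst (eX1.const_mul _)),
    hS.Ex_sub (Nh.fst (((ehD.const_mul z0).sub ehWD).const_mul (2 * lam)))
      (Nh.fst (ehh.const_mul _)), Ex_const_mul, hS.Ex_sub (Nh.fst (ehD.const_mul z0)) (Nh.fst ehWD),
    Ex_const_mul, Ex_const_mul, Ex_const_mul, Ex_const_mul,
    hS.Ex_sub (Nh.fst (eDD.const_mul z0)) (Nh.fst eDWD), Ex_const_mul,
    Ex_DGD F B hlK, Ex_hGD F B hlK, Ex_hh F hK, Ex_hD F hl1 hlK, Ex_DD F hlK] at hEx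
  have x1 := exc_one F B hlK hD
  have x2 := exc_two F B hlK
  -- the response
  have hχ0 : 0 ≤ χ := by
    have h1 : ∑ i ∈ Finset.Ico 1 (S.K + 1), S.p i * S.Rl φ i ≤ 1 := by
      calc ∑ i ∈ Finset.Ico 1 (S.K + 1), S.p i * S.Rl φ i
          ≤ ∑ i ∈ Finset.Ico 1 (S.K + 1), S.p i := by
            refine Finset.sum_le_sum fun i hi => ?_
            rw [Finset.mem_Ico] at hi
            have h2 : 0 ≤ S.p i := by
              unfold Sy.p
              linarith [hS.mono i (by omega)]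
            calc S.p i * S.Rl φ i ≤ S.p i * 1 :=
                  mul_le_mul_of_nonneg_left (F.Rl_le_one (by omega)) h2
              _ = S.p i := mul_one _
        _ ≤ 1 := by
            rw [sum_p S (show 1 ≤ S.K + 1 by omega), hS.mK]
            linarith [hS.pos]
    linarith
  have hbn1 := B.bn 1 le_rfl hl1
  have hr : S.Ex (hz φ zc 1) - ∑ k ∈ Finset.Ico 1 (S.K + 1), S.p k *
      S.Ex (fun z x => hz φ zc 1 z x * uu S φ k z x) ≤ s 1 * χ ^ 2 := by
    rw [hχ]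
    exact Row.resp (zb := zb 1) (cb := cb 1) F ⟨hbn1.inj, hbn1.lev, hbn1.D, hbn1.spin,
      hbn1.ne, hbn1.injc, hK, B.c0⟩ hs hP
  rw [F.Ex_hz, ← hχ] at hEx
  have hEhz : S.Ex (hz φ zc 1) = s 1 * χ := by rw [F.Ex_hz, ← hχ]
  rw [hEhz] at hr
  have hp0 : ∀ k ∈ Finset.Ico 1 l, 0 ≤ S.p k := fun k hk => by
    rw [Finset.mem_Ico] at hk
    unfold Sy.p
    linarith [hS.mono k (by omega)]
  set δ := ∑ k ∈ Finset.Ico 1 l, S.p k * √(S.Ex (fun z x => uu S φ k z x ^ 2) / N) with hδ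
  set c := s 1 * χ with hc
  have hc0 : 0 ≤ c := mul_nonneg hs.le hχ0
  -- the response seen by the couplings of the level `j`
  have hY : ∀ j ∈ Finset.Icc 1 l, c - ∑ k ∈ Finset.Ico j (S.K + 1), S.p k *
      S.Ex (fun z x => hz φ zc 1 z x * uu S φ k z x) ≤ c * χl + δ := by
    intro j hj
    rw [Finset.mem_Icc] at hj
    have e1 : ∑ k ∈ Finset.Ico 1 (S.K + 1), S.p k *
        S.Ex (fun z x => hz φ zc 1 z x * uu S φ k z x) =
        ∑ k ∈ Finset.Ico 1 j, S.p k * S.Ex (fun z x => hz φ zc 1 z x * uu S φ k z x) +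
        ∑ k ∈ Finset.Ico j (S.K + 1), S.p k *
          S.Ex (fun z x => hz φ zc 1 z x * uu S φ k z x) :=
      (Finset.sum_Ico_consecutive _ hj.1 (show j ≤ S.K + 1 by omega)).symm
    have e2 : ∑ k ∈ Finset.Ico 1 j, S.p k * S.Ex (fun z x => hz φ zc 1 z x * uu S φ k z x) ≤
        ∑ k ∈ Finset.Ico 1 l, (c * (S.p k * S.Rl φ k) +
          S.p k * √(S.Ex (fun z x => uu S φ k z x ^ 2) / N)) := by
      calc ∑ k ∈ Finset.Ico 1 j, S.p k * S.Ex (fun z x => hz φ zc 1 z x * uu S φ k z x)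
          ≤ ∑ k ∈ Finset.Ico 1 j, (c * (S.p k * S.Rl φ k) +
            S.p k * √(S.Ex (fun z x => uu S φ k z x ^ 2) / N)) := by
            refine Finset.sum_le_sum fun k hk => ?_
            rw [Finset.mem_Ico] at hk
            have h1 := hz_uu_le F B hlK hP (k := k) (by omega)
            rw [hEhz] at h1
            have h2 := mul_le_mul_of_nonneg_left h1 (hp0 k (Finset.mem_Ico.2 ⟨hk.1, by omega⟩))
            linarith
        _ ≤ _ := by
            refine Finset.sum_le_sum_of_subset_of_nonneg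
              (Finset.Ico_subset_Ico_right hj.2) fun k hk _ => ?_
            have h3 := hp0 k hk
            rw [Finset.mem_Ico] at hk
            have h4 := F.Rl_nonneg (l := k) (by omega)
            positivity
    have e3 : ∑ k ∈ Finset.Ico 1 l, (c * (S.p k * S.Rl φ k) +
          S.p k * √(S.Ex (fun z x => uu S φ k z x ^ 2) / N)) = c * (χl - χ) + δ := by
      rw [Finset.sum_add_distrib, ← Finset.mul_sum]
      congr 2
      rw [hχl, hχ, ← Finset.sum_Ico_consecutive _ hl1 (show l ≤ S.K + 1 by omega)]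
      ring
    have e4 : s 1 * χ ^ 2 = c * χ := by rw [hc]; ring
    rw [e4] at hr
    nlinarith
  have hm0 : ∀ j ∈ Finset.Icc 1 l, 0 ≤ S.m j := fun j hj => by
    rw [Finset.mem_Icc] at hj
    exact (hS.m_pos hj.1 (by omega)).le
  have hmj : ∀ j ∈ Finset.Icc 1 l, S.m j ≤ S.m l := fun j hj => by
    rw [Finset.mem_Icc] at hj
    exact hS.m_mono hj.2 (by omega)
  have hσ : ∑ j ∈ Finset.Icc 1 l, cb j ^ 2 / Bt ^ 2 = 1 := by
    rw [← Finset.sum_div, B.sq, div_self (pow_ne_zero 2 hBt.ne')]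
  set b := Bt * √(N : ℝ) with hb
  have hb0 : 0 < b := mul_pos hBt hsN
  -- the term of the field
  have e1 : ∑ j ∈ Finset.Icc 1 l, cb j / Bt * (cb j / √(N : ℝ) * ((N : ℝ) ^ 2 *
      (c - ∑ k ∈ Finset.Ico j (S.K + 1), S.p k *
        S.Ex (fun z x => hz φ zc 1 z x * uu S φ k z x)) - S.m j * (N * c))) ≤
      N * (b * (c * χl + δ)) := by
    calc _ ≤ ∑ j ∈ Finset.Icc 1 l, cb j ^ 2 / Bt ^ 2 * (N * (b * (c * χl + δ))) := by
          refine Finset.sum_le_sum fun j hj => ?_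
          have h1 := hY j hj
          have h2 : 0 ≤ S.m j * (N * c) := mul_nonneg (hm0 j hj) (mul_nonneg hN.le hc0)
          have h3 : (N : ℝ) ^ 2 * (c - ∑ k ∈ Finset.Ico j (S.K + 1), S.p k *
              S.Ex (fun z x => hz φ zc 1 z x * uu S φ k z x)) - S.m j * (N * c) ≤
              (N : ℝ) ^ 2 * (c * χl + δ) := by
            have := mul_le_mul_of_nonneg_left h1 (sq_nonneg (N : ℝ))
            linarith
          have h4 : cb j / Bt * (cb j / √(N : ℝ) * ((N : ℝ) ^ 2 *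
              (c - ∑ k ∈ Finset.Ico j (S.K + 1), S.p k *
                S.Ex (fun z x => hz φ zc 1 z x * uu S φ k z x)) - S.m j * (N * c))) =
              cb j ^ 2 / (Bt * √(N : ℝ)) * ((N : ℝ) ^ 2 *
              (c - ∑ k ∈ Finset.Ico j (S.K + 1), S.p k *
                S.Ex (fun z x => hz φ zc 1 z x * uu S φ k z x)) - S.m j * (N * c)) := by
            field_simp
          rw [h4]
          refine (mul_le_mul_of_nonneg_left h3 (by positivity)).trans (le_of_eq ?_)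
          rw [hb]
          rw [div_mul_eq_mul_div, div_mul_eq_mul_div, div_eq_div_iff (by positivity) (by positivity)]
          linear_combination (-(cb j ^ 2 * N * (c * χl + δ) * Bt ^ 2)) * hNN
      _ = N * (b * (c * χl + δ)) := by rw [← Finset.sum_mul, hσ, one_mul]
  -- the term of the magnetization
  have e2 : N * (b * (brkT S φ cb Bt l - S.m l * S.Rl φ l / N)) ≤
      ∑ j ∈ Finset.Icc 1 l, cb j / Bt * (cb j / √(N : ℝ) * ((N : ℝ) ^ 2 * brk S φ j l -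
        S.m j * (N * S.Rl φ l))) := by
    have h0 : N * (b * (brkT S φ cb Bt l - S.m l * S.Rl φ l / N)) =
        ∑ j ∈ Finset.Icc 1 l, cb j ^ 2 / Bt ^ 2 * (N * (b * (brk S φ j l -
          S.m l * S.Rl φ l / N))) := by
      rw [← brkT_eq hS B hlK]
      have h1 : ∑ j ∈ Finset.Icc 1 l, cb j ^ 2 / Bt ^ 2 * (N * (b * (brk S φ j l -
          S.m l * S.Rl φ l / N))) = N * (b * (∑ j ∈ Finset.Icc 1 l,
            cb j ^ 2 / Bt ^ 2 * brk S φ j l - (∑ j ∈ Finset.Icc 1 l, cb j ^ 2 / Bt ^ 2) *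
              (S.m l * S.Rl φ l / N))) := by
        rw [Finset.sum_mul, ← Finset.sum_sub_distrib, Finset.mul_sum, Finset.mul_sum]
        refine Finset.sum_congr rfl fun j _ => ?_
        ring
      rw [h1, hσ, one_mul]
    rw [h0]
    refine Finset.sum_le_sum fun j hj => ?_
    have hRl := F.Rl_nonneg hlK
    have h1 : S.m j * (N * S.Rl φ l) ≤ S.m l * (N * S.Rl φ l) :=
      mul_le_mul_of_nonneg_right (hmj j hj) (mul_nonneg hN.le hRl)
    have h4 : cb j / Bt * (cb j / √(N : ℝ) * ((N : ℝ) ^ 2 * brk S φ j l -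
        S.m j * (N * S.Rl φ l))) = cb j ^ 2 / (Bt * √(N : ℝ)) * ((N : ℝ) ^ 2 * brk S φ j l -
        S.m j * (N * S.Rl φ l)) := by
      field_simp
    rw [h4]
    have h5 : cb j ^ 2 / Bt ^ 2 * (N * (b * (brk S φ j l - S.m l * S.Rl φ l / N))) =
        cb j ^ 2 / (Bt * √(N : ℝ)) * ((N : ℝ) ^ 2 * brk S φ j l - S.m l * (N * S.Rl φ l)) := by
      have h6 : (N : ℝ) * (b * (brk S φ j l - S.m l * S.Rl φ l / N)) =
          b * (N * brk S φ j l - S.m l * S.Rl φ l) := by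
        field_simp
      rw [h6, hb]
      rw [div_mul_eq_mul_div, div_mul_eq_mul_div, div_eq_div_iff (by positivity) (by positivity)]
      linear_combination (cb j ^ 2 * (N * brk S φ j l - S.m l * S.Rl φ l) * Bt ^ 2) * hNN
    rw [h5]
    exact mul_le_mul_of_nonneg_left (by linarith) (by positivity)
  have e3 : (N : ℝ) * (2 * lam * (c * (z0 - b * χl) - b * δ) -
      (2 * z0 + τ) * lam ^ 2 * (1 + S.m 1 * s 1 ^ 2 * χ) -
      3 * ((entL S l + Real.log 3) / (N * D0)) -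
      (2 / z0 + 1 / τ) * ((entL S l + Real.log 5) / (N / 8))) ≤
      N * (z0 * S.Rl φ l - b * (brkT S φ cb Bt l - S.m l * S.Rl φ l / N)) := by
    have h4 := mul_le_mul_of_nonneg_left e1 (show 0 ≤ 2 * lam by positivity)
    have h5 := mul_le_mul_of_nonneg_left x1 (show 0 ≤ (N : ℝ) * 3 by positivity)
    have h6 := mul_le_mul_of_nonneg_left x2 (show 0 ≤ (N : ℝ) * (2 / z0 + 1 / τ) by positivity)
    have h7 : s 1 * S.m 1 * c = S.m 1 * s 1 ^ 2 * χ := by rw [hc]; ring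
    rw [h7] at hEx
    linarith
  exact le_of_mul_le_mul_left e3 hN

end fin

end Vale.Agent.P146.H498.MRow
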