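import Vale.Agent.P146.H498.RowLQ0
import Vale.Agent.P146.H295.S3L0
import Vale.Agent.P146.H479.ApBx

/-!
# P146, lower half: the lower inner row, with no input left but the upper half (helper498)

`rowL : 1 < β → Ex2Out β → LStar β → H444.RowLBox β`.
-/

namespace Vale.Agent.P146.H498.RowLQ

open Vale.Agent.P146.U
open Vale.Agent.P146.H437 (puUp)
open Vale.Agent.P146.H444 (RowLBox)

/-- **The lower inner row under the box**, all constants chosen. -/
theorem rowL {β : ℝ} (hβ : 1 < β) (h2 : Ex2Out β) (hL : LStar β) : RowLBox β := by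
  have hβ0 : 0 < β := by linarith
  have hG : H97.CG β := H97.cg hβ0 h2 hL
  refine rowLBox_of hβ (puUp hβ0 h2 hL hG) (H479.apBx' hβ0 h2 hL) ?_
  intro S τ E0 d hτ hE0 hd
  exact H295.S3L.s3L0 hβ0 hG hτ hE0 hd

end Vale.Agent.P146.H498.RowLQ
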