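import Vale.Agent.P146.H457.IntL3
import Vale.Agent.P146.H310.CstL
import Vale.Agent.P146.H444.GlueL

/-!
# P146, lower half: the quantifiers of the lower inner row (helper498)

`rowLBox_of`: `H444.RowLBox` from helper457's `rowAt` (one share, all numbers fixed), helper310's
`cstL` (the constants of the spectral side), the upper bound `PuUp`, the a priori window `Ap` and
the comparison of the bundled law with the plain one.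
-/

open Set

namespace Vale.Agent.P146.H498.RowLQ

open Vale.Agent.P157 Vale.Agent.P157.Lv Vale.Agent.P157.Lv.Sy
open Vale.Agent.P146.H425 Vale.Agent.P146.H325 Vale.Agent.P146.U
open Vale.Agent.P146.H758 (Ap)
open Vale.Agent.P146.H437 (psiN PuUp RowL2 ev_one)
open Vale.Agent.P146.H457 (phiB rowAt PB)
open Vale.Agent.P146.H444 (Bx RowLBox)
open Vale.Agent.P146.H498.MRow (eLN)

/-- the size of `n u⁶` -/
lemma nu6 {n : ℕ} {K u : ℝ} (hn : 0 < n) (hK : 1 ≤ K)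
    (h : K * (n : ℝ) ^ (-(1 / 6) : ℝ) ≤ u) : K ≤ n * u ^ 6 := by
  have hn' : (0 : ℝ) < n := Nat.cast_pos.2 hn
  have h0 : 0 ≤ K * (n : ℝ) ^ (-(1 / 6) : ℝ) := by positivity
  have h1 := pow_le_pow_left₀ h0 h 6
  have h2 : ((n : ℝ) ^ (-(1 / 6) : ℝ)) ^ 6 = (n : ℝ)⁻¹ := by
    rw [← Real.rpow_natCast, ← Real.rpow_mul hn'.le]
    norm_num
    rw [Real.rpow_neg_one]
  rw [mul_pow, h2] at h1
  have h3 : K ^ 6 ≤ n * u ^ 6 := by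
    have := mul_le_mul_of_nonneg_left h1 hn'.le
    have e : (n : ℝ) * (K ^ 6 * (n : ℝ)⁻¹) = K ^ 6 := by field_simp
    rwa [e] at this
  have h4 : K ≤ K ^ 6 := le_self_pow₀ hK (by norm_num)
  linarith

/-- the pure upper bound with an absolute constant -/
def PuUpB (β : ℝ) : Prop := ∃ C : ℝ, ∃ n0 : ℕ, 0 < C ∧ 0 < n0 ∧ ∀ n : ℕ, n0 ≤ n → ∀ u : ℝ,
  (n : ℝ) ^ (-(1 / 6) : ℝ) ≤ u → u ≤ (n : ℝ) ^ (-(11 / 100) : ℝ) → PuUp n β C u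

/-- the a priori window from the box -/
def ApB (β : ℝ) : Prop := ∃ C : ℝ, ∃ n0 : ℕ, 0 < C ∧ 0 < n0 ∧ ∀ n : ℕ, n0 ≤ n →
  ∀ u B : ℝ, (n : ℝ) ^ (-(1 / 6) : ℝ) ≤ u → u ≤ (n : ℝ) ^ (-(11 / 100) : ℝ) → 0 ≤ B →
    Bx n β B u → Ap n β (51 / 100 * u) (4 * u) (8 * u ^ 3) (P1 n β (51 / 100 * u))
      (C * (B + 1) * (n * u ^ 5))

/-- the comparison of the bundled law with the plain one -/
def S3B (β : ℝ) : Prop := ∀ S τ E0 d : ℝ, 0 < τ → 0 ≤ E0 → 0 < d →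
  ∃ κ0 q0 K0 : ℝ, ∃ n0 : ℕ, 0 < κ0 ∧ 0 < q0 ∧ 1 ≤ K0 ∧ ∀ n : ℕ, n0 ≤ n →
    ∀ u : ℝ, K0 * (n : ℝ) ^ (-(1 / 6) : ℝ) ≤ u → u ≤ (n : ℝ) ^ (-(11 / 100) : ℝ) →
    Ap n β (51 / 100 * u) (4 * u) (8 * u ^ 3) (P1 n β (51 / 100 * u)) (E0 * (n * u ^ 5)) →
    ∀ (κ r q : ℝ) (N : ℕ), 0 < κ → κ ≤ 1 / 200 → 0 < r → r ≤ κ → 0 < q → q ≤ q0 → 2 ≤ N →
    ∀ T ∈ Set.Icc τ S, ∀ w ∈ Set.Icc (0 : ℝ) 1, ∀ V : {p // p ∈ PB N} → ℝ, (∀ p, 0 < V p) →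
    ∑ p, V p ≤ κ0 * u ^ 3 →
    |phiB n N β κ u S τ r q T w V - psiN n β τ u S 1 (1 + r) (1 + κ) T 0 w| ≤ d

lemma numk {η r q : ℝ} (hη : 0 < η) (hη1 : η ≤ 1) (hr : r ≤ η / 64) (hq : q ≤ η / 64) :
    (1 + η / 16) * (1 + 2 * r + q) ≤ 1 + η / 8 := by
  have h1 : (1 + η / 16) * (1 + 2 * r + q) ≤ (1 + η / 16) * (1 + 3 * (η / 64)) :=
    mul_le_mul_of_nonneg_left (by linarith) (by positivity)
  have h2 : η * η ≤ η * 1 := mul_le_mul_of_nonneg_left hη1 hη.le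
  nlinarith

lemma nume {C β S σ η e1 Y u n : ℝ} (hC : 0 < C) (hβ : 0 < β) (hS : 0 < S) (hσ : 0 < σ)
    (hσ2 : σ ^ 2 = 32 * (C + 1) / (β ^ 2 * S)) (hη : 0 < η) (he1 : 0 < e1) (hY : 0 < Y)
    (hS2 : 4096 * (C + 1) * (1 + 2 / η) / e1 ≤ S)
    (s5 : (S ^ 2 + 2 * Y * S) * u ^ 2 ≤ 4 * β * σ) (s7 : β ^ 2 * u ≤ e1 / 2)
    (s8 : 1 / (n * u ^ 2) ≤ u) :
    (1 + 2 / η) * (4 * β * σ + S ^ 2 * u ^ 2 + 2 * (Y * u ^ 2) * S) ^ 2 + β ^ 2 / (n * u ^ 2) ≤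
      e1 := by
  have t1 : 0 ≤ 4 * β * σ + S ^ 2 * u ^ 2 + 2 * (Y * u ^ 2) * S := by positivity
  have t2 : 4 * β * σ + S ^ 2 * u ^ 2 + 2 * (Y * u ^ 2) * S ≤ 8 * β * σ := by linarith
  have t3 := pow_le_pow_left₀ t1 t2 2
  have t4 : (8 * β * σ) ^ 2 = 2048 * (C + 1) / S := by
    rw [mul_pow, hσ2]
    field_simp
    ring
  rw [t4] at t3
  have t5 : (1 + 2 / η) * (2048 * (C + 1) / S) ≤ e1 / 2 := by
    rw [div_le_iff₀ he1] at hS2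
    rw [← mul_div_assoc, div_le_iff₀ hS]
    linarith
  have t6 : (1 + 2 / η) * (4 * β * σ + S ^ 2 * u ^ 2 + 2 * (Y * u ^ 2) * S) ^ 2 ≤
      (1 + 2 / η) * (2048 * (C + 1) / S) := mul_le_mul_of_nonneg_left t3 (by positivity)
  have t7 : β ^ 2 / (n * u ^ 2) ≤ e1 / 2 := by
    have e : β ^ 2 / (n * u ^ 2) = β ^ 2 * (1 / (n * u ^ 2)) := by ring
    rw [e]
    exact (mul_le_mul_of_nonneg_left s8 (by positivity)).trans s7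
  linarith

lemma numX {β κ η X : ℝ} (hβ : 1 < β) (hκ : 0 < κ) (hη1 : η ≤ 1)
    (hX : X = κ * (η / 16) / (224 * β ^ 2)) : X ≤ κ := by
  have h1 : 1 ≤ β ^ 2 := by nlinarith
  rw [hX, div_le_iff₀ (by positivity)]
  have h2 : κ * (η / 16) ≤ κ * 1 := mul_le_mul_of_nonneg_left (by linarith) hκ.le
  have h3 : κ * 1 ≤ κ * (224 * β ^ 2) := mul_le_mul_of_nonneg_left (by linarith) hκ.le
  exact h2.trans h3

lemma frac_le {a b M u : ℝ} (h0 : 0 < b) (hM : a / b ≤ M) (hu : 0 ≤ u) (h : M * u ≤ 1) :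
    a * u ≤ b := by
  have : a / b * u ≤ 1 := le_trans (mul_le_mul_of_nonneg_right hM hu) h
  rwa [div_mul_eq_mul_div, div_le_one h0] at this

/-- one scale and one share, the numbers chosen -/
lemma pt {n Nb : ℕ} {β κ u S τ r q κ0 κ1 κp E0 C d d1 e1 η th σ δ g0 X M1 Y T : ℝ}
    (hn0 : 0 < n) (hβ : 1 < β) (hC : 0 < C) (hκ : 0 < κ) (hκ2 : κ ≤ 1 / 200) (hη'0 : 0 < η)
    (hη'1 : η ≤ 1) (he1 : 0 < e1) (hS0 : 0 < S)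
    (hS2 : 4096 * (C + 1) * (1 + 2 / η) / e1 ≤ S) (hτ : 0 < τ) (hr : 0 < r) (hr1 : r ≤ η / 64)
    (hrκ : r ≤ κ) (hσ0 : 0 < σ) (hσ2 : σ ^ 2 = 32 * (C + 1) / (β ^ 2 * S)) (hth0 : 0 < th)
    (hth2 : th ^ 2 = 16 * (C + 1) / (β ^ 2 * τ) + 1) (hE0 : 0 < E0) (hd_1 : d ≤ 1)
    (hd_2 : 2 * d ≤ d1) (hκ0b : κ0 ≤ 1) (hκ1d : κ1 = κ0 / 2)
    (hXd : X = κ1 * (η / 16) / (224 * β ^ 2)) (hq : 0 < q) (hqb : q ≤ η / 64) (hqc : q ≤ 1 / 4)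
    (hNb : 2 ≤ Nb) (hδ : 0 < δ) (hg0 : 0 < g0) (hκp : 0 < κp) (hκpa : κp ≤ κ1)
    (hκpb : κp ≤ κ0 / (4 * ((Nb : ℝ) + 2))) (hM1d : M1 = 2048 * E0 / (κp ^ 2 * g0))
    (hYd : Y = 16 * E0 * β / κp + β * r * th) (hu : 0 < u) (hnuM : M1 ≤ (n : ℝ) * u ^ 6)
    (s2 : 8 * u ≤ 1) (s3 : 2 * S * u ^ 2 ≤ 1) (s4 : 8 * Y * u ^ 2 ≤ 1)
    (s5 : (S ^ 2 + 2 * Y * S) * u ^ 2 ≤ 4 * β * σ) (s6 : u ≤ 16 * (C + 1) / (β ^ 2 * S))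
    (s7 : β ^ 2 * u ≤ e1 / 2) (s8 : 1 / ((n : ℝ) * u ^ 2) ≤ u) (hPu : PuUp n β C u)
    (hAp : Ap n β (51 / 100 * u) (4 * u) (8 * u ^ 3) (P1 n β (51 / 100 * u))
      (E0 * (n * u ^ 5)))
    (hS3 : ∀ T ∈ Set.Icc τ S, ∀ w ∈ Set.Icc (0 : ℝ) 1, ∀ V : {p // p ∈ PB Nb} → ℝ,
      (∀ p, 0 < V p) → ∑ p, V p ≤ κ0 * u ^ 3 →
      |phiB n Nb β κ u S τ r q T w V - psiN n β τ u S 1 (1 + r) (1 + κ) T 0 w| ≤ d)
    (hc1 : eLN n β u ((Nb : ℝ) - 1) (q / Nb) g0 th σ q δ (8 * ((Nb : ℝ) + 2) * (C + 1)) ≤ X)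
    (hc2 : δ * u ^ 2 ≤ 1) (hc3 : 128 * β ^ 4 * th ^ 2 * u ≤ X * n) (hT : T ∈ Icc τ S) :
    ∃ θ α : ℝ, (∀ w' ∈ Set.Icc (0 : ℝ) 1, psiN n β τ u S 1 (1 + r) (1 + κ) T 0 w' ≤
        psiN n β τ u S 1 (1 + r) (1 + κ) T 0 0 + 1 / (4 * β) * α * w' + d1) ∧
      (∀ T' ∈ Set.Icc τ S, psiN n β τ u S 1 (1 + r) (1 + κ) T' 0 0 ≤
        psiN n β τ u S 1 (1 + r) (1 + κ) T 0 0 + θ * (T' - T) + d1) ∧
      0 ≤ θ ∧ r / 4 * ((1 - η) * (max (α - T) 0) ^ 2 - e1) ≤ θ := by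
  have hnR : (0 : ℝ) < n := Nat.cast_pos.2 hn0
  have hβ0 : 0 < β := by linarith
  have hκ1 : 0 < κ1 := by linarith
  have hY0 : 0 < Y := by rw [hYd]; positivity
  have hXκ : X ≤ κ1 := numX hβ hκ1 hη'1 hXd
  have hx : 16 * E0 * β * u ^ 2 / κp + β * (r * u) * (th * u) = Y * u ^ 2 := by
    rw [hYd]
    ring
  have a1 : κ1 + 2 * ((Nb : ℝ) + 2) * κp ≤ κ0 := by
    have h5 : κp * (4 * ((Nb : ℝ) + 2)) ≤ κ0 := by rwa [le_div_iff₀ (by positivity)] at hκpb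
    rw [hκ1d]
    linarith
  have a2 : 16 * (C + 1) / (β ^ 2 * S) + 1 / (n * u ^ 2) ≤ σ ^ 2 := by
    have h6 : 32 * (C + 1) / (β ^ 2 * S) = 2 * (16 * (C + 1) / (β ^ 2 * S)) := by ring
    rw [hσ2, h6]
    linarith
  have a3 : 16 * (C + 1) / (β ^ 2 * τ) + 1 / (n * u ^ 2) ≤ th ^ 2 := by
    rw [hth2]
    linarith
  have a4 : 2048 * E0 / (κp ^ 2 * (n * u ^ 6)) ≤ g0 := by
    have h7 : M1 * (κp ^ 2 * g0) = 2048 * E0 := by rw [hM1d]; field_simp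
    have h8 := mul_le_mul_of_nonneg_right hnuM (show 0 ≤ κp ^ 2 * g0 by positivity)
    rw [h7] at h8
    rw [div_le_iff₀ (by positivity)]
    linarith
  have a5 : 224 * β ^ 2 * eLN n β u ((Nb : ℝ) - 1) (q / Nb) g0 th σ q δ
      (8 * ((Nb : ℝ) + 2) * (C + 1)) ≤ κ1 * (η / 16) := by
    have h9 : 224 * β ^ 2 * X = κ1 * (η / 16) := by rw [hXd]; field_simp
    rw [← h9]
    exact mul_le_mul_of_nonneg_left hc1 (by positivity)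
  have a6 := nume (n := (n : ℝ)) hC hβ0 hS0 hσ0 hσ2 hη'0 he1 hY0 hS2 s5 s7 s8
  rw [← hx] at a6
  exact rowAt hn0 hβ.le hu s2 hκ hκ2 hr hrκ hNb hq hqc hτ hT (by linarith) hE0 hAp hC.le hPu
    hκp hκpa (by linarith) a1 (by linarith) hS3 hd_1 hd_2 hth0.le a3 hσ0.le a2 hδ hc2
    (hc3.trans (mul_le_mul_of_nonneg_right hXκ hnR.le)) (by positivity) (by linarith) a4 le_rfl
    (by rw [hx]; linarith) a5 hη'0 hη'1 (numk hη'0 hη'1 hr1 hqb) a6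

/-- **The quantifiers of the lower inner row.** -/
theorem rowLBox_of {β : ℝ} (hβ : 1 < β) (hP : PuUpB β) (hA : ApB β) (hS3 : S3B β) :
    RowLBox β := by
  obtain ⟨C, nP, hC, hnP, hP⟩ := hP
  obtain ⟨C', nA, hC', hnA, hA⟩ := hA
  have hβ0 : 0 < β := by linarith
  intro κ hκ hκ2 η e1 hη he1
  obtain ⟨η', hη'0, hη'1, hη'η⟩ : ∃ η' : ℝ, 0 < η' ∧ η' ≤ 1 ∧ η' ≤ η :=
    ⟨min η 1, lt_min hη one_pos, min_le_right _ _, min_le_left _ _⟩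
  refine ⟨max 1 (4096 * (C + 1) * (1 + 2 / η') / e1), fun S hS => ?_⟩
  have hS1 : 1 ≤ S := (le_max_left _ _).trans hS
  have hS2 : 4096 * (C + 1) * (1 + 2 / η') / e1 ≤ S := (le_max_right _ _).trans hS
  have hS0 : 0 < S := by linarith
  refine ⟨1, one_pos, fun τ hτ hτ1 d2 hd2 => ⟨η' / 64, by positivity,
    fun r hr hr1 hrκ N hN B d1 hB hd1 => ?_⟩⟩
  -- the numbers
  obtain ⟨σ, hσ0, hσ2⟩ : ∃ σ : ℝ, 0 < σ ∧ σ ^ 2 = 32 * (C + 1) / (β ^ 2 * S) :=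
    ⟨√(32 * (C + 1) / (β ^ 2 * S)), Real.sqrt_pos.2 (by positivity),
      Real.sq_sqrt (by positivity)⟩
  obtain ⟨th, hth0, hth2⟩ : ∃ th : ℝ, 0 < th ∧ th ^ 2 = 16 * (C + 1) / (β ^ 2 * τ) + 1 :=
    ⟨√(16 * (C + 1) / (β ^ 2 * τ) + 1), Real.sqrt_pos.2 (by positivity),
      Real.sq_sqrt (by positivity)⟩
  obtain ⟨E0, hE0d⟩ : ∃ E0 : ℝ, E0 = C' * (B + 1) := ⟨_, rfl⟩
  have hE0 : 0 < E0 := by rw [hE0d]; positivity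
  obtain ⟨d, hd, hd_1, hd_2⟩ : ∃ d : ℝ, 0 < d ∧ d ≤ 1 ∧ 2 * d ≤ d1 :=
    ⟨min 1 (d1 / 2), by positivity, min_le_left _ _, by
      have := min_le_right 1 (d1 / 2)
      linarith⟩
  obtain ⟨κ0', q0, K0, nS, hκ0', hq0, hK0, hS3⟩ := hS3 S τ E0 d hτ hE0.le hd
  obtain ⟨κ0, hκ0, hκ0a, hκ0b⟩ : ∃ κ0 : ℝ, 0 < κ0 ∧ κ0 ≤ κ0' ∧ κ0 ≤ 1 :=
    ⟨min κ0' 1, by positivity, min_le_left _ _, min_le_right _ _⟩
  obtain ⟨κ1, hκ1d⟩ : ∃ κ1 : ℝ, κ1 = κ0 / 2 := ⟨_, rfl⟩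
  have hκ1 : 0 < κ1 := by rw [hκ1d]; positivity
  obtain ⟨X, hXd⟩ : ∃ X : ℝ, X = κ1 * (η' / 16) / (224 * β ^ 2) := ⟨_, rfl⟩
  have hX : 0 < X := by rw [hXd]; positivity
  obtain ⟨q, Nb, δ, g0, u0, hq, hqq, hNb, hδ, hg0, hu0, hu01, hcst⟩ :=
    H310.cstL (D0 := C + 1) hβ.le hth0.le hσ0.le (by positivity) hX
      (q0 := min (min q0 (η' / 64)) (1 / 4)) (by positivity)
  have hqa : q ≤ q0 := hqq.trans ((min_le_left _ _).trans (min_le_left _ _))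
  have hqb : q ≤ η' / 64 := hqq.trans ((min_le_left _ _).trans (min_le_right _ _))
  have hqc : q ≤ 1 / 4 := hqq.trans (min_le_right _ _)
  obtain ⟨κp, hκp, hκpa, hκpb⟩ : ∃ κp : ℝ, 0 < κp ∧ κp ≤ κ1 ∧ κp ≤ κ0 / (4 * ((Nb : ℝ) + 2)) :=
    ⟨min κ1 (κ0 / (4 * ((Nb : ℝ) + 2))), by positivity, min_le_left _ _, min_le_right _ _⟩
  obtain ⟨M1, hM1d⟩ : ∃ M1 : ℝ, M1 = 2048 * E0 / (κp ^ 2 * g0) := ⟨_, rfl⟩
  obtain ⟨Y, hYd⟩ : ∃ Y : ℝ, Y = 16 * E0 * β / κp + β * r * th := ⟨_, rfl⟩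
  have hY0 : 0 < Y := by rw [hYd]; positivity
  have p1 : 0 < 1 / u0 := by positivity
  have p5 : 0 < (S ^ 2 + 2 * Y * S) / (4 * β * σ) := by positivity
  have p6 : 0 < β ^ 2 * S / (16 * (C + 1)) := by positivity
  have p7 : 0 < 2 * β ^ 2 / e1 := by positivity
  obtain ⟨ME, m1, m2, m3, m4, m5, m6, m7⟩ : ∃ ME : ℝ, 1 / u0 ≤ ME ∧ 8 ≤ ME ∧ 2 * S ≤ ME ∧
      8 * Y ≤ ME ∧ (S ^ 2 + 2 * Y * S) / (4 * β * σ) ≤ ME ∧ β ^ 2 * S / (16 * (C + 1)) ≤ ME ∧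
      2 * β ^ 2 / e1 ≤ ME :=
    ⟨1 / u0 + 8 + 2 * S + 8 * Y + (S ^ 2 + 2 * Y * S) / (4 * β * σ) +
      β ^ 2 * S / (16 * (C + 1)) + 2 * β ^ 2 / e1, by linarith, by linarith, by linarith,
      by linarith, by linarith, by linarith, by linarith⟩
  obtain ⟨nE, hnE, hE⟩ := ev_one ME
  refine ⟨max (max 1 M1) K0, max (max nP nA) (max nS nE), fun n hn u hu hu' hbox => ?_⟩
  have hnP' : nP ≤ n := (le_max_left _ _).trans ((le_max_left _ _).trans hn)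
  have hnA' : nA ≤ n := (le_max_right _ _).trans ((le_max_left _ _).trans hn)
  have hnS' : nS ≤ n := (le_max_left _ _).trans ((le_max_right _ _).trans hn)
  have hnE' : nE ≤ n := (le_max_right _ _).trans ((le_max_right _ _).trans hn)
  have hn0 : 0 < n := hnP.trans_le hnP'
  have hnR : (0 : ℝ) < n := Nat.cast_pos.2 hn0
  have hpow : (0 : ℝ) < (n : ℝ) ^ (-(1 / 6) : ℝ) := Real.rpow_pos_of_pos hnR _
  have hK1 : (1 : ℝ) ≤ max (max 1 M1) K0 := (le_max_left _ _).trans (le_max_left _ _)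
  have hu00 : (n : ℝ) ^ (-(1 / 6) : ℝ) ≤ u :=
    le_trans (le_mul_of_one_le_left hpow.le hK1) hu
  have huK0 : K0 * (n : ℝ) ^ (-(1 / 6) : ℝ) ≤ u :=
    (mul_le_mul_of_nonneg_right (le_max_right _ _) hpow.le).trans hu
  have hupos : 0 < u := hpow.trans_le hu00
  have hnu := nu6 hn0 hK1 hu
  have hnu1 : 1 ≤ (n : ℝ) * u ^ 6 := hK1.trans hnu
  have hnuM : M1 ≤ (n : ℝ) * u ^ 6 := ((le_max_right _ _).trans (le_max_left _ _)).trans hnu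
  -- the smallness of `u`
  obtain ⟨hEa, hEb⟩ := hE n hnE' u hupos hu'
  have hu2 : 0 < u ^ 2 := by positivity
  have s1 : u ≤ u0 := by
    have := frac_le hu0 m1 hupos.le hEa
    linarith
  have s2 : 8 * u ≤ 1 := le_trans (mul_le_mul_of_nonneg_right m2 hupos.le) hEa
  have s3 : 2 * S * u ^ 2 ≤ 1 := le_trans (mul_le_mul_of_nonneg_right m3 hu2.le) hEb
  have s4 : 8 * Y * u ^ 2 ≤ 1 := le_trans (mul_le_mul_of_nonneg_right m4 hu2.le) hEb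
  have s5 : (S ^ 2 + 2 * Y * S) * u ^ 2 ≤ 4 * β * σ := frac_le (by positivity) m5 hu2.le hEb
  have s6 : u ≤ 16 * (C + 1) / (β ^ 2 * S) := by
    have := frac_le (by positivity) m6 hupos.le hEa
    rw [le_div_iff₀ (by positivity)]
    linarith
  have s7 : β ^ 2 * u ≤ e1 / 2 := by
    have := frac_le he1 m7 hupos.le hEa
    linarith
  have hu1 : u ≤ 1 := by linarith
  have s8 : 1 / ((n : ℝ) * u ^ 2) ≤ u := by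
    rw [div_le_iff₀ (by positivity)]
    have h3 : u ^ 6 ≤ u ^ 3 := pow_le_pow_of_le_one hupos.le hu1 (by norm_num)
    have h4 : (n : ℝ) * u ^ 6 ≤ n * u ^ 3 := mul_le_mul_of_nonneg_left h3 hnR.le
    have e : u * ((n : ℝ) * u ^ 2) = n * u ^ 3 := by ring
    rw [e]
    linarith
  -- the inputs of the row
  have hPu := hP n hnP' u hu00 hu'
  have hAp := hA n hnA' u B hu00 hu' hB hbox
  rw [← hE0d] at hAp
  have hS3' := hS3 n hnS' u huK0 hu' hAp κ r q Nb hκ hκ2 hr hrκ hq hqa hNb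
  obtain ⟨hc1, hc2, hc3⟩ := hcst n u g0 hupos s1 hnu1 hg0.le le_rfl
  intro T hT
  have hTτ : T ∈ Icc τ S := ⟨le_trans (by
    have : 0 ≤ (S - τ) / (N : ℝ) := div_nonneg (by linarith) (Nat.cast_nonneg _)
    linarith) hT.1, hT.2⟩
  obtain ⟨θ, α, h1, h2, h3, h4⟩ := pt hn0 hβ hC hκ hκ2 hη'0 hη'1 he1 hS0 hS2 hτ hr hr1 hrκ hσ0
    hσ2 hth0 hth2 hE0 hd_1 hd_2 hκ0b hκ1d hXd hq hqb hqc hNb hδ hg0 hκp hκpa hκpb hM1d hYd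
    hupos hnuM s2 s3 s4 s5 s6 s7 s8 hPu hAp
    (fun T' hT' w hw V hV hVs => hS3' T' hT' w hw V hV
      (hVs.trans (mul_le_mul_of_nonneg_right hκ0a (by positivity)))) hc1 hc2 hc3 hTτ
  refine ⟨θ, α, h1, h2, ?_, ?_⟩
  · have : 0 ≤ r * d2 := by positivity
    linarith
  · refine le_trans ?_ h4
    have h5 : (1 - η) * (max (α - T) 0) ^ 2 ≤ (1 - η') * (max (α - T) 0) ^ 2 :=
      mul_le_mul_of_nonneg_right (by linarith) (sq_nonneg _)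
    exact mul_le_mul_of_nonneg_left (by linarith) (by positivity)

end Vale.Agent.P146.H498.RowLQ
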